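import Mathlib

/-!
P100, positivity of the calibration on the invariant region: the quantities of the final gauge in
the real variables `y = α ψ`, `z = α σ` (`σ = a₁ - G`) and `U = r f'`, and the region itself.
`D = α + β = N - 2`, `v = α - y`.
-/

namespace Vale.Agent.P100.Pos

variable (al be y z U : ℝ)

def dD : ℝ := al + be

def dN : ℝ := al + be + 2

def dM : ℝ := al + be + 1

def den : ℝ := y + be

def dl : ℝ := y - be

def dv : ℝ := al - y

/-- The slope of the clock. -/
noncomputable def l1 : ℝ := 2 * (al - be) / dD al be

/-- The factor `L` of the gauge. -/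
noncomputable def gL : ℝ := 1 + 2 * be / al + l1 al be * (1 - U / dD al be)

/-- `m - (N - 3)`. -/
noncomputable def gd : ℝ := -((al - be) / dD al be) ^ 2 * (1 - 2 * be ^ 2 / dD al be ^ 2)

/-- The exponent `m`. -/
noncomputable def gm : ℝ := dN al be - 3 + gd al be

/-- The gauge `c₅`. -/
noncomputable def c5 : ℝ :=
  dM al be * be * (1 - dv al y * gL al be U / dD al be) / den be y ^ 2

/-- `G` at `ψ = y / α`. -/
noncomputable def gG : ℝ := y * (dN al be + dv al y) / (al * den be y)

/-- The state `a₁`. -/
noncomputable def ga : ℝ := gG al be y + z / al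

/-- `dU/df`. -/
noncomputable def dU : ℝ := 2 - (ga al be y z - 1) * U

/-- `c₅ den² = M β - E`. -/
noncomputable def gE : ℝ := dM al be * be * dv al y * gL al be U / dD al be

/-- `dE/df`. -/
noncomputable def gE1 : ℝ :=
  dM al be * be / dD al be *
    (-(den be y * (z / al)) * gL al be U - dv al y * l1 al be * dU al be y z U / dD al be)

/-- `dc₅/df`. -/
noncomputable def c5' : ℝ :=
  -2 * (z / al) * c5 al be y U - gE1 al be y z U / den be y ^ 2

/-- `j` at `σ = 0`. -/
noncomputable def gj0 : ℝ :=
  (dN al be - 3 - 2 * dv al y) / den be y - gd al be / dl be y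

/-- `α De`. -/
noncomputable def aDe : ℝ := den be y * z + y * dv al y

/-- `2 c₅ - j`. -/
noncomputable def gw : ℝ := 2 * c5 al be y U - gj0 al be y + 2 * z / dl be y

/-- `C` up to the factor `De / (α den²)`. -/
noncomputable def gC : ℝ := gE al be y U - dM al be * aDe al be y z / dN al be

/-- The part of `A₂` without the square. -/
noncomputable def gP : ℝ :=
  c5 al be y U * (1 - gj0 al be y) - al * gE1 al be y z U / (den be y ^ 2 * dl be y)

noncomputable def gS : ℝ :=
  gE1 al be y z U - gE al be y U * (z / al) * den be y / dl be y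

/-- `κ den² α / De`, times `α De`. -/
noncomputable def kap : ℝ :=
  (-(dM al be) * gE al be y U * gw al be y z U ^ 2 / dN al be +
      4 * gC al be y z U * gP al be y z U -
      2 * dM al be * al * gw al be y z U * gS al be y z U / (dN al be * den be y)) *
      aDe al be y z -
    (al * gS al be y z U / den be y) ^ 2

/-- `dl rY / R`, the remaining inequality. -/
noncomputable def gB : ℝ :=
  al * (dM al be / den be y * (dN al be - 2 - gm al be) - 2 * c5 al be y U) +
    U * (dM al be / den be y * (2 - be + gm al be - al * ga al be y z) -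
      c5 al be y U * (2 - be + gm al be - al * gG al be y) - al * c5' al be y z U)

/-- The region that contains the ground state and its continuation up to `s = smax`. -/
structure Region : Prop where
  hbe : 1 ≤ be
  hal : be < al
  hD : 3 ≤ al + be
  hlo : 2 * be * (al - be) ≤ (y - be) * (dN al be ^ 2 + 2 * be + 6 * dN al be)
  hyal : y ≤ al
  hyh : y * dD al be ≤ be * dN al be
  hz : 0 ≤ z
  hz2 : den be y * z ≤ (al - y) * (be * dN al be / dD al be - y)
  hz1 : be * (dN al be + 2) * (den be y * z) ≤
    y * (y * (dN al be ^ 2 + 2 * be) - be * (dN al be ^ 2 + 2 * al)) +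
      if U ≤ 0 then
        dN al be * (dN al be + 2) * (al + 2) * dl be y * den be y /
            (y * (al - be) * (dN al be + 4)) *
          ((al - y) * (be * dN al be / dD al be - y))
      else 0
  hU0 : -2 ≤ U
  hU : U ≤ dD al be

theorem Region.hy {al be y z U : ℝ} (h : Region al be y z U) : be < y := by
  have := h.hbe
  have := h.hal
  have := h.hD
  have h1 := h.hlo
  by_contra hc
  rw [not_lt] at hc
  have h2 : (y - be) * (dN al be ^ 2 + 2 * be + 6 * dN al be) ≤ 0 :=
    mul_nonpos_of_nonpos_of_nonneg (by linarith) (by simp only [dN]; positivity)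
  have : 0 < 2 * be * (al - be) := mul_pos (by linarith) (by linarith)
  linarith

/-- For `U > 0` the state lies right of the zero of `q - G`. -/
theorem Region.hlo_of_pos {al be y z U : ℝ} (h : Region al be y z U) (hU : 0 < U) :
    be * (dN al be ^ 2 + 2 * al) ≤ y * (dN al be ^ 2 + 2 * be) := by
  have hy := h.hy
  have hbe := h.hbe
  have hal := h.hal
  have h1 := h.hz1
  rw [if_neg (not_le.2 hU), add_zero] at h1
  have h0 : 0 ≤ be * (dN al be + 2) * (den be y * z) := by
    have := h.hz
    simp only [dN, den]
    have : 0 ≤ y + be := by linarith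
    have : 0 ≤ al + be + 2 + 2 := by linarith
    positivity
  have := nonneg_of_mul_nonneg_right (h0.trans h1) (by linarith : 0 < y)
  linarith

end Vale.Agent.P100.Pos
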