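import Vale.Agent.P100.Pos.Defs

/-!
P100, clock gauge: the inequality `B₂ > 0` on the invariant region (real algebra).

With `τ = y - β`, `v = α - y`, `w = 2 β / D - τ`, `den z₂ = v w`, the numerator
`gB den² D / (N - 1)` is a convex quadratic in `U`, decreasing on `U ≤ D`.
-/

namespace Vale.Agent.P100.Pos

namespace BPos

variable {β δ τ : ℝ}

/-- `Kc`, the coefficient of `z₂ - z` at `U = D`. -/
noncomputable def Kc (β δ τ : ℝ) : ℝ :=
  (2 * β + τ) * (δ + 2 * β) - β * (2 * β ^ 2 / (β + δ) + τ * (1 + 2 * β / (β + δ))) -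
    β * (δ - τ) * (2 * δ / (δ + 2 * β))

/-- `1 + d`. -/
noncomputable def opd (β δ : ℝ) : ℝ :=
  1 - (δ / (δ + 2 * β)) ^ 2 * (1 - 2 * (β / (δ + 2 * β)) ^ 2)

/-- An affine function that is nonnegative at both ends is nonnegative between them. -/
theorem affine_between {a b lo hi t : ℝ} (h1 : 0 ≤ a + b * lo) (h2 : 0 ≤ a + b * hi)
    (hl : lo ≤ t) (hh : t ≤ hi) : 0 ≤ a + b * t := by
  rcases le_or_gt 0 b with hb | hb
  · nlinarith
  · nlinarith

theorem Kc_pos (hβ : 1 ≤ β) (hδ : 0 < δ) (h0 : 0 ≤ τ) (hhi : τ * (δ + 2 * β) ≤ 2 * β) :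
    0 < Kc β δ τ := by
  obtain ⟨b, hb, rfl⟩ : ∃ b, 0 ≤ b ∧ β = 1 + b := ⟨β - 1, by linarith, by ring⟩
  have hD : 0 < δ + 2 * (1 + b) := by linarith
  have hα : 0 < 1 + b + δ := by linarith
  have e0 : 0 < Kc (1 + b) δ 0 := by
    have e : Kc (1 + b) δ 0 = (2 * (1 + b) * (δ + 2 * (1 + b)) ^ 2 * (1 + b + δ) -
        2 * (1 + b) ^ 3 * (δ + 2 * (1 + b)) - 2 * (1 + b) * δ ^ 2 * (1 + b + δ)) /
        ((1 + b + δ) * (δ + 2 * (1 + b))) := by
      simp only [Kc]; field_simp; ring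
    rw [e]
    refine div_pos ?_ (by positivity)
    ring_nf
    positivity
  have e1 : 0 < Kc (1 + b) δ (2 * (1 + b) / (δ + 2 * (1 + b))) := by
    have e : Kc (1 + b) δ (2 * (1 + b) / (δ + 2 * (1 + b))) =
        ((2 * (1 + b) * (δ + 2 * (1 + b)) ^ 2 * (1 + b + δ) -
          2 * (1 + b) ^ 3 * (δ + 2 * (1 + b)) - 2 * (1 + b) * δ ^ 2 * (1 + b + δ)) *
            (δ + 2 * (1 + b)) +
        ((δ + 2 * (1 + b)) ^ 2 * (1 + b + δ) - (1 + b) * (1 + b + δ + 2 * (1 + b)) *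
            (δ + 2 * (1 + b)) + 2 * (1 + b) * δ * (1 + b + δ)) * (2 * (1 + b))) /
        ((1 + b + δ) * (δ + 2 * (1 + b)) ^ 2) := by
      simp only [Kc]; field_simp; ring
    rw [e]
    refine div_pos ?_ (by positivity)
    ring_nf
    positivity
  have hτ : τ ≤ 2 * (1 + b) / (δ + 2 * (1 + b)) := by rw [le_div_iff₀ hD]; linarith
  set c := Kc (1 + b) δ 1 - Kc (1 + b) δ 0
  have lin : ∀ t, Kc (1 + b) δ t = Kc (1 + b) δ 0 + c * t := fun t => by
    simp only [c, Kc]; ring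
  rw [lin] at e1
  rw [lin τ]
  rcases le_or_gt 0 c with hc | hc
  · nlinarith
  · nlinarith

theorem Kc_ge_lin (hβ : 1 ≤ β) (hδ : 0 < δ)
    (hlo : 2 * β * δ ≤ τ * ((δ + 2 * β + 2) ^ 2 + 2 * β)) (hhi : τ * (δ + 2 * β) ≤ 2 * β) :
    δ * (2 * β - (δ + 2 * β) * τ) ≤ (1 + δ / (δ + 2 * β) / 2) * Kc β δ τ := by
  obtain ⟨b, hb, rfl⟩ : ∃ b, 0 ≤ b ∧ β = 1 + b := ⟨β - 1, by linarith, by ring⟩
  have hD : 0 < δ + 2 * (1 + b) := by linarith
  have hα : 0 < 1 + b + δ := by linarith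
  have hQ : 0 < (δ + 2 * (1 + b) + 2) ^ 2 + 2 * (1 + b) := by positivity
  set g : ℝ → ℝ := fun t => (1 + δ / (δ + 2 * (1 + b)) / 2) * Kc (1 + b) δ t -
    δ * (2 * (1 + b) - (δ + 2 * (1 + b)) * t) with hg
  set lo := 2 * (1 + b) * δ / ((δ + 2 * (1 + b) + 2) ^ 2 + 2 * (1 + b))
  have g0 : 0 ≤ g lo := by
    have e : g lo =
        (((2 * (1 + b) * (δ + 2 * (1 + b)) ^ 2 * (1 + b + δ) -
            2 * (1 + b) ^ 3 * (δ + 2 * (1 + b)) - 2 * (1 + b) * δ ^ 2 * (1 + b + δ)) *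
              ((δ + 2 * (1 + b) + 2) ^ 2 + 2 * (1 + b)) +
          ((δ + 2 * (1 + b)) ^ 2 * (1 + b + δ) - (1 + b) * (1 + b + δ + 2 * (1 + b)) *
            (δ + 2 * (1 + b)) + 2 * (1 + b) * δ * (1 + b + δ)) * (2 * (1 + b) * δ)) *
              (2 * (δ + 2 * (1 + b)) + δ) -
          (2 * (1 + b) * δ * (1 + b + δ) * (δ + 2 * (1 + b)) *
              ((δ + 2 * (1 + b) + 2) ^ 2 + 2 * (1 + b)) -
            δ * (δ + 2 * (1 + b)) ^ 2 * (1 + b + δ) * (2 * (1 + b) * δ)) *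
              (2 * (δ + 2 * (1 + b)))) /
        ((1 + b + δ) * (δ + 2 * (1 + b)) * ((δ + 2 * (1 + b) + 2) ^ 2 + 2 * (1 + b)) *
          (2 * (δ + 2 * (1 + b)))) := by
      simp only [g, lo, Kc]; field_simp; ring
    rw [e]
    refine div_nonneg ?_ (by positivity)
    ring_nf
    positivity
  have g1 : 0 ≤ g (2 * (1 + b) / (δ + 2 * (1 + b))) := by
    have e : g (2 * (1 + b) / (δ + 2 * (1 + b))) = (1 + δ / (δ + 2 * (1 + b)) / 2) *
        Kc (1 + b) δ (2 * (1 + b) / (δ + 2 * (1 + b))) := by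
      simp only [g]; field_simp; ring
    rw [e]
    exact mul_nonneg (by positivity)
      (Kc_pos hβ hδ (by positivity) (le_of_eq (div_mul_cancel₀ _ hD.ne'))).le
  have hl : lo ≤ τ := by rw [div_le_iff₀ hQ]; linarith
  have hh : τ ≤ 2 * (1 + b) / (δ + 2 * (1 + b)) := by rw [le_div_iff₀ hD]; linarith
  have lin : ∀ t, g t = g 0 + (g 1 - g 0) * t := fun t => by simp only [g, Kc]; ring
  rw [lin] at g0 g1
  have := affine_between g0 g1 hl hh
  rw [← lin] at this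
  simp only [g] at this
  linarith

theorem Kc_ge_sq (hβ : 1 ≤ β) (hδ : β ≤ 2 * δ) (h0 : 0 ≤ τ) (hhi : τ * (δ + 2 * β) ≤ 2 * β) :
    2 * β ^ 2 * (δ + 2 * β) / (β + δ) ≤ Kc β δ τ := by
  have hD : 0 < δ + 2 * β := by linarith
  have hα : 0 < β + δ := by linarith
  have e : Kc β δ τ - 2 * β ^ 2 * (δ + 2 * β) / (β + δ) =
      (2 * β * (δ + 2 * β) ^ 2 * (β + δ) - 2 * β ^ 3 * (δ + 2 * β) - 2 * β * δ ^ 2 * (β + δ) -
          2 * β ^ 2 * (δ + 2 * β) ^ 2 +
        ((δ + 2 * β) ^ 2 * (β + δ) - β * (β + δ + 2 * β) * (δ + 2 * β) +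
          2 * β * δ * (β + δ)) * τ) / ((β + δ) * (δ + 2 * β)) := by
    simp only [Kc]; field_simp; ring
  have hc : 0 ≤ (δ + 2 * β) ^ 2 * (β + δ) - β * (β + δ + 2 * β) * (δ + 2 * β) +
      2 * β * δ * (β + δ) := by
    obtain ⟨e, he, rfl⟩ : ∃ e, 0 ≤ e ∧ δ = β / 2 + e := ⟨δ - β / 2, by linarith, by ring⟩
    obtain ⟨b, hb, rfl⟩ : ∃ b, 0 ≤ b ∧ β = 1 + b := ⟨β - 1, by linarith, by ring⟩
    ring_nf
    positivity
  have hk : 0 ≤ 2 * β * (δ + 2 * β) ^ 2 * (β + δ) - 2 * β ^ 3 * (δ + 2 * β) -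
      2 * β * δ ^ 2 * (β + δ) - 2 * β ^ 2 * (δ + 2 * β) ^ 2 := by
    obtain ⟨e, he, rfl⟩ : ∃ e, 0 ≤ e ∧ δ = β / 2 + e := ⟨δ - β / 2, by linarith, by ring⟩
    obtain ⟨b, hb, rfl⟩ : ∃ b, 0 ≤ b ∧ β = 1 + b := ⟨β - 1, by linarith, by ring⟩
    ring_nf
    positivity
  rw [← sub_nonneg, e]
  exact div_nonneg (add_nonneg hk (mul_nonneg hc h0)) (by positivity)

theorem half_poly (hβ : 1 ≤ β) (hδ : 0 < δ) :
    0 ≤ β * (δ + 2 * β + 4) * (δ * (δ + 2 * β) ^ 3 - 2 * β * δ ^ 2) *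
        (2 * β * (δ + 2 * β) ^ 3 - (δ + 2 * β) * (2 * β * δ ^ 2)) -
      2 * (β * (δ + 2 * β) ^ 3 + 2 * β * δ ^ 2) *
        (2 * β * δ ^ 2 * ((δ + 2 * β + 2) ^ 2 + 2 * β) - 2 * β * δ * (δ + 2 * β) ^ 3) *
          (δ + 2 * β) := by
  obtain ⟨b, hb, rfl⟩ : ∃ b, 0 ≤ b ∧ β = 1 + b := ⟨β - 1, by linarith, by ring⟩
  ring_nf
  positivity

/-- Below `2 β δ² / D³` the bound `z ≤ z₁` gives `z ≤ z₂ / 2`. -/
theorem zz_le_half {zz : ℝ} (hβ : 1 ≤ β) (hδ : 0 < δ)
    (hlo : 2 * β * δ ≤ τ * ((δ + 2 * β + 2) ^ 2 + 2 * β))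
    (ht : τ * (δ + 2 * β) ^ 3 ≤ 2 * β * δ ^ 2)
    (hz1 : β * (δ + 2 * β + 4) * zz ≤
      (β + τ) * (τ * ((δ + 2 * β + 2) ^ 2 + 2 * β) - 2 * β * δ)) :
    2 * zz ≤ (δ - τ) * (2 * β / (δ + 2 * β) - τ) := by
  have hp := half_poly hβ hδ
  have hD : 0 < δ + 2 * β := by linarith
  have hD2 : δ ^ 2 ≤ (δ + 2 * β) ^ 2 := pow_le_pow_left₀ hδ.le (by linarith) 2
  set D := δ + 2 * β with hDd
  set Q := (D + 2) ^ 2 + 2 * β
  have hQ : 0 < Q := by positivity
  set t := 2 * β * δ ^ 2 / D ^ 3 with htd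
  have hτ : τ ≤ t := by rw [le_div_iff₀ (by positivity)]; linarith
  have htδ : 2 * β * δ ^ 2 / D ^ 3 ≤ δ := by
    rw [div_le_iff₀ (by positivity)]
    nlinarith [mul_le_mul (by linarith : 2 * β ≤ D) hD2 (sq_nonneg δ) hD.le,
      mul_pos hδ hD, mul_nonneg hδ.le (sq_nonneg D)]
  have htw : t ≤ 2 * β / D := by
    rw [htd, div_le_div_iff₀ (by positivity) hD]
    nlinarith [mul_le_mul_of_nonneg_left hD2 (by positivity : (0:ℝ) ≤ 2 * β * D)]
  have hτ0 : 0 ≤ τ := by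
    by_contra h
    nlinarith
  have h1 : (β + τ) * (τ * Q - 2 * β * δ) ≤ (β + t) * (t * Q - 2 * β * δ) :=
    mul_le_mul (by linarith) (by nlinarith) (by linarith) (by linarith)
  have h2 : (δ - t) * (2 * β / D - t) ≤ (δ - τ) * (2 * β / D - τ) :=
    mul_le_mul (by linarith) (by linarith) (by linarith) (by linarith)
  have h3 : 2 * ((β + t) * (t * Q - 2 * β * δ)) ≤
      β * (D + 4) * ((δ - t) * (2 * β / D - t)) := by
    have e : β * (D + 4) * ((δ - t) * (2 * β / D - t)) -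
        2 * ((β + t) * (t * Q - 2 * β * δ)) =
        (β * (D + 4) * (δ * D ^ 3 - 2 * β * δ ^ 2) * (2 * β * D ^ 3 - D * (2 * β * δ ^ 2)) -
          2 * (β * D ^ 3 + 2 * β * δ ^ 2) * (2 * β * δ ^ 2 * Q - 2 * β * δ * D ^ 3) * D) /
          (D ^ 6 * D) := by
      rw [htd]; field_simp
    rw [← sub_nonneg, e]
    exact div_nonneg hp (by positivity)
  have h4 : β * (D + 4) * (2 * zz) ≤ β * (D + 4) * ((δ - τ) * (2 * β / D - τ)) := by
    have := mul_le_mul_of_nonneg_left h2 (by positivity : (0:ℝ) ≤ β * (D + 4))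
    linarith
  exact le_of_mul_le_mul_left h4 (by positivity)

/-- The numerator at `U = D`, divided by `D`: it is at least `2 β² v (1 + d) / α`. -/
theorem at_top {z z₂ : ℝ} (hβ : 1 ≤ β) (hδ : 0 < δ) (hD3 : 3 ≤ δ + 2 * β)
    (hlo : 2 * β * δ ≤ τ * ((δ + 2 * β + 2) ^ 2 + 2 * β)) (hτδ : τ ≤ δ)
    (hhi : τ * (δ + 2 * β) ≤ 2 * β) (_hz : 0 ≤ z) (hz2 : z ≤ z₂)
    (hz₂ : z₂ * (2 * β + τ) = (δ - τ) * (2 * β / (δ + 2 * β) - τ))
    (hz1 : β * (δ + 2 * β + 4) * ((2 * β + τ) * z) ≤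
      (β + τ) * (τ * ((δ + 2 * β + 2) ^ 2 + 2 * β) - 2 * β * δ)) :
    2 * β ^ 2 * (δ - τ) * opd β δ / (β + δ) * (τ / (2 * β + τ)) ≤
      (z₂ - z) * Kc β δ τ - 2 * β ^ 2 * (δ + 2 * β) / (β + δ) * z +
      2 * β ^ 2 * (δ - τ) * opd β δ / (β + δ) := by
  have hD : 0 < δ + 2 * β := by linarith
  have hα : 0 < β + δ := by linarith
  have hτ0 : 0 ≤ τ := by
    by_contra h
    nlinarith [mul_neg_of_neg_of_pos (not_le.1 h)
      (by positivity : (0:ℝ) < (δ + 2 * β + 2) ^ 2 + 2 * β)]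
  have hu : δ / (δ + 2 * β) < 1 := by rw [div_lt_one hD]; linarith
  have hu0 : 0 ≤ δ / (δ + 2 * β) := by positivity
  have hb0 : 0 ≤ (β / (δ + 2 * β)) ^ 2 := sq_nonneg _
  have hopd : 0 ≤ opd β δ := by
    unfold opd
    nlinarith [mul_nonneg (sq_nonneg (δ / (δ + 2 * β))) hb0, mul_le_one₀ hu.le hu0 hu.le]
  rcases le_or_gt (2 * β * δ ^ 2) (τ * (δ + 2 * β) ^ 3) with hbig | hsmall
  · -- `D z₂ ≤ v (1 + d)`
    have hKc := Kc_pos hβ hδ hτ0 hhi
    have hk : (δ + 2 * β) * z₂ ≤ (δ - τ) * opd β δ * (1 - τ / (2 * β + τ)) := by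
      have h1 : 2 * β * (δ / (δ + 2 * β)) ^ 2 ≤ τ * (δ + 2 * β) := by
        rw [div_pow, mul_div_assoc', div_le_iff₀ (by positivity)]
        linarith
      have h2 : (δ + 2 * β) * (2 * β / (δ + 2 * β) - τ) ≤ 2 * β * opd β δ := by
        rw [mul_sub, mul_div_cancel₀ _ hD.ne']
        have h3 : 1 - (δ / (δ + 2 * β)) ^ 2 ≤ opd β δ := by
          unfold opd; nlinarith [mul_nonneg (sq_nonneg (δ / (δ + 2 * β))) hb0]
        nlinarith [mul_le_mul_of_nonneg_left h3 (by linarith : (0:ℝ) ≤ 2 * β)]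
      refine le_of_mul_le_mul_right ?_ (by linarith : (0:ℝ) < 2 * β + τ)
      rw [mul_assoc, hz₂]
      calc (δ + 2 * β) * ((δ - τ) * (2 * β / (δ + 2 * β) - τ))
          = (δ - τ) * ((δ + 2 * β) * (2 * β / (δ + 2 * β) - τ)) := by ring
        _ ≤ (δ - τ) * (2 * β * opd β δ) := mul_le_mul_of_nonneg_left h2 (by linarith)
        _ = (δ - τ) * opd β δ * (1 - τ / (2 * β + τ)) * (2 * β + τ) := by
          have : 2 * β + τ ≠ 0 := by linarith
          field_simp
          ring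
    have h5 : 2 * β ^ 2 / (β + δ) * ((δ + 2 * β) * z) ≤
        2 * β ^ 2 / (β + δ) * ((δ - τ) * opd β δ * (1 - τ / (2 * β + τ))) :=
      mul_le_mul_of_nonneg_left (le_trans (mul_le_mul_of_nonneg_left hz2 hD.le) hk)
        (by positivity)
    have h6 : 0 ≤ (z₂ - z) * Kc β δ τ := mul_nonneg (by linarith) hKc.le
    have h7 : 2 * β ^ 2 * (δ + 2 * β) / (β + δ) * z =
        2 * β ^ 2 / (β + δ) * ((δ + 2 * β) * z) := by ring
    have h8 : 2 * β ^ 2 * (δ - τ) * opd β δ / (β + δ) * (1 - τ / (2 * β + τ)) =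
        2 * β ^ 2 / (β + δ) * ((δ - τ) * opd β δ * (1 - τ / (2 * β + τ))) := by ring
    linarith
  · have hh := zz_le_half hβ hδ hlo hsmall.le hz1
    have hzh : 2 * z ≤ z₂ := by
      refine le_of_mul_le_mul_right ?_ (by linarith : (0:ℝ) < 2 * β + τ)
      rw [hz₂]; linarith
    have hd : β ≤ 2 * δ := by
      by_contra hc
      have h1 : 4 * δ ≤ δ + 2 * β := by linarith
      have h2 : (δ + 2 * β) ^ 3 < δ * ((δ + 2 * β + 2) ^ 2 + 2 * β) := by
        have : 2 * β * δ * (δ + 2 * β) ^ 3 <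
            2 * β * δ * (δ * ((δ + 2 * β + 2) ^ 2 + 2 * β)) := by
          have a := mul_le_mul_of_nonneg_right hlo (pow_nonneg hD.le 3)
          have b := mul_lt_mul_of_pos_right hsmall
            (by positivity : (0:ℝ) < (δ + 2 * β + 2) ^ 2 + 2 * β)
          linarith
        exact lt_of_mul_lt_mul_left this (by positivity)
      have h3 : (δ + 2 * β + 2) ^ 2 + 2 * β ≤ (δ + 2 * β) ^ 2 + 5 * (δ + 2 * β) + 4 := by
        linarith
      have h4 := mul_le_mul h1 h3 (by positivity) hD.le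
      nlinarith [mul_le_mul_of_nonneg_left hD3 hD.le]
    have hK := Kc_ge_sq hβ hd hτ0 hhi
    have h6 := mul_le_mul_of_nonneg_left hK (by linarith : 0 ≤ z₂ - z)
    have h7 : 2 * β ^ 2 * (δ + 2 * β) / (β + δ) * z ≤
        (z₂ - z) * (2 * β ^ 2 * (δ + 2 * β) / (β + δ)) := by
      rw [mul_comm (z₂ - z)]
      exact mul_le_mul_of_nonneg_left (by linarith) (by positivity)
    have h8 : 2 * β ^ 2 * (δ - τ) * opd β δ / (β + δ) * (τ / (2 * β + τ)) ≤
        2 * β ^ 2 * (δ - τ) * opd β δ / (β + δ) := by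
      refine mul_le_of_le_one_right ?_ (by rw [div_le_one (by linarith)]; linarith)
      have : 0 ≤ δ - τ := by linarith
      positivity
    linarith

/-- The slope at `U = D` is at most `- u² f Kc`, and the curvature is nonnegative. -/
theorem slope_top {z z₂ : ℝ} (hβ : 1 ≤ β) (hδ : 0 < δ)
    (hlo : 2 * β * δ ≤ τ * ((δ + 2 * β + 2) ^ 2 + 2 * β)) (hτδ : τ ≤ δ)
    (hhi : τ * (δ + 2 * β) ≤ 2 * β) (hz : 0 ≤ z) (hz2 : z ≤ z₂)
    (hz₂ : z₂ * (2 * β + τ) = (δ - τ) * (2 * β / (δ + 2 * β) - τ)) :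
    (opd β δ - 2 * (β + δ) / (δ + 2 * β)) * Kc β δ τ +
        (z₂ - z) * (Kc β δ τ - 2 * β * (δ - τ) * (2 * δ / (δ + 2 * β))) +
        z * β * (δ + 2 * β) * (2 * δ / (δ + 2 * β) - 2 * β / (β + δ)) ≤
      -((1 - opd β δ - (δ / (δ + 2 * β)) ^ 2 / 2) * Kc β δ τ) ∧
    0 ≤ β * (2 * δ / (δ + 2 * β)) * ((2 * β + τ) * z +
      (δ - τ) * (2 * (β + δ) / (δ + 2 * β) - (opd β δ - 2 * (β + δ) / (δ + 2 * β)) -
        2 * (z₂ - z) + z)) := by
  have hD : 0 < δ + 2 * β := by linarith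
  have hα : 0 < β + δ := by linarith
  have hτ0 : 0 ≤ τ := by
    by_contra h
    nlinarith [mul_neg_of_neg_of_pos (not_le.1 h)
      (by positivity : (0:ℝ) < (δ + 2 * β + 2) ^ 2 + 2 * β)]
  have hK := Kc_pos hβ hδ hτ0 hhi
  have hK' := Kc_ge_lin hβ hδ hlo hhi
  set u := δ / (δ + 2 * β) with hud
  have hu0 : 0 ≤ u := by positivity
  have h2u : 2 * δ / (δ + 2 * β) = 2 * u := by rw [hud]; ring
  have hau : 2 * (β + δ) / (δ + 2 * β) = 1 + u := by rw [hud]; field_simp; ring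
  have hz0 : 0 ≤ z₂ := hz.trans hz2
  have hwle : 2 * β / (δ + 2 * β) - τ ≤ 2 * β / (δ + 2 * β) := by linarith
  have hw0 : 0 ≤ 2 * β / (δ + 2 * β) - τ := by
    rw [sub_nonneg, le_div_iff₀ hD]; linarith
  have hzu : z₂ * (2 * β * (δ + 2 * β)) ≤ δ * (2 * β - (δ + 2 * β) * τ) := by
    have h1 : z₂ * (2 * β) ≤ z₂ * (2 * β + τ) := mul_le_mul_of_nonneg_left (by linarith) hz0
    have h2 : (δ - τ) * (2 * β / (δ + 2 * β) - τ) ≤ δ * (2 * β / (δ + 2 * β) - τ) :=
      mul_le_mul_of_nonneg_right (by linarith) hw0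
    have h3 := mul_le_mul_of_nonneg_right (h1.trans (hz₂.le.trans h2)) hD.le
    have h4 : δ * (2 * β / (δ + 2 * β) - τ) * (δ + 2 * β) = δ * (2 * β - (δ + 2 * β) * τ) := by
      field_simp
    linarith
  have hzu' : z₂ ≤ u := by
    rw [hud, le_div_iff₀ hD]
    have : z₂ * (2 * β * (δ + 2 * β)) ≤ 2 * β * δ := by
      have : 0 ≤ δ * ((δ + 2 * β) * τ) := by positivity
      linarith
    nlinarith
  have hopd : opd β δ ≤ 1 := by
    unfold opd
    have hb : β / (δ + 2 * β) ≤ 1 / 2 := by rw [div_le_iff₀ hD]; linarith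
    have : 0 ≤ 1 - 2 * (β / (δ + 2 * β)) ^ 2 := by
      nlinarith [div_nonneg (zero_le_one.trans hβ) hD.le]
    nlinarith [mul_nonneg (sq_nonneg (δ / (δ + 2 * β))) this]
  refine ⟨?_, ?_⟩
  · rw [hau]
    have h1 : (z₂ - z) * (Kc β δ τ - 2 * β * (δ - τ) * (2 * δ / (δ + 2 * β))) ≤
        (z₂ - z) * Kc β δ τ := by
      refine mul_le_mul_of_nonneg_left ?_ (by linarith)
      have : 0 ≤ 2 * β * (δ - τ) * (2 * δ / (δ + 2 * β)) := by
        have : 0 ≤ δ - τ := by linarith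
        positivity
      linarith
    have h2 : z * β * (δ + 2 * β) * (2 * δ / (δ + 2 * β) - 2 * β / (β + δ)) ≤
        z * u * (2 * β * (δ + 2 * β)) := by
      rw [h2u]
      have : 0 ≤ z * β * (δ + 2 * β) * (2 * β / (β + δ)) := by positivity
      linarith
    have h3 : (z₂ - z) * Kc β δ τ + z * u * (2 * β * (δ + 2 * β)) ≤
        u * ((1 + u / 2) * Kc β δ τ) := by
      rcases eq_or_lt_of_le hz0 with h | h
      · have hz0' : z = 0 := le_antisymm (hz2.trans h.symm.le) hz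
        subst hz0'
        rw [← h]
        nlinarith [mul_nonneg hu0 hK.le, mul_nonneg (sq_nonneg u) hK.le]
      · refine le_of_mul_le_mul_left ?_ h
        have a := mul_le_mul_of_nonneg_left hzu' (mul_nonneg (by linarith : 0 ≤ z₂ - z) hK.le)
        have b := mul_le_mul_of_nonneg_left (hzu.trans hK') (mul_nonneg hz hu0)
        have c : 0 ≤ (z₂ - z) * u * u * Kc β δ τ :=
          mul_nonneg (mul_nonneg (mul_nonneg (by linarith) hu0) hu0) hK.le
        linarith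
    linarith
  · rw [hau, h2u]
    have : 0 ≤ δ - τ := by linarith
    have h4 : 0 ≤ 1 + u - (opd β δ - (1 + u)) - 2 * (z₂ - z) + z := by linarith
    positivity

/-- At `U = 0` the numerator still decreases, whatever the lower bound on `τ`. -/
theorem slope_zero {z z₂ : ℝ} (hβ : 1 ≤ β) (hδ : 0 < δ) (hτ0 : 0 ≤ τ) (hτδ : τ ≤ δ)
    (hhi : τ * (δ + 2 * β) ≤ 2 * β) (hz : 0 ≤ z) (hz2 : z ≤ z₂)
    (hz₂ : z₂ * (2 * β + τ) = (δ - τ) * (2 * β / (δ + 2 * β) - τ)) :
    (opd β δ - 2 * (β + δ) / (δ + 2 * β)) * Kc β δ τ +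
        (z₂ - z) * (Kc β δ τ - 2 * β * (δ - τ) * (2 * δ / (δ + 2 * β))) +
        z * β * (δ + 2 * β) * (2 * δ / (δ + 2 * β) - 2 * β / (β + δ)) ≤
      2 * (β * (2 * δ / (δ + 2 * β)) * ((2 * β + τ) * z +
        (δ - τ) * (2 * (β + δ) / (δ + 2 * β) - (opd β δ - 2 * (β + δ) / (δ + 2 * β)) -
          2 * (z₂ - z) + z))) ∧
    0 ≤ β * (2 * δ / (δ + 2 * β)) * ((2 * β + τ) * z +
      (δ - τ) * (2 * (β + δ) / (δ + 2 * β) - (opd β δ - 2 * (β + δ) / (δ + 2 * β)) -
        2 * (z₂ - z) + z)) := by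
  have hD : 0 < δ + 2 * β := by linarith
  have hα : 0 < β + δ := by linarith
  have hK := Kc_pos hβ hδ hτ0 hhi
  set u := δ / (δ + 2 * β) with hud
  have hu0 : 0 ≤ u := by positivity
  have h2u : 2 * δ / (δ + 2 * β) = 2 * u := by rw [hud]; ring
  have hau : 2 * (β + δ) / (δ + 2 * β) = 1 + u := by rw [hud]; field_simp; ring
  have hv : 0 ≤ δ - τ := by linarith
  have hw : 2 * β / (δ + 2 * β) - τ ≤ 2 * β / (δ + 2 * β) := by linarith
  have hz0 : 0 ≤ z₂ := hz.trans hz2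
  have hzv : z₂ * (δ + 2 * β) ≤ δ - τ := by
    refine le_of_mul_le_mul_left ?_ (by linarith : (0:ℝ) < 2 * β)
    have h1 : z₂ * (2 * β) ≤ (δ - τ) * (2 * β / (δ + 2 * β)) :=
      (mul_le_mul_of_nonneg_left (by linarith) hz0).trans
        (hz₂.le.trans (mul_le_mul_of_nonneg_left hw hv))
    have h2 := mul_le_mul_of_nonneg_right h1 hD.le
    rw [mul_assoc (δ - τ), div_mul_cancel₀ _ hD.ne'] at h2
    linarith
  have hzu : z₂ ≤ u := by rw [hud, le_div_iff₀ hD]; linarith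
  have hopd : opd β δ ≤ 1 := by
    unfold opd
    have hb : β / (δ + 2 * β) ≤ 1 / 2 := by rw [div_le_iff₀ hD]; linarith
    have : 0 ≤ 1 - 2 * (β / (δ + 2 * β)) ^ 2 := by
      nlinarith [div_nonneg (zero_le_one.trans hβ) hD.le]
    nlinarith [mul_nonneg (sq_nonneg (δ / (δ + 2 * β))) this]
  rw [hau, h2u]
  have hB : β * (2 * u) * (δ - τ) ≤ β * (2 * u) * ((2 * β + τ) * z +
      (δ - τ) * (1 + u - (opd β δ - (1 + u)) - 2 * (z₂ - z) + z)) := by
    refine mul_le_mul_of_nonneg_left ?_ (by positivity)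
    have h1 := mul_le_mul_of_nonneg_left
      (by linarith : (1:ℝ) ≤ 1 + u - (opd β δ - (1 + u)) - 2 * (z₂ - z) + z) hv
    have h2 : 0 ≤ (2 * β + τ) * z := by positivity
    linarith
  have hB0 : 0 ≤ β * (2 * u) * (δ - τ) := by positivity
  refine ⟨?_, hB0.trans hB⟩
  have h3 : 0 ≤ (u - (z₂ - z)) * Kc β δ τ := mul_nonneg (by linarith) hK.le
  have h3' : 0 ≤ (1 - opd β δ) * Kc β δ τ := mul_nonneg (by linarith) hK.le
  have h4 : 0 ≤ (z₂ - z) * (2 * β * (δ - τ) * (2 * u)) :=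
    mul_nonneg (by linarith) (by positivity)
  have h5 : 0 ≤ z * β * (δ + 2 * β) * (2 * β / (β + δ)) := by positivity
  have h6 : z * (δ + 2 * β) * (2 * u * β) ≤ (δ - τ) * (2 * u * β) :=
    mul_le_mul_of_nonneg_right ((mul_le_mul_of_nonneg_right hz2 hD.le).trans hzv)
      (by positivity)
  linarith

end BPos

/-- The numerator as a quadratic in `U`, centred at `U = D`. -/
theorem gB_quad {β δ τ z z₂ U : ℝ} (hβ : 0 < β) (hD : 0 < δ + 2 * β) (hα : 0 < β + δ) (hτ : 0 < τ)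
    (hz₂ : z₂ = (δ - τ) * (2 * β / (δ + 2 * β) - τ) / (2 * β + τ)) :
    gB (β + δ) β (β + τ) z U *
        (den β (β + τ) ^ 2 * dD (β + δ) β / dM (β + δ) β) =
      (δ + 2 * β) * ((z₂ - z) * BPos.Kc β δ τ - 2 * β ^ 2 * (δ + 2 * β) / (β + δ) * z +
          2 * β ^ 2 * (δ - τ) * BPos.opd β δ / (β + δ)) +
      (δ + 2 * β - U) *
        -((BPos.opd β δ - 2 * (β + δ) / (δ + 2 * β)) * BPos.Kc β δ τ +
          (z₂ - z) * (BPos.Kc β δ τ - 2 * β * (δ - τ) * (2 * δ / (δ + 2 * β))) +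
          z * β * (δ + 2 * β) * (2 * δ / (δ + 2 * β) - 2 * β / (β + δ))) +
      (δ + 2 * β - U) ^ 2 / (δ + 2 * β) *
        (β * (2 * δ / (δ + 2 * β)) * ((2 * β + τ) * z +
          (δ - τ) * (2 * (β + δ) / (δ + 2 * β) -
            (BPos.opd β δ - 2 * (β + δ) / (δ + 2 * β)) - 2 * (z₂ - z) + z))) := by
  have h1 : β + δ ≠ 0 := hα.ne'
  have h2 : δ + 2 * β ≠ 0 := hD.ne'
  have h3 : 2 * β + τ ≠ 0 := by linarith
  have h4 : δ + 2 * β + 1 ≠ 0 := by linarith
  have e1 : den β (β + τ) = 2 * β + τ := by simp only [den]; ring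
  have e2 : dD (β + δ) β = δ + 2 * β := by simp only [dD]; ring
  have e3 : dM (β + δ) β = δ + 2 * β + 1 := by simp only [dM]; ring
  have e4 : dv (β + δ) (β + τ) = δ - τ := by simp only [dv]; ring
  have e5 : dN (β + δ) β = δ + 2 * β + 2 := by simp only [dN]; ring
  have e6 : l1 (β + δ) β = 2 * δ / (δ + 2 * β) := by
    simp only [l1, dD]; ring_nf
  have e7 : gd (β + δ) β = BPos.opd β δ - 1 := by
    simp only [gd, BPos.opd, e2]; field_simp; ring
  have eG : (β + δ) * gG (β + δ) β (β + τ) = (β + δ) * (δ + 2 * β + 2) / (δ + 2 * β) - z₂ := by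
    have k1 : (δ - τ) * (2 * β / (δ + 2 * β) - τ) =
        (β + δ) * (δ + 2 * β + 2) / (δ + 2 * β) * (2 * β + τ) -
          (β + τ) * (δ + 2 * β + 2 + (δ - τ)) := by
      field_simp
      ring
    rw [hz₂, k1]
    simp only [gG, e1, e5, e4]
    field_simp
    ring
  have ea : (β + δ) * ga (β + δ) β (β + τ) z = (β + δ) * gG (β + δ) β (β + τ) + z := by
    simp only [ga]; field_simp
  have eL : gL (β + δ) β U = 1 + 2 * β / (β + δ) +
      2 * δ / (δ + 2 * β) * (1 - U / (δ + 2 * β)) := by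
    simp only [gL, e6, e2]
  have hc5 : c5 (β + δ) β (β + τ) U = (δ + 2 * β + 1) * β *
      (1 - (δ - τ) * gL (β + δ) β U / (δ + 2 * β)) / (2 * β + τ) ^ 2 := by
    simp only [c5, e1, e2, e3, e4]
  have hE1 : gE1 (β + δ) β (β + τ) z U = (δ + 2 * β + 1) * β / (δ + 2 * β) *
      (-((2 * β + τ) * (z / (β + δ))) * gL (β + δ) β U -
        (δ - τ) * (2 * δ / (δ + 2 * β)) * dU (β + δ) β (β + τ) z U / (δ + 2 * β)) := by
    simp only [gE1, e1, e2, e3, e4, e6]
  have hc5' : c5' (β + δ) β (β + τ) z U = -2 * (z / (β + δ)) * c5 (β + δ) β (β + τ) U -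
      gE1 (β + δ) β (β + τ) z U / (2 * β + τ) ^ 2 := by
    simp only [c5', e1]
  have eg : gB (β + δ) β (β + τ) z U =
      (β + δ) * ((δ + 2 * β + 1) / (2 * β + τ) * (2 - BPos.opd β δ) -
        2 * c5 (β + δ) β (β + τ) U) +
      U * ((δ + 2 * β + 1) / (2 * β + τ) *
          (δ + β + BPos.opd β δ - (β + δ) * ga (β + δ) β (β + τ) z) -
        c5 (β + δ) β (β + τ) U *
          (δ + β + BPos.opd β δ - (β + δ) * gG (β + δ) β (β + τ)) -
        (β + δ) * c5' (β + δ) β (β + τ) z U) := by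
    simp only [gB, gm, e7, e5, e1, e3]
    ring
  -- the three products
  generalize hDd : δ + 2 * β = D at *
  generalize hWd : 2 * β + τ = W at *
  generalize hAd : β + δ = α at *
  set g := gG α β (β + τ)
  have f1 : c5 α β (β + τ) U * (W ^ 2 * D / (D + 1)) = β * (D - (δ - τ) * gL α β U) := by
    rw [hc5]
    field_simp
  have f2 : α * c5' α β (β + τ) z U * (W ^ 2 * D / (D + 1)) =
      -2 * z * (β * (D - (δ - τ) * gL α β U)) +
      β * (W * z * gL α β U + (δ - τ) * (2 * δ / D) * (α * dU α β (β + τ) z U) / D) := by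
    rw [← f1, hc5', hE1]
    field_simp
    ring
  have f3 : (D + 1) / W * (W ^ 2 * D / (D + 1)) = W * D := by
    field_simp
  have eU : α * dU α β (β + τ) z U = 2 * α - (α * ga α β (β + τ) z - α) * U := by
    simp only [dU]; ring
  have key : gB α β (β + τ) z U * (den β (β + τ) ^ 2 * dD α β / dM α β) =
      α * (((D + 1) / W * (W ^ 2 * D / (D + 1))) * (2 - BPos.opd β δ) -
        2 * (c5 α β (β + τ) U * (W ^ 2 * D / (D + 1)))) +
      U * (((D + 1) / W * (W ^ 2 * D / (D + 1))) *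
          (δ + β + BPos.opd β δ - α * ga α β (β + τ) z) -
        (c5 α β (β + τ) U * (W ^ 2 * D / (D + 1))) * (δ + β + BPos.opd β δ - α * g) -
        α * c5' α β (β + τ) z U * (W ^ 2 * D / (D + 1))) := by
    rw [eg, e1, e2, e3]
    ring
  rw [key, f1, f2, f3, eU, ea, eG, eL]
  simp only [BPos.Kc]
  simp only [hDd, hWd, hAd]
  field_simp
  subst hAd hWd hDd
  ring

/-- The bound at `U = 0`. -/
theorem gB_zero_ge {be δ τ z : ℝ} (hβ : 1 ≤ be) (hδ : 0 < δ) (hτ0 : 0 < τ) (hτδ : τ ≤ δ) :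
    (be + δ) * dD (be + δ) be * dl be (be + τ) ≤ gB (be + δ) be (be + τ) z 0 *
      (den be (be + τ) ^ 2 * dD (be + δ) be / dM (be + δ) be) := by
  have hD : 0 < δ + 2 * be := by linarith
  have hα' : 0 < be + δ := by linarith
  have hden' : 2 * be + τ ≠ 0 := by linarith
  have e1 : dD (be + δ) be = δ + 2 * be := by rw [dD]; ring
  have e2 : dv (be + δ) (be + τ) = δ - τ := by rw [dv]; ring
  have e3 : dl be (be + τ) = τ := by rw [dl]; ring
  have e4 : den be (be + τ) = 2 * be + τ := by rw [den]; ring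
  have hL : 0 ≤ gL (be + δ) be 0 := by
    have : 0 ≤ l1 (be + δ) be := by simp only [l1, dD, add_sub_cancel_left]; positivity
    simp only [gL, zero_div, sub_zero, mul_one]
    positivity
  have hgd : gd (be + δ) be ≤ 0 := by
    have h1 : 2 * be ^ 2 / dD (be + δ) be ^ 2 ≤ 1 := by
      rw [e1, div_le_one (by positivity)]; nlinarith
    rw [gd, neg_mul]
    exact neg_nonpos.2 (mul_nonneg (sq_nonneg _) (by linarith))
  have hM : 0 < dM (be + δ) be := by rw [dM]; linarith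
  have e : gB (be + δ) be (be + τ) z 0 *
      (den be (be + τ) ^ 2 * dD (be + δ) be / dM (be + δ) be) =
      (be + δ) * ((2 * be + τ) * (δ + 2 * be) * (1 - gd (be + δ) be) -
        2 * be * ((δ + 2 * be) - (δ - τ) * gL (be + δ) be 0)) := by
    simp only [gB, gm, c5, e1, e2, e4]
    field_simp
    simp only [dN, dM]
    ring
  rw [e, e1, e3, mul_assoc]
  refine mul_le_mul_of_nonneg_left ?_ hα'.le
  have h1 : 0 ≤ (2 * be + τ) * (δ + 2 * be) * -gd (be + δ) be :=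
    mul_nonneg (by positivity) (neg_nonneg.2 hgd)
  have h2 : 0 ≤ 2 * be * ((δ - τ) * gL (be + δ) be 0) :=
    mul_nonneg (by linarith) (mul_nonneg (by linarith) hL)
  linarith

theorem quad_mono {A S C D U : ℝ} (hD : 0 < D) (hU : U ≤ 0) (hS : S ≤ 2 * C) (hC : 0 ≤ C) :
    A + (D - 0) * -S + (D - 0) ^ 2 / D * C ≤ A + (D - U) * -S + (D - U) ^ 2 / D * C := by
  have k1 : (D - U) ^ 2 / D = D - 2 * U + U ^ 2 / D := by field_simp; ring
  have k2 : (D - 0) ^ 2 / D = D := by field_simp; ring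
  have h1 := mul_nonneg (neg_nonneg.2 hU) (sub_nonneg.2 hS)
  have h2 : 0 ≤ U ^ 2 / D * C := mul_nonneg (by positivity) hC
  rw [k1, k2]
  linear_combination h1 + h2

/-- Explicit lower bounds for `gB` times `den² D / (N - 1)`. -/
theorem gB_ge {al be y z U : ℝ} (h : Region al be y z U) :
    (0 < U →
      2 * be ^ 2 * dD al be * dv al y * BPos.opd be (al - be) / al * (dl be y / den be y) +
          (dD al be - U) * (1 - BPos.opd be (al - be) - ((al - be) / dD al be) ^ 2 / 2) *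
            BPos.Kc be (al - be) (y - be) ≤
        gB al be y z U * (den be y ^ 2 * dD al be / dM al be)) ∧
    (U ≤ 0 →
      al * dD al be * dl be y ≤ gB al be y z U * (den be y ^ 2 * dD al be / dM al be)) := by
  obtain ⟨δ, rfl⟩ : ∃ δ, al = be + δ := ⟨al - be, by ring⟩
  obtain ⟨τ, rfl⟩ : ∃ τ, y = be + τ := ⟨y - be, by ring⟩
  have hy := h.hy
  simp only [add_sub_cancel_left]
  have hβ := h.hbe
  have hδ : 0 < δ := by linarith [h.hal]
  have hD : 0 < δ + 2 * be := by linarith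
  have hτ0 : 0 < τ := by linarith
  have hD3 : 3 ≤ δ + 2 * be := by linarith [h.hD]
  have hτδ : τ ≤ δ := by linarith [h.hyal]
  have hhi : τ * (δ + 2 * be) ≤ 2 * be := by
    have := h.hyh
    simp only [dD, dN] at this
    linarith
  have hden' : 2 * be + τ ≠ 0 := by linarith
  obtain ⟨z₂, hz₂⟩ : ∃ z₂, z₂ = (δ - τ) * (2 * be / (δ + 2 * be) - τ) / (2 * be + τ) := ⟨_, rfl⟩
  have hz₂' : z₂ * (2 * be + τ) = (δ - τ) * (2 * be / (δ + 2 * be) - τ) := by
    rw [hz₂, div_mul_cancel₀ _ hden']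
  have hz2 : z ≤ z₂ := by
    rw [hz₂, le_div_iff₀ (by linarith)]
    refine le_trans (le_of_eq ?_) (h.hz2.trans (le_of_eq ?_))
    · simp only [den]; ring
    · simp only [dN, dD, show be + δ + be = δ + 2 * be by ring]
      field_simp
      ring
  have hU : U ≤ δ + 2 * be := by
    have := h.hU
    simp only [dD] at this
    linarith
  have hα' : 0 < be + δ := by linarith
  have e1 : dD (be + δ) be = δ + 2 * be := by rw [dD]; ring
  have e2 : dv (be + δ) (be + τ) = δ - τ := by rw [dv]; ring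
  have e3 : dl be (be + τ) = τ := by rw [dl]; ring
  have e4 : den be (be + τ) = 2 * be + τ := by rw [den]; ring
  constructor
  · intro hU0
    have hz1 : be * (δ + 2 * be + 4) * ((2 * be + τ) * z) ≤
        (be + τ) * (τ * ((δ + 2 * be + 2) ^ 2 + 2 * be) - 2 * be * δ) := by
      have := h.hz1
      rw [if_neg (not_le.2 hU0)] at this
      simp only [dN, den] at this
      linear_combination this
    have hlo : 2 * be * δ ≤ τ * ((δ + 2 * be + 2) ^ 2 + 2 * be) := by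
      have h0 : 0 ≤ be * (δ + 2 * be + 4) * ((2 * be + τ) * z) :=
        mul_nonneg (by positivity) (mul_nonneg (by linarith) h.hz)
      have := nonneg_of_mul_nonneg_right (h0.trans hz1) (by linarith)
      linarith
    obtain ⟨hs1, hs2⟩ := BPos.slope_top hβ hδ hlo hτδ hhi h.hz hz2 hz₂'
    have hq := mul_nonneg (sub_nonneg.2 hU) (sub_nonneg.2 hs1)
    have ht := mul_nonneg hD.le
      (sub_nonneg.2 (BPos.at_top hβ hδ hD3 hlo hτδ hhi h.hz hz2 hz₂' hz1))
    rw [gB_quad (z := z) (U := U) (by linarith) hD hα' hτ0 hz₂, e1, e2, e3, e4]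
    have hc' : 0 ≤ (δ + 2 * be - U) ^ 2 / (δ + 2 * be) * _ := mul_nonneg (by positivity) hs2
    linear_combination ht + hq + hc'
  · intro hU0
    obtain ⟨hs1, hs2⟩ := BPos.slope_zero hβ hδ hτ0.le hτδ hhi h.hz hz2 hz₂'
    have hid := gB_quad (z := z) (U := U) (by linarith) hD hα' hτ0 hz₂
    have hid0 := gB_quad (z := z) (U := 0) (by linarith) hD hα' hτ0 hz₂
    refine (gB_zero_ge (z := z) hβ hδ hτ0 hτδ).trans ?_
    rw [hid, hid0]
    exact quad_mono hD hU0 hs1 hs2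

theorem BPos.opd_bounds {β δ : ℝ} (hβ : 1 ≤ β) (hδ : 0 < δ) :
    0 < BPos.opd β δ ∧ 0 < 1 - BPos.opd β δ - (δ / (δ + 2 * β)) ^ 2 / 2 := by
  have hD : 0 < δ + 2 * β := by linarith
  have hb0 : 0 ≤ β / (δ + 2 * β) := by positivity
  have hb : β / (δ + 2 * β) < 1 / 2 := by rw [div_lt_iff₀ hD]; linarith
  have hu : 0 < δ / (δ + 2 * β) := by positivity
  have hu1 : δ / (δ + 2 * β) < 1 := by rw [div_lt_one hD]; linarith
  have hb2 : (β / (δ + 2 * β)) ^ 2 < 1 / 4 := by nlinarith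
  constructor
  · simp only [BPos.opd]
    nlinarith [mul_nonneg (sq_nonneg (δ / (δ + 2 * β))) (sq_nonneg (β / (δ + 2 * β)))]
  · have : 0 < (δ / (δ + 2 * β)) ^ 2 * (1 / 2 - 2 * (β / (δ + 2 * β)) ^ 2) :=
      mul_pos (by positivity) (by linarith)
    simp only [BPos.opd]
    linarith

/-- `gB` is bounded below by a positive multiple of `(α - y) + (D - U)` on the region. -/
theorem gB_lower {al be : ℝ} (hbe : 1 ≤ be) (hal : be < al) :
    ∃ c > 0, ∀ y z U, Region al be y z U →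
      c * ((al - y) + (dD al be - U)) ≤ gB al be y z U := by
  obtain ⟨δ, rfl⟩ : ∃ δ, al = be + δ := ⟨al - be, by ring⟩
  have hδ : 0 < δ := by linarith
  have hD : 0 < δ + 2 * be := by linarith
  have hα : 0 < be + δ := by linarith
  have eD : dD (be + δ) be = δ + 2 * be := by rw [dD]; ring
  obtain ⟨ho, hg⟩ := BPos.opd_bounds hbe hδ
  have eδ : be + δ - be = δ := by ring
  -- the constants
  set K := min (BPos.Kc be δ 0) (BPos.Kc be δ (2 * be / (δ + 2 * be))) with hKd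
  have hK : 0 < K := lt_min (BPos.Kc_pos hbe hδ le_rfl (by linarith))
    (BPos.Kc_pos hbe hδ (by positivity) (le_of_eq (div_mul_cancel₀ _ hD.ne')))
  set Q := dN (be + δ) be ^ 2 + 2 * be + 6 * dN (be + δ) be with hQd
  have hQ : 0 < Q := by
    have : 0 < dN (be + δ) be := by rw [dN]; linarith
    positivity
  set t := 2 * be * δ / Q with htd
  have ht : 0 < t := by positivity
  set F := (be + δ + be) ^ 2 * dD (be + δ) be / dM (be + δ) be with hFd
  have hM : 0 < dM (be + δ) be := by rw [dM]; linarith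
  have hF : 0 < F := by rw [hFd, eD]; positivity
  set A := 2 * be ^ 2 * (δ + 2 * be) * BPos.opd be δ / (be + δ) * (t / (be + δ + be))
  set B := (1 - BPos.opd be δ - (δ / (δ + 2 * be)) ^ 2 / 2) * K
  set C := (be + δ) * (δ + 2 * be) * t / (be + δ + (δ + 2 * be + 2))
  set m := min A (min B C)
  have hm : 0 < m := lt_min (by positivity) (lt_min (mul_pos hg hK) (by positivity))
  refine ⟨m / F, by positivity, fun y z U h => ?_⟩
  have hy := h.hy
  have hyal := h.hyal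
  have hU := h.hU
  have hU0 := h.hU0
  rw [eD] at hU ⊢
  have hτ : t ≤ y - be := by
    rw [htd, div_le_iff₀ hQ]
    have h1 := h.hlo
    have h2 : 0 ≤ (y - be) * (6 * dN (be + δ) be) :=
      mul_nonneg (by linarith) (by rw [dN]; linarith)
    simp only [hQd, dN] at h1 h2 ⊢
    linarith
  have hF' : den be y ^ 2 * dD (be + δ) be / dM (be + δ) be ≤ F := by
    rw [hFd]
    refine div_le_div_of_nonneg_right (mul_le_mul_of_nonneg_right ?_ (by linarith)) hM.le
    exact pow_le_pow_left₀ (by rw [den]; linarith) (by rw [den]; linarith) 2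
  have hF0 : 0 < den be y ^ 2 * dD (be + δ) be / dM (be + δ) be := by
    have : 0 < den be y := by rw [den]; linarith
    rw [eD]; positivity
  have hS : 0 ≤ m * ((be + δ - y) + (δ + 2 * be - U)) := mul_nonneg hm.le (by linarith)
  have key : m * ((be + δ - y) + (δ + 2 * be - U)) ≤
      gB (be + δ) be y z U * (den be y ^ 2 * dD (be + δ) be / dM (be + δ) be) := by
    obtain ⟨hp, hn⟩ := gB_ge h
    rcases lt_or_ge 0 U with hc | hc
    · refine le_trans ?_ (hp hc)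
      rw [eD, eδ, mul_add]
      refine add_le_add ?_ ?_
      · have e : 2 * be ^ 2 * (δ + 2 * be) * dv (be + δ) y * BPos.opd be δ / (be + δ) *
            (dl be y / den be y) = 2 * be ^ 2 * (δ + 2 * be) * BPos.opd be δ / (be + δ) *
            (dl be y / den be y) * (be + δ - y) := by rw [dv]; ring
        rw [e]
        refine mul_le_mul_of_nonneg_right ((min_le_left _ _).trans ?_) (by linarith)
        refine mul_le_mul_of_nonneg_left ?_ (by positivity)
        rw [dl, den]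
        exact div_le_div₀ (by linarith) hτ (by linarith) (by linarith)
      · rw [mul_comm m, mul_assoc (δ + 2 * be - U)]
        refine mul_le_mul_of_nonneg_left
          (((min_le_right _ _).trans (min_le_left _ _)).trans ?_) (by linarith)
        refine mul_le_mul_of_nonneg_left ?_ hg.le
        have hh : y - be ≤ 2 * be / (δ + 2 * be) := by
          rw [le_div_iff₀ hD]
          have := h.hyh
          simp only [dD, dN] at this
          linarith
        have lin : ∀ x, BPos.Kc be δ x - K = (BPos.Kc be δ 0 - K) +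
            (BPos.Kc be δ 1 - BPos.Kc be δ 0) * x := fun x => by simp only [BPos.Kc]; ring
        rw [← sub_nonneg, lin]
        refine BPos.affine_between ?_ ?_ (by linarith : (0:ℝ) ≤ y - be) hh
        · rw [mul_zero, add_zero, sub_nonneg]; exact min_le_left _ _
        · rw [← lin, sub_nonneg]; exact min_le_right _ _
    · refine le_trans ?_ (hn hc)
      rw [eD, dl]
      have h1 : m * ((be + δ - y) + (δ + 2 * be - U)) ≤ C * (be + δ + (δ + 2 * be + 2)) :=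
        mul_le_mul ((min_le_right _ _).trans (min_le_right _ _)) (by linarith) (by linarith)
          (by positivity)
      have h2 : C * (be + δ + (δ + 2 * be + 2)) = (be + δ) * (δ + 2 * be) * t :=
        div_mul_cancel₀ _ (by linarith)
      have h3 : (be + δ) * (δ + 2 * be) * t ≤ (be + δ) * (δ + 2 * be) * (y - be) :=
        mul_le_mul_of_nonneg_left hτ (by positivity)
      linarith
  have hB : 0 ≤ gB (be + δ) be y z U := nonneg_of_mul_nonneg_left (hS.trans key) hF0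
  rw [div_mul_eq_mul_div, div_le_iff₀ hF]
  exact key.trans (mul_le_mul_of_nonneg_left hF' hB)

/-- `gB` is nonnegative on the region. -/
theorem gB_nonneg {al be y z U : ℝ} (h : Region al be y z U) : 0 ≤ gB al be y z U := by
  obtain ⟨c, hc, hb⟩ := gB_lower h.hbe h.hal
  exact le_trans (mul_nonneg hc.le (by linarith [h.hyal, h.hU])) (hb y z U h)

/-- `gB` vanishes on the region only at the corner `y = α`, `U = D`. -/
theorem gB_pos {al be y z U : ℝ} (h : Region al be y z U) (hs : y < al ∨ U < dD al be) :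
    0 < gB al be y z U := by
  obtain ⟨c, hc, hb⟩ := gB_lower h.hbe h.hal
  refine lt_of_lt_of_le (mul_pos hc ?_) (hb y z U h)
  rcases hs with hs | hs <;> linarith [h.hyal, h.hU]

end Vale.Agent.P100.Pos
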