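import Vale.Agent.P100.Pos.Defs

/-!
P100, clock gauge: positivity of `P` on the invariant region (real algebra).

The parameters are `β ≥ 1` and `δ = α - β > 0`; `D = δ + 2 β`, `N = D + 2`. The state is
`τ = α ψ - β`, `z = α σ` and `A = r f' ≤ D`.
-/

namespace Vale.Agent.P100.Pos

namespace PPos

/-- Numerator of `- T` at the lower end of the range of `τ`. -/
def ngNum (β δ : ℝ) : ℝ :=
  δ ^ 2 * ((δ + 2 * β) ^ 2 - 2 * β ^ 2) *
      (2 * β * ((δ + 2 * β + 2) ^ 2 + 2 * β) + 2 * β * δ) * ((δ + 2 * β + 2) ^ 2 + 2 * β) -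
    2 * β * δ * (δ + 2 * β) ^ 4 * ((1 + δ) * ((δ + 2 * β + 2) ^ 2 + 2 * β) - 2 * β * δ)

/-- Numerator of the bound of `D - v l₀`. -/
def prNum (β δ : ℝ) : ℝ :=
  2 * β ^ 2 * ((δ + 2 * β) * (δ + 2 * β - 1)) + 2 * β * δ * (β + δ + 2 * β)

/-- The certificate polynomial of the first branch. -/
def polyOne (β δ : ℝ) : ℝ :=
  δ * ((δ + 2 * β) * (δ + 2 * β - 1) - 2 * β) *
      (2 * β * ((δ + 2 * β) * (δ + 2 * β - 1) - (δ + 2 * β) * δ)) * (2 * β) * (β + δ) *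
      ((δ + 2 * β + 2) ^ 2 + 2 * β) ^ 2 * (δ + 2 * β) ^ 3 -
    prNum β δ * ngNum β δ * ((δ + 2 * β) * (δ + 2 * β - 1))

/-- The certificate polynomial of the second branch. -/
def polyTwo (β δ : ℝ) : ℝ :=
  (δ * ((δ + 2 * β) * (δ + 2 * β - 1) - 2 * β)) ^ 2 *
      (2 * β * ((δ + 2 * β) * (δ + 2 * β - 1) - (δ + 2 * β) * δ)) * (2 * δ) * (β + δ) *
      ((δ + 2 * β + 2) ^ 2 + 2 * β) ^ 2 * (δ + 2 * β) ^ 2 -
    prNum β δ * ngNum β δ * ((δ + 2 * β) * (δ + 2 * β - 1)) ^ 2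

theorem polyOne_pos {β δ : ℝ} (hβ : 1 ≤ β) (hδ : 0 < δ) : 0 < polyOne β δ := by
  obtain ⟨b, hb, rfl⟩ : ∃ b, 0 ≤ b ∧ β = 1 + b := ⟨β - 1, by linarith, by ring⟩
  unfold polyOne prNum ngNum
  ring_nf
  positivity

theorem polyTwo_low {δ : ℝ} (hδ : 0 < δ) :
    0 < 131648 * δ ^ 4 - 81952 * δ ^ 5 - 154048 * δ ^ 6 + 281328 * δ ^ 8 := by
  have h4 : 0 < δ ^ 4 := by positivity
  have h1 : 0 ≤ δ ^ 4 * (δ - 1) ^ 2 * (δ ^ 2 + 2 * δ + 3) := by
    have : 0 ≤ δ ^ 2 + 2 * δ + 3 := by positivity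
    positivity
  have h2 : 0 ≤ δ ^ 4 * (2 * δ ^ 2 - 1) ^ 2 := by positivity
  nlinarith

theorem polyTwo_pos {β δ : ℝ} (hβ : 1 ≤ β) (hδ : 0 < δ) : 0 < polyTwo β δ := by
  obtain ⟨b, hb, rfl⟩ : ∃ b, 0 ≤ b ∧ β = 1 + b := ⟨β - 1, by linarith, by ring⟩
  have hlow := polyTwo_low hδ
  suffices h : 0 ≤ polyTwo (1 + b) δ -
      (131648 * δ ^ 4 - 81952 * δ ^ 5 - 154048 * δ ^ 6 + 281328 * δ ^ 8) by linarith
  unfold polyTwo prNum ngNum
  ring_nf
  positivity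

variable {β δ τ : ℝ}

/-- `T` is positive above `2 β δ / (D (D - 1))`. -/
theorem T_pos (hβ : 1 ≤ β) (hδ : 0 < δ) (hhi : τ * (δ + 2 * β) ≤ 2 * β)
    (hτ : 2 * β * δ ≤ τ * ((δ + 2 * β) * (δ + 2 * β - 1))) :
    0 < (1 + (δ - τ)) * τ -
      (δ / (δ + 2 * β)) ^ 2 * (1 - 2 * (β / (δ + 2 * β)) ^ 2) * (2 * β + τ) := by
  set D := δ + 2 * β with hD
  have hD2 : 2 < D := by linarith
  set f := 1 - 2 * (β / D) ^ 2
  have hτ0 : 0 < τ := by
    by_contra h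
    nlinarith [mul_nonpos_of_nonpos_of_nonneg (not_lt.1 h)
      (by nlinarith : (0:ℝ) ≤ D * (D - 1))]
  have hu0 : 0 ≤ δ / D := by positivity
  have hu1 : δ / D < 1 := by rw [div_lt_one (by linarith)]; linarith
  have hu : δ / D * D = δ := div_mul_cancel₀ δ (by linarith)
  set u := δ / D
  have hf : f ≤ 1 := by simp only [f]; nlinarith [sq_nonneg (β / D)]
  have h1 : τ < 1 + u - u ^ 2 := by nlinarith
  have h2 : u ^ 2 * f * (2 * β + τ) ≤ u ^ 2 * (2 * β + τ) := by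
    have : 0 ≤ 2 * β + τ := by linarith
    nlinarith [mul_nonneg (sq_nonneg u) this]
  have h3 : 2 * β * u ≤ τ * (D - 1) := by
    have h4 : 2 * β * u * D ≤ τ * (D - 1) * D := by nlinarith
    exact le_of_mul_le_mul_right h4 (by linarith)
  have h5 : τ * (u * (D - 1)) < τ * (1 + (δ - τ) - u ^ 2) :=
    mul_lt_mul_of_pos_left (by nlinarith) hτ0
  nlinarith [mul_le_mul_of_nonneg_left h3 hu0]

/-- The expression at `τ` is `T`. -/
noncomputable def tT (β δ τ : ℝ) : ℝ :=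
  (1 + (δ - τ)) * τ - (δ / (δ + 2 * β)) ^ 2 * (1 - 2 * (β / (δ + 2 * β)) ^ 2) * (2 * β + τ)

theorem w_facts (hβ : 1 ≤ β) (hδ : 0 < δ)
    (hlo : 2 * β * δ ≤ τ * ((δ + 2 * β + 2) ^ 2 + 2 * β)) (hhi' : τ * (δ + 2 * β) ≤ 2 * β) :
    0 < τ ∧ τ ≤ 2 * β / (δ + 2 * β) := by
  constructor
  · by_contra h
    nlinarith [mul_nonpos_of_nonpos_of_nonneg (not_lt.1 h)
      (by positivity : (0:ℝ) ≤ (δ + 2 * β + 2) ^ 2 + 2 * β)]
  · rw [le_div_iff₀ (by linarith)]; linarith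

theorem pre_eq (hα : β + δ ≠ 0) :
    δ + 2 * β - (δ - τ) * (1 + 2 * β / (β + δ)) =
      2 * β ^ 2 / (β + δ) + τ * (1 + 2 * β / (β + δ)) := by
  field_simp; ring

theorem tT_mono {t₀ : ℝ} (hβ : 1 ≤ β) (hδ : 0 < δ) (ht₀ : t₀ ≤ τ)
    (ht : t₀ ≤ 2 * β * δ / (δ + 2 * β) ^ 2) (hτδ : τ ≤ δ) :
    tT β δ t₀ ≤ tT β δ τ := by
  set D := δ + 2 * β with hD
  have hD2 : 2 < D := by linarith
  have hu : (δ / D) ^ 2 * (1 - 2 * (β / D) ^ 2) ≤ (δ / D) ^ 2 :=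
    mul_le_of_le_one_right (sq_nonneg _) (by nlinarith [sq_nonneg (β / D)])
  have e2 : (2 * β * δ + δ ^ 2) / D ^ 2 ≤ 1 := by
    rw [div_le_one (by positivity)]; nlinarith
  rw [add_div] at e2
  rw [← div_pow] at e2
  simp only [tT, ← hD]
  nlinarith [mul_nonneg (by linarith : 0 ≤ τ - t₀)
    (by linarith : 0 ≤ 1 + δ - τ - t₀ - (δ / D) ^ 2 * (1 - 2 * (β / D) ^ 2))]

/-- `- R` is a lower bound of the negative part. -/
noncomputable def negR (β δ : ℝ) : ℝ :=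
  prNum β δ / ((β + δ) * ((δ + 2 * β) * (δ + 2 * β - 1))) *
    (ngNum β δ / (((δ + 2 * β + 2) ^ 2 + 2 * β) ^ 2 * (δ + 2 * β) ^ 4))

noncomputable def vLow (β δ : ℝ) : ℝ :=
  δ * ((δ + 2 * β) * (δ + 2 * β - 1) - 2 * β) / ((δ + 2 * β) * (δ + 2 * β - 1))

noncomputable def wLow (β δ : ℝ) : ℝ :=
  2 * β * ((δ + 2 * β) * (δ + 2 * β - 1) - (δ + 2 * β) * δ) /
    ((δ + 2 * β) * ((δ + 2 * β) * (δ + 2 * β - 1)))

theorem negR_lt_one (hβ : 1 ≤ β) (hδ : 0 < δ) :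
    negR β δ < vLow β δ * wLow β δ * (2 * β) := by
  have h1 := polyOne_pos hβ hδ
  have hD : 0 < δ + 2 * β := by linarith
  have hD1 : 0 < δ + 2 * β - 1 := by linarith
  have hα : 0 < β + δ := by linarith
  have hQ : 0 < (δ + 2 * β + 2) ^ 2 + 2 * β := by positivity
  rw [← sub_pos]
  have e : vLow β δ * wLow β δ * (2 * β) - negR β δ = polyOne β δ /
      ((β + δ) * ((δ + 2 * β) * (δ + 2 * β - 1)) ^ 2 *
        ((δ + 2 * β + 2) ^ 2 + 2 * β) ^ 2 * (δ + 2 * β) ^ 4) := by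
    simp only [negR, vLow, wLow, polyOne]
    field_simp
  rw [e]
  positivity

theorem negR_lt_two (hβ : 1 ≤ β) (hδ : 0 < δ) :
    negR β δ < vLow β δ * wLow β δ * (2 * vLow β δ * δ / (δ + 2 * β)) := by
  have h1 := polyTwo_pos hβ hδ
  have hD : 0 < δ + 2 * β := by linarith
  have hD1 : 0 < δ + 2 * β - 1 := by linarith
  have hα : 0 < β + δ := by linarith
  have hQ : 0 < (δ + 2 * β + 2) ^ 2 + 2 * β := by positivity
  rw [← sub_pos]
  have e : vLow β δ * wLow β δ * (2 * vLow β δ * δ / (δ + 2 * β)) - negR β δ = polyTwo β δ /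
      ((β + δ) * ((δ + 2 * β) * (δ + 2 * β - 1)) ^ 3 *
        ((δ + 2 * β + 2) ^ 2 + 2 * β) ^ 2 * (δ + 2 * β) ^ 4) := by
    simp only [negR, vLow, wLow, polyTwo]
    field_simp
  rw [e]
  positivity

theorem neg_part (hβ : 1 ≤ β) (hδ : 0 < δ)
    (hlo : 2 * β * δ ≤ τ * ((δ + 2 * β + 2) ^ 2 + 2 * β)) (hτδ : τ ≤ δ)
    (hhi' : τ * (δ + 2 * β) ≤ 2 * β)
    (hsmall : τ * ((δ + 2 * β) * (δ + 2 * β - 1)) ≤ 2 * β * δ) :
    -max 0 (negR β δ) ≤ (δ + 2 * β - (δ - τ) * (1 + 2 * β / (β + δ))) * tT β δ τ := by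
  obtain ⟨hτ0, -⟩ := w_facts hβ hδ hlo hhi'
  have hD : 0 < δ + 2 * β := by linarith
  have hD1 : 0 < δ + 2 * β - 1 := by linarith
  have hα : 0 < β + δ := by linarith
  have hQ : 0 < (δ + 2 * β + 2) ^ 2 + 2 * β := by positivity
  have hpre : 0 < δ + 2 * β - (δ - τ) * (1 + 2 * β / (β + δ)) := by
    rw [pre_eq hα.ne']; positivity
  have hpre_le : δ + 2 * β - (δ - τ) * (1 + 2 * β / (β + δ)) ≤
      prNum β δ / ((β + δ) * ((δ + 2 * β) * (δ + 2 * β - 1))) := by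
    rw [pre_eq hα.ne']
    have h1 : τ ≤ 2 * β * δ / ((δ + 2 * β) * (δ + 2 * β - 1)) := by
      rw [le_div_iff₀ (by positivity)]; linarith
    refine le_trans (add_le_add_right (mul_le_mul_of_nonneg_right h1 (by positivity)) _)
      (le_of_eq ?_)
    simp only [prNum]
    field_simp
  have hTlow : -(ngNum β δ / (((δ + 2 * β + 2) ^ 2 + 2 * β) ^ 2 * (δ + 2 * β) ^ 4)) ≤
      tT β δ τ := by
    refine le_trans (le_of_eq ?_) (tT_mono (t₀ := 2 * β * δ / ((δ + 2 * β + 2) ^ 2 + 2 * β))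
      hβ hδ ?_ ?_ hτδ)
    · simp only [ngNum, tT]
      field_simp
      ring
    · rw [div_le_iff₀ hQ]; linarith
    · exact div_le_div_of_nonneg_left (by positivity) (by positivity) (by nlinarith)
  rcases le_or_gt 0 (tT β δ τ) with hT | hT
  · exact le_trans (neg_nonpos.2 (le_max_left _ _)) (mul_nonneg hpre.le hT)
  · have a := mul_le_mul hpre_le (neg_le.1 hTlow) (neg_nonneg.2 hT.le) (hpre.le.trans hpre_le)
    rw [mul_neg] at a
    have b := le_max_right 0 (negR β δ)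
    unfold negR at b ⊢
    linarith

theorem pos_part {zz : ℝ} (hβ : 1 ≤ β) (hδ : 0 < δ) (hτ0 : 0 < τ)
    (hsmall : τ * ((δ + 2 * β) * (δ + 2 * β - 1)) ≤ 2 * β * δ) (hz : 0 ≤ zz)
    (hz' : zz ≤ (δ - τ) * (2 * β / (δ + 2 * β) - τ)) :
    max 0 (negR β δ) < (2 * β + τ) * zz * (1 + 2 * β / (β + δ)) +
      (δ - τ) * (2 * δ / (δ + 2 * β)) * ((δ - τ) * (2 * β / (δ + 2 * β) - τ) - zz) := by
  have hD : 0 < δ + 2 * β := by linarith
  have hD1 : 0 < δ + 2 * β - 1 := by linarith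
  have hα : 0 < β + δ := by linarith
  have hh : 0 < (δ + 2 * β) * (δ + 2 * β - 1) := by positivity
  have h1 : τ ≤ 2 * β * δ / ((δ + 2 * β) * (δ + 2 * β - 1)) := by
    rw [le_div_iff₀ hh]; linarith
  have hv : vLow β δ ≤ δ - τ := by
    refine le_trans (le_of_eq ?_) (sub_le_sub_left h1 δ)
    simp only [vLow]; field_simp
  have hw : wLow β δ ≤ 2 * β / (δ + 2 * β) - τ := by
    refine le_trans (le_of_eq ?_) (sub_le_sub_left h1 _)
    simp only [wLow]; field_simp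
  have hvL : 0 < vLow β δ := div_pos (mul_pos hδ (by nlinarith)) hh
  have hwL : 0 < wLow β δ := div_pos (mul_pos (by linarith) (by nlinarith)) (by positivity)
  have b1 := negR_lt_one hβ hδ
  have b2 := negR_lt_two hβ hδ
  set M := min (2 * β) (2 * vLow β δ * δ / (δ + 2 * β))
  have hM0 : 0 < M := lt_min (by linarith) (by positivity)
  have hc1 : M ≤ (2 * β + τ) * (1 + 2 * β / (β + δ)) := by
    refine (min_le_left _ _).trans ?_
    have : 0 ≤ 2 * β / (β + δ) := by positivity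
    nlinarith
  have hc2 : M ≤ (δ - τ) * (2 * δ / (δ + 2 * β)) := by
    refine (min_le_right _ _).trans (le_trans (le_of_eq ?_)
      (mul_le_mul_of_nonneg_right hv (by positivity)))
    ring
  have hvw : vLow β δ * wLow β δ ≤ (δ - τ) * (2 * β / (δ + 2 * β) - τ) :=
    mul_le_mul hv hw hwL.le (hvL.le.trans hv)
  have hlt : max 0 (negR β δ) < M * (vLow β δ * wLow β δ) := by
    refine max_lt (by positivity) ?_
    rcases min_choice (2 * β) (2 * vLow β δ * δ / (δ + 2 * β)) with e | e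
    · simp only [M, e]; linarith
    · simp only [M, e]; linarith
  have := mul_le_mul_of_nonneg_left hvw hM0.le
  nlinarith [mul_nonneg (sub_nonneg.2 hc1) hz, mul_nonneg (sub_nonneg.2 hc2) (sub_nonneg.2 hz')]

theorem base_pos {zz : ℝ} (hβ : 1 ≤ β) (hδ : 0 < δ)
    (hlo : 2 * β * δ ≤ τ * ((δ + 2 * β + 2) ^ 2 + 2 * β)) (hτδ : τ ≤ δ)
    (hhi' : τ * (δ + 2 * β) ≤ 2 * β) (hz : 0 ≤ zz)
    (hz' : zz ≤ (δ - τ) * (2 * β / (δ + 2 * β) - τ)) :
    0 < (δ + 2 * β - (δ - τ) * (1 + 2 * β / (β + δ))) * tT β δ τ +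
      (2 * β + τ) * zz * (1 + 2 * β / (β + δ)) +
      (δ - τ) * (2 * δ / (δ + 2 * β)) * ((δ - τ) * (2 * β / (δ + 2 * β) - τ) - zz) := by
  obtain ⟨hτ0, -⟩ := w_facts hβ hδ hlo hhi'
  rcases le_or_gt (2 * β * δ) (τ * ((δ + 2 * β) * (δ + 2 * β - 1))) with hbig | hsmall
  · have hT : 0 < tT β δ τ := T_pos hβ hδ hhi' hbig
    have hα : 0 < β + δ := by linarith
    have hpre : 0 < δ + 2 * β - (δ - τ) * (1 + 2 * β / (β + δ)) := by
      rw [pre_eq hα.ne']; positivity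
    have h1 := mul_pos hpre hT
    have h2 : 0 ≤ (2 * β + τ) * zz * (1 + 2 * β / (β + δ)) := by positivity
    have h3 : 0 ≤ (δ - τ) * (2 * δ / (δ + 2 * β)) *
        ((δ - τ) * (2 * β / (δ + 2 * β) - τ) - zz) :=
      mul_nonneg (mul_nonneg (by linarith) (by positivity)) (by linarith)
    linarith
  · have h1 := neg_part hβ hδ hlo hτδ hhi' hsmall.le
    have h2 := pos_part hβ hδ hτ0 hsmall.le hz hz'
    linarith

theorem slope_le (hβ : 1 ≤ β) (hδ : 0 < δ) (hτ0 : 0 < τ) (hτ : τ ≤ 2 * β / (δ + 2 * β))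
    (_hτδ : τ ≤ δ) :
    tT β δ τ + (δ - τ) * (2 * β / (δ + 2 * β) - τ) ≤
      2 * (β + δ) * (2 * β + τ) / (δ + 2 * β) := by
  have hD : 0 < δ + 2 * β := by linarith
  have hbD : β / (δ + 2 * β) ≤ 1 / 2 := by rw [div_le_iff₀ hD]; linarith
  have hb0 : 0 ≤ β / (δ + 2 * β) := by positivity
  have hf : 0 ≤ 1 - 2 * (β / (δ + 2 * β)) ^ 2 := by nlinarith
  have hTle : tT β δ τ ≤ (1 + δ) * (2 * β / (δ + 2 * β)) := by
    have : 0 ≤ (δ / (δ + 2 * β)) ^ 2 * (1 - 2 * (β / (δ + 2 * β)) ^ 2) * (2 * β + τ) := by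
      positivity
    have : (1 + (δ - τ)) * τ ≤ (1 + δ) * (2 * β / (δ + 2 * β)) :=
      mul_le_mul (by linarith) hτ hτ0.le (by linarith)
    unfold tT
    linarith
  have h2 : (δ - τ) * (2 * β / (δ + 2 * β) - τ) ≤ δ * (2 * β / (δ + 2 * β)) :=
    mul_le_mul (by linarith) (by linarith) (by linarith) hδ.le
  refine le_trans (add_le_add hTle h2) ?_
  rw [← add_mul, mul_div_assoc', div_le_div_iff_of_pos_right hD]
  nlinarith

/-- `P` is positive on the invariant region. -/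
theorem P_expr_pos {q zz : ℝ} (hβ : 1 ≤ β) (hδ : 0 < δ)
    (hlo : 2 * β * δ ≤ τ * ((δ + 2 * β + 2) ^ 2 + 2 * β)) (hτδ : τ ≤ δ)
    (hhi' : τ * (δ + 2 * β) ≤ 2 * β) (hz : 0 ≤ zz)
    (hz' : zz ≤ (δ - τ) * (2 * β / (δ + 2 * β) - τ)) (hq : 0 ≤ q) :
    0 < (δ + 2 * β - (δ - τ) * (1 + 2 * β / (β + δ) + 2 * δ / (δ + 2 * β) * q)) * tT β δ τ +
      (2 * β + τ) * zz * (1 + 2 * β / (β + δ) + 2 * δ / (δ + 2 * β) * q) +
      (δ - τ) * (2 * δ / (δ + 2 * β)) *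
        (2 * (β + δ) * (2 * β + τ) / (δ + 2 * β) * q +
          (1 - q) * ((δ - τ) * (2 * β / (δ + 2 * β) - τ) - zz)) := by
  obtain ⟨hτ0, hτ⟩ := w_facts hβ hδ hlo hhi'
  have h0 := base_pos hβ hδ hlo hτδ hhi' hz hz'
  have h1 := slope_le hβ hδ hτ0 hτ hτδ
  have hslope : 0 ≤ q * (2 * δ / (δ + 2 * β) * ((δ - τ) *
      (2 * (β + δ) * (2 * β + τ) / (δ + 2 * β) - (δ - τ) * (2 * β / (δ + 2 * β) - τ) + zz -
        tT β δ τ) + (2 * β + τ) * zz)) :=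
    mul_nonneg hq (mul_nonneg (by positivity)
      (add_nonneg (mul_nonneg (by linarith) (by linarith)) (mul_nonneg (by linarith) hz)))
  linear_combination h0 + hslope

/-- The case `T ≤ 0` of `P_expr_pos_one`. -/
theorem neg_main (hβ : 1 ≤ β) (hδ : 0 < δ) (hD3 : 3 ≤ δ + 2 * β) (hτ0 : 0 < τ)
    (hτ : τ ≤ 2 * β / (δ + 2 * β)) (hτδ : τ ≤ δ) (hT0 : tT β δ τ ≤ 0) :
    0 < (δ + 2 * β - (δ - τ) * (1 + 2 * β / (β + δ))) * tT β δ τ +
      (δ - τ) * (2 * δ / (δ + 2 * β)) *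
        (2 * (β + δ) * (2 * β + τ) / (δ + 2 * β) - tT β δ τ) := by
  have hD : 0 < δ + 2 * β := by linarith
  have hα : 0 < β + δ := by linarith
  set pre := δ + 2 * β - (δ - τ) * (1 + 2 * β / (β + δ)) with hpre
  have hpre_eq := pre_eq (β := β) (τ := τ) hα.ne'
  have hpre0 : 0 < pre := by rw [hpre, hpre_eq]; positivity
  have hc : 0 ≤ (δ - τ) * (2 * δ / (δ + 2 * β)) := mul_nonneg (by linarith) (by positivity)
  set T := tT β δ τ with hT
  set K := 2 * (β + δ) * (2 * β + τ) / (δ + 2 * β) with hK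
  -- `T ≤ 0` forces `τ (δ + 2 β) ≤ δ ^ 2`
  have hf : (δ / (δ + 2 * β)) ^ 2 * (1 - 2 * (β / (δ + 2 * β)) ^ 2) * (2 * β + τ) ≤
      δ ^ 2 / (δ + 2 * β) := by
    refine (mul_le_mul (mul_le_of_le_one_right (sq_nonneg _)
      (by nlinarith [sq_nonneg (β / (δ + 2 * β))]))
      (show 2 * β + τ ≤ δ + 2 * β by linarith) (by linarith) (sq_nonneg _)).trans (le_of_eq ?_)
    field_simp
  have hτ2 : τ ≤ δ ^ 2 / (δ + 2 * β) := by
    have : τ ≤ (1 + (δ - τ)) * τ := le_mul_of_one_le_left hτ0.le (by linarith)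
    simp only [hT, tT] at hT0
    linarith
  have hv : 2 * β * δ / (δ + 2 * β) ≤ δ - τ := by
    refine le_trans (le_of_eq ?_) (sub_le_sub_left hτ2 δ)
    field_simp
    ring
  have hv0 : 0 < δ - τ := lt_of_lt_of_le (by positivity) hv
  have hTl : -((δ / (δ + 2 * β)) ^ 2 * (2 * β + τ)) ≤ T := by
    have h2 : (δ / (δ + 2 * β)) ^ 2 * (1 - 2 * (β / (δ + 2 * β)) ^ 2) * (2 * β + τ) ≤
        (δ / (δ + 2 * β)) ^ 2 * (2 * β + τ) :=
      mul_le_mul_of_nonneg_right (mul_le_of_le_one_right (sq_nonneg _)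
        (by nlinarith [sq_nonneg (β / (δ + 2 * β))])) (by linarith)
    have : 0 ≤ (1 + (δ - τ)) * τ := mul_nonneg (by linarith) hτ0.le
    simp only [hT, tT] at *
    linarith
  have hpre4 : pre ≤ 4 * β := by
    rw [hpre, hpre_eq]
    have e1 : 2 * β ^ 2 / (β + δ) ≤ 2 * β := by rw [div_le_iff₀ hα]; nlinarith
    have e2 : 2 * β / (β + δ) ≤ 2 := by rw [div_le_iff₀ hα]; linarith
    have e3 : τ ≤ 2 * β / 3 := hτ.trans (div_le_div_of_nonneg_left (by linarith) (by norm_num) hD3)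
    have := mul_le_mul_of_nonneg_left e2 hτ0.le
    linarith
  have h2 : pre * ((δ / (δ + 2 * β)) ^ 2 * (2 * β + τ)) <
      (δ - τ) * (2 * δ / (δ + 2 * β)) * K := by
    have h3 : β * δ < (β + δ) * (δ - τ) := by
      have h4 := mul_le_mul_of_nonneg_left hv hα.le
      refine lt_of_lt_of_le ?_ h4
      rw [mul_div_assoc', lt_div_iff₀ hD]
      nlinarith [mul_pos (mul_pos (show 0 < β by linarith) hδ) hδ]
    have h5 : pre * δ < 4 * (β + δ) * (δ - τ) :=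
      lt_of_le_of_lt (mul_le_mul_of_nonneg_right hpre4 hδ.le) (by linarith)
    have h6 : 0 < δ / (δ + 2 * β) ^ 2 * (2 * β + τ) := by positivity
    have h7 := mul_lt_mul_of_pos_right h5 h6
    refine lt_of_le_of_lt (le_of_eq ?_) (lt_of_lt_of_le h7 (le_of_eq ?_))
    · field_simp
    · simp only [hK]; field_simp; ring
  have h8 := mul_le_mul_of_nonneg_left hTl hpre0.le
  have h9 : 0 ≤ -((δ - τ) * (2 * δ / (δ + 2 * β)) * T) :=
    neg_nonneg.2 (mul_nonpos_of_nonneg_of_nonpos hc hT0)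
  linarith

/-- `P > 0` for `U ≤ 0`, where the `q` term dominates. -/
theorem P_expr_pos_one {q zz : ℝ} (hβ : 1 ≤ β) (hδ : 0 < δ) (hD3 : 3 ≤ δ + 2 * β) (hτ0 : 0 < τ)
    (hτδ : τ ≤ δ) (hhi' : τ * (δ + 2 * β) ≤ 2 * β) (hz : 0 ≤ zz) (hq : 1 ≤ q) :
    0 < (δ + 2 * β - (δ - τ) * (1 + 2 * β / (β + δ) + 2 * δ / (δ + 2 * β) * q)) * tT β δ τ +
      (2 * β + τ) * zz * (1 + 2 * β / (β + δ) + 2 * δ / (δ + 2 * β) * q) +
      (δ - τ) * (2 * δ / (δ + 2 * β)) *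
        (2 * (β + δ) * (2 * β + τ) / (δ + 2 * β) * q +
          (1 - q) * ((δ - τ) * (2 * β / (δ + 2 * β) - τ) - zz)) := by
  have hD : 0 < δ + 2 * β := by linarith
  have hα : 0 < β + δ := by linarith
  have hτ : τ ≤ 2 * β / (δ + 2 * β) := by rw [le_div_iff₀ hD]; linarith
  have h1 := slope_le hβ hδ hτ0 hτ hτδ
  set T := tT β δ τ with hT
  set K := 2 * (β + δ) * (2 * β + τ) / (δ + 2 * β) with hK
  set pre := δ + 2 * β - (δ - τ) * (1 + 2 * β / (β + δ)) with hpre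
  have hpre_eq := pre_eq (β := β) (τ := τ) hα.ne'
  have hpre0 : 0 < pre := by rw [hpre, hpre_eq]; positivity
  have hvw : 0 ≤ (δ - τ) * (2 * β / (δ + 2 * β) - τ) := mul_nonneg (by linarith) (by linarith)
  have hc : 0 ≤ (δ - τ) * (2 * δ / (δ + 2 * β)) := mul_nonneg (by linarith) (by positivity)
  have hslope : 0 ≤ (q - 1) * (2 * δ / (δ + 2 * β) * ((δ - τ) *
      (K - (δ - τ) * (2 * β / (δ + 2 * β) - τ) + zz - T) + (2 * β + τ) * zz)) :=
    mul_nonneg (by linarith) (mul_nonneg (by positivity)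
      (add_nonneg (mul_nonneg (by linarith) (by linarith)) (mul_nonneg (by linarith) hz)))
  have hzt : 0 ≤ (2 * β + τ) * zz * (1 + 2 * β / (β + δ) + 2 * δ / (δ + 2 * β)) := by positivity
  have hmain : 0 < pre * T + (δ - τ) * (2 * δ / (δ + 2 * β)) * (K - T) := by
    rcases lt_or_ge 0 T with hp | hT0
    · exact add_pos_of_pos_of_nonneg (mul_pos hpre0 hp) (mul_nonneg hc (by linarith))
    · exact neg_main hβ hδ hD3 hτ0 hτ hτδ hT0
  linear_combination hmain + hzt + hslope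

end PPos

/-- `P > 0` on the region. -/
theorem gP_pos {al be y z U : ℝ} (h : Region al be y z U) : 0 < gP al be y z U := by
  obtain ⟨δ, rfl⟩ : ∃ δ, al = be + δ := ⟨al - be, by ring⟩
  obtain ⟨τ, rfl⟩ : ∃ τ, y = be + τ := ⟨y - be, by ring⟩
  have hβ := h.hbe
  have hδ : 0 < δ := by linarith [h.hal]
  have hD : 0 < δ + 2 * be := by linarith
  have hτ0 : 0 < τ := by linarith [h.hy]
  have hτδ : τ ≤ δ := by linarith [h.hyal]
  have hhi' : τ * (δ + 2 * be) ≤ 2 * be := by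
    have := h.hyh
    simp only [dD, dN] at this
    nlinarith
  have hz : 0 ≤ (2 * be + τ) * z := mul_nonneg (by linarith) h.hz
  have hz' : (2 * be + τ) * z ≤ (δ - τ) * (2 * be / (δ + 2 * be) - τ) := by
    refine le_trans (le_of_eq ?_) (h.hz2.trans (le_of_eq ?_))
    · simp only [den]; ring
    · simp only [dN, dD, show be + δ + be = δ + 2 * be by ring]
      field_simp
      ring
  have hq : 0 ≤ 1 - U / (δ + 2 * be) := by
    have := h.hU
    simp only [dD] at this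
    rw [sub_nonneg, div_le_one hD]
    linarith
  have hE : _ := if hU : U ≤ 0 then
      PPos.P_expr_pos_one (q := 1 - U / (δ + 2 * be)) hβ hδ (by linarith [h.hD]) hτ0 hτδ hhi' hz
        (by linarith [div_nonpos_of_nonpos_of_nonneg hU hD.le])
    else
      PPos.P_expr_pos hβ hδ (by
        have := h.hlo_of_pos (not_le.1 hU)
        simp only [dN] at this
        linear_combination this) hτδ hhi' hz hz' hq
  have hfac : 0 < (be + δ + be + 1) * be / ((δ + 2 * be) * (2 * be + τ) ^ 3 * τ) := by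
    apply div_pos <;> positivity
  have hm := mul_pos hfac hE
  refine lt_of_lt_of_le hm (le_of_eq ?_)
  have e1 : be + δ ≠ 0 := by linarith
  have e2 : 2 * be + τ ≠ 0 := by linarith
  have e3 : be + τ + be ≠ 0 := by linarith
  have e4 : be + δ + be ≠ 0 := by linarith
  simp only [gP, c5, gj0, gE1, gL, gd, dU, ga, gG, dv, den, dl, dD, dN, dM, l1, PPos.tT]
  rw [show be + τ - be = τ by ring]
  field_simp
  ring

end Vale.Agent.P100.Pos
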