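import Vale.Agent.P100.Pos.Frac

/-!
A faster form of the sign test: the top bit of every slot of the packed integer is read with one
bitwise conjunction.
-/

namespace Vale.Agent.P100.Pos.Kron

/-- The Kronecker point, computed with small exponents. -/
def pointN (d : ℕ → ℕ) (b i : ℕ) : ℤ := (((2 ^ b) ^ slots d i : ℕ) : ℤ)

/-- The mask of the top bits of `S` slots of width `b`. -/
def mask (b S : ℕ) : ℕ := ((2 ^ b) ^ S - 1) / (2 ^ b - 1) * 2 ^ (b - 1)

/-- All `S` digits of width `b` have top bit zero. -/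
def chkMask (b S : ℕ) (v : ℤ) : Bool :=
  decide (0 ≤ v) && decide (v.toNat < (2 ^ b) ^ S) && decide (v.toNat &&& mask b S = 0)

/-- The test with the mask. -/
def testMask (n b : ℕ) (e : Ex) : Bool :=
  decide (0 < b) && e.inRange n && decide (2 * e.norm < 2 ^ b) &&
    chkMask b (slots (degs e) n) (e.evalZ (pointN (degs e) b))

theorem pointN_eq (d : ℕ → ℕ) (b i : ℕ) : pointN d b i = point d b i := by
  simp [pointN, point, pow_mul]

/-- `1 + 2^b + … + 2^(b(S-1))`. -/
def rep (b : ℕ) : ℕ → ℕ
  | 0 => 0
  | S + 1 => 2 ^ b * rep b S + 1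

theorem rep_mul (b : ℕ) : ∀ S, rep b S * (2 ^ b - 1) + 1 = (2 ^ b) ^ S
  | 0 => by simp [rep]
  | S + 1 => by
      have ih := rep_mul b S
      obtain ⟨c, hc⟩ : ∃ c, 2 ^ b = c + 1 := ⟨2 ^ b - 1, by have := Nat.one_le_two_pow (n := b); omega⟩
      rw [rep, hc, Nat.add_sub_cancel, pow_succ]
      rw [hc, Nat.add_sub_cancel] at ih
      rw [← ih]
      ring

theorem mask_eq {b : ℕ} (hb : 0 < b) (S : ℕ) : mask b S = rep b S * 2 ^ (b - 1) := by
  have h : 0 < 2 ^ b - 1 := by
    have := Nat.one_lt_two_pow (n := b) (by omega); omega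
  rw [mask, ← rep_mul b S, Nat.add_sub_cancel, Nat.mul_div_cancel _ h]

theorem testBit_rep {b : ℕ} (hb : 0 < b) : ∀ S j, j < S → (rep b S).testBit (b * j) = true
  | 0, j, h => absurd h (Nat.not_lt_zero j)
  | S + 1, j, h => by
      have h1 : 1 < 2 ^ b := Nat.one_lt_two_pow (by omega)
      rw [rep, Nat.testBit_two_pow_mul_add _ h1]
      cases j with
      | zero => simp [hb]
      | succ j =>
        rw [if_neg (by rw [Nat.mul_succ]; omega), Nat.mul_succ, Nat.add_sub_cancel]
        exact testBit_rep hb S j (by omega)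

/-- The top bits of the slots vanish. -/
theorem top_false {b S w : ℕ} (hb : 0 < b) (h : w &&& mask b S = 0) {j : ℕ} (hj : j < S) :
    w.testBit (b * j + (b - 1)) = false := by
  have e : (mask b S).testBit (b * j + (b - 1)) = true := by
    rw [mask_eq hb, Nat.testBit_mul_two_pow]
    simp [testBit_rep hb S j hj]
  have h' := congrArg (Nat.testBit · (b * j + (b - 1))) h
  simp only [Nat.testBit_and, e, Bool.and_true, Nat.zero_testBit] at h'
  exact h'

/-- A number of `S + 1` slots with top bits zero is below half of `2^(b(S+1))`. -/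
theorem two_mul_lt {b S w : ℕ} (hb : 0 < b) (hw : w < 2 ^ (b * (S + 1)))
    (h : w.testBit (b * S + (b - 1)) = false) : 2 * w < 2 ^ (b * (S + 1)) := by
  have e : b * (S + 1) = b * S + (b - 1) + 1 := by rw [Nat.mul_succ]; omega
  have h2 : w < 2 ^ (b * S + (b - 1)) := by
    by_contra hn
    rw [not_lt] at hn
    rw [e] at hw
    simp [Nat.testBit_of_two_pow_le_and_two_pow_add_one_gt hn hw] at h
  rw [e, pow_succ]
  omega

theorem slots_pos (d : ℕ → ℕ) : ∀ n, 0 < slots d n
  | 0 => Nat.one_pos
  | n + 1 => Nat.mul_pos (slots_pos d n) (Nat.succ_pos _)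

/-- Vanishing top bits imply the recursive check. -/
theorem chk_of_top (d : ℕ → ℕ) {b : ℕ} (hb : 0 < b) : ∀ n (w : ℕ), w < 2 ^ (b * slots d n) →
    (∀ j < slots d n, w.testBit (b * j + (b - 1)) = false) → chk d b n (w : ℤ) = true
  | 0, w, _, _ => by simp [chk]
  | n + 1, w, hw, ht => by
      set s := slots d n with hs
      have hX : point d b n = ((2 ^ (b * s) : ℕ) : ℤ) := by simp [point, hs]
      have go : ∀ (k v : ℕ), v < 2 ^ (b * (s * k)) →
          (∀ j < s * k, v.testBit (b * j + (b - 1)) = false) →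
          chk.go (chk d b n) (point d b n) k (v : ℤ) = true := by
        intro k
        induction k with
        | zero => intro v _ _; rfl
        | succ k ih =>
          intro v hv hj
          have h0 : v % 2 ^ (b * s) < 2 ^ (b * s) := Nat.mod_lt _ (Nat.two_pow_pos _)
          have hlow : ∀ j < s, (v % 2 ^ (b * s)).testBit (b * j + (b - 1)) = false := fun j hjs => by
            rw [Nat.testBit_mod_two_pow, hj j (lt_of_lt_of_le hjs (Nat.le_mul_of_pos_right s
              (Nat.succ_pos k))), Bool.and_false]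
          have h2 : 2 * (v % 2 ^ (b * s)) < 2 ^ (b * s) := by
            obtain ⟨t, ht'⟩ : ∃ t, s = t + 1 := ⟨s - 1, by have := slots_pos d n; omega⟩
            rw [ht'] at h0 hlow ⊢
            exact two_mul_lt hb h0 (hlow t (by omega))
          have h3 : v / 2 ^ (b * s) < 2 ^ (b * (s * k)) := by
            rw [Nat.div_lt_iff_lt_mul (Nat.two_pow_pos _), ← pow_add]
            refine hv.trans_le (Nat.pow_le_pow_right (by norm_num) (le_of_eq ?_))
            ring
          have h4 : ∀ j < s * k, (v / 2 ^ (b * s)).testBit (b * j + (b - 1)) = false := fun j hjk => by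
            rw [Nat.testBit_div_two_pow, ← hj (j + s) (by rw [Nat.mul_succ]; omega)]
            congr 1
            ring
          have e1 : (v : ℤ) % point d b n = ((v % 2 ^ (b * s) : ℕ) : ℤ) := by rw [hX]; push_cast; rfl
          have e2 : (v : ℤ) / point d b n = ((v / 2 ^ (b * s) : ℕ) : ℤ) := by rw [hX]; push_cast; rfl
          simp only [chk.go, Bool.and_eq_true, decide_eq_true_eq]
          rw [e1, e2, hX]
          refine ⟨⟨?_, chk_of_top d hb n _ h0 hlow⟩, ?_⟩
          · exact_mod_cast h2
          · rw [← hX]; exact ih _ h3 h4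
      exact go (d n + 1) w hw ht

/-- An expression that passes the faster test passes the test. -/
theorem test_of_testMask {n b : ℕ} {e : Ex} (h : testMask n b e = true) : test n b e = true := by
  simp only [testMask, Bool.and_eq_true, chkMask, decide_eq_true_eq] at h
  obtain ⟨⟨⟨hb, hr⟩, hN⟩, ⟨h0, hlt⟩, hm⟩ := h
  have hp : pointN (degs e) b = point (degs e) b := funext (pointN_eq _ _)
  rw [hp] at h0 hlt hm
  simp only [test, Bool.and_eq_true, decide_eq_true_eq]
  refine ⟨⟨hr, hN⟩, ?_⟩
  set v := e.evalZ (point (degs e) b)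
  rw [← pow_mul] at hlt
  have := chk_of_top (degs e) hb n v.toNat hlt fun j hj => top_false hb hm hj
  rwa [Int.toNat_of_nonneg h0] at this

end Vale.Agent.P100.Pos.Kron
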