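import Vale.Agent.P100.Pos.Bound
import Vale.Agent.P100.Pos.Cert.Afast
import Vale.Agent.P100.Pos.Cert.Alow
import Vale.Agent.P100.Pos.Cert.Aone
import Vale.Agent.P100.Pos.Cert.Atwo
import Vale.Agent.P100.Pos.Cert.Bfast
import Vale.Agent.P100.Pos.Cert.Bone
import Vale.Agent.P100.Pos.Cert.Btwo
import Vale.Agent.P100.Pos.Cert.C1
import Vale.Agent.P100.Pos.Cert.C2
import Vale.Agent.P100.Pos.Cert.Slow

/-!
P100: the discriminant bound on the region.
-/

namespace Vale.Agent.P100.Pos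

open Cert in
/-- The ten sign tests hold. -/
theorem signs : Cover.Signs :=
  ⟨⟨_, eAone_test⟩, ⟨_, eBone_test⟩, ⟨_, eAtwo_test⟩, ⟨_, eBtwo_test⟩, ⟨_, eAfast_test⟩,
    ⟨_, eBfast_test⟩, ⟨_, eAlow_test⟩, ⟨_, eSlow_test⟩, ⟨_, eC1_test⟩, ⟨_, eC2_test⟩⟩

/-- The discriminant is a definite part of `4 C P` on the whole region. -/
theorem kap_bound {al be y z U : ℝ} (h : Region al be y z U) :
    1 / 20 * (4 * gC al be y z U * gP al be y z U * aDe al be y z) ≤ kap al be y z U :=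
  Bound.kap_bound_of_signs signs h

end Vale.Agent.P100.Pos
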