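import Vale.Agent.P100.Pos.Scale

/-!
P100: the form at an interior point lies above the interpolation of its values at two end points.
-/

namespace Vale.Agent.P100.Pos.Interp

open Scale

/-- The two signs at the ends and the curvature inequality give the sign between them. -/
theorem quad {r₀ r₁ g₀ g₁ g₂ c a b x X : ℝ} (hr₀ : 0 < r₀) (hr₁ : 0 ≤ r₁) (hx : 0 ≤ x)
    (hxX : x ≤ X) (h0 : 0 ≤ r₀ * g₀ - c * a ^ 2)
    (hX : 0 ≤ (r₀ + r₁ * X) * (g₀ + g₁ * X + g₂ * X ^ 2) - c * (a + b * X) ^ 2)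
    (hc : g₂ * ((r₀ + r₁ * x) * r₀ * (r₀ + r₁ * X)) ≤ c * (a * r₁ - b * r₀) ^ 2) :
    0 ≤ (r₀ + r₁ * x) * (g₀ + g₁ * x + g₂ * x ^ 2) - c * (a + b * x) ^ 2 := by
  rcases hx.eq_or_lt with rfl | hx
  · simpa using h0
  have hX0 : 0 < X := hx.trans_le hxX
  have hRx : 0 < r₀ + r₁ * x := by positivity
  have hRX : 0 < r₀ + r₁ * X := by positivity
  have key : X * r₀ * (r₀ + r₁ * X) *
      ((r₀ + r₁ * x) * (g₀ + g₁ * x + g₂ * x ^ 2) - c * (a + b * x) ^ 2) =
      (X - x) * (r₀ + r₁ * x) * (r₀ + r₁ * X) * (r₀ * g₀ - c * a ^ 2) +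
      x * (r₀ + r₁ * x) * r₀ *
        ((r₀ + r₁ * X) * (g₀ + g₁ * X + g₂ * X ^ 2) - c * (a + b * X) ^ 2) +
      x * (X - x) * X *
        (c * (a * r₁ - b * r₀) ^ 2 - g₂ * ((r₀ + r₁ * x) * r₀ * (r₀ + r₁ * X))) := by ring
  have h1 : 0 ≤ X - x := by linarith
  have h2 := sub_nonneg.2 hc
  refine nonneg_of_mul_nonneg_right (a := X * r₀ * (r₀ + r₁ * X)) ?_ (by positivity)
  rw [key]; positivity

variable (h q t w : ℝ)

/-- The coefficient of `Z²` in the bracket of the form. -/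
noncomputable def g2 : ℝ :=
  4 * h * (1 - q) ^ 2 * (1 + h * t) * t *
    (q * (1 + h * t) * Forms.fL kR q w - Forms.fd kR q * (1 - q) * Forms.fV kR h q t * (1 - w))

/-- The bracket of the form. -/
noncomputable def gg (Z : ℝ) : ℝ :=
  19 * ((1 - q) * ((1 + 2 * h) * (Forms.fV kR h q t * Forms.fL kR q w) -
      (1 - q) * ((1 + 2 * (h * t)) * Forms.fV kR h q t + 2 * (h * Z)))) *
      ((1 + h * t) * t * Forms.fP kR h q t w Z) -
    10 * (Forms.fV kR h q t * Forms.fL kR q w) * (Forms.fw kR h q t w Z * Forms.fw kR h q t w Z) +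
    20 * (Forms.fd kR q * (1 - q)) * (Forms.fw kR h q t w Z * Q0 h q t w Z)

theorem fF_split (Z : ℝ) : Forms.fF kR h q t w Z =
    ((1 + 2 * (h * t)) * Forms.fV kR h q t + 2 * h * Z) * gg h q t w Z -
      10 * ((1 - q) * Forms.fd kR q ^ 2 * (1 + 2 * h)) * Q0 h q t w Z ^ 2 := by
  simp only [Forms.fF, gg, Q0, Forms.o1, Forms.o2, Forms.fr, kR]; push_cast; ring

/-- The slope of the cross term. -/
noncomputable def slope : ℝ :=
  (1 + h * t) * Forms.fL kR q w - 2 * (h * ((1 - q) * (Forms.fV kR h q t * ((1 - w) * t))))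

theorem Q0_affine (Z : ℝ) : Q0 h q t w Z = Q0 h q t w 0 + slope h q t w * Z := by
  simp only [Q0, slope, Forms.fH, Forms.fG, Forms.o1, Forms.fr, kR]; push_cast; ring

theorem fw_affine (Z : ℝ) : Forms.fw kR h q t w Z =
    Forms.fw kR h q t w 0 + 2 * ((1 - q) * (1 + h * t)) * Z := by
  simp only [Forms.fw, Forms.o1, Forms.fr, kR]; push_cast; ring

theorem fP_affine (Z : ℝ) : Forms.fP kR h q t w Z = Forms.fP kR h q t w 0 +
    (2 * (q * ((1 + h * t) * Forms.fL kR q w)) -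
      2 * (Forms.fd kR q * (1 - q) * (Forms.fV kR h q t * (1 - w)))) * Z := by
  simp only [Forms.fP, Forms.fH, Forms.fG, Forms.o1, Forms.fr, kR]; push_cast; ring

theorem gg_quad (Z : ℝ) : gg h q t w Z = gg h q t w 0 +
    (gg h q t w 1 - gg h q t w 0 - g2 h q t w) * Z + g2 h q t w * Z ^ 2 := by
  simp only [gg, g2, fw_affine h q t w Z, fw_affine h q t w 1, fP_affine h q t w Z,
    fP_affine h q t w 1, Q0_affine h q t w Z, Q0_affine h q t w 1, slope]
  generalize Forms.fw kR h q t w 0 = W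
  generalize Forms.fP kR h q t w 0 = P
  generalize Q0 h q t w 0 = Q
  generalize Forms.fL kR q w = L
  simp only [Forms.fV, Forms.fd, kR]
  push_cast
  ring

/-- `V E`, the determinant of the two affine parts. -/
noncomputable def eE : ℝ :=
  (1 + 2 * (h * t)) * (1 + h * t) * Forms.fL kR q w -
      8 * h ^ 2 * (1 - q) ^ 2 * t * (1 + h * t) +
    2 * h * (1 - q) * t * (1 - w) * (2 * h * (1 + 2 * (h * t)) - Forms.fV kR h q t)

theorem det_eq : Q0 h q t w 0 * (2 * h) -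
    slope h q t w * ((1 + 2 * (h * t)) * Forms.fV kR h q t) =
      -(Forms.fV kR h q t * eE h q t w) := by
  simp only [Q0, slope, eE, Forms.fH, Forms.fG, Forms.o1, Forms.fr, Forms.fV, Forms.fd, kR]
  push_cast; ring

variable {h q t w}

theorem core_small {h t : ℝ} (h0 : 0 ≤ h) (h3 : h ≤ 1 / 3) (ht : 0 ≤ t) (ht1 : t ≤ 1) :
    8 * h ^ 2 * (1 - h) ^ 2 * t * (1 + h) + 2 * h * (1 - h) * t * (1 - 2 * h) +
      8 * h ^ 3 * (1 - h) * t * (1 + 2 * h) ≤ 2 / 5 * ((1 + h) * (1 + 3 * h * t)) := by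
  have e : 8 * h ^ 2 * (1 - h) ^ 2 * (1 + h) + 2 * h * (1 - h) * (1 - 2 * h) +
      8 * h ^ 3 * (1 - h) * (1 + 2 * h) ≤ 2 / 5 * ((1 + h) * (1 + 3 * h)) := by
    nlinarith [sq_nonneg (h - 1 / 3), sq_nonneg h, mul_nonneg h0 (sub_nonneg.2 h3),
      mul_nonneg (sq_nonneg h) (sub_nonneg.2 h3), mul_nonneg (sq_nonneg h) (sq_nonneg (h - 1/3))]
  have := mul_le_mul_of_nonneg_left e ht
  nlinarith

theorem eE_lower (hh : 0 < h) (h3 : h ≤ 1 / 3) (hq : h ≤ q) (hq2 : q < 1 / 2) (ht : 0 ≤ t)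
    (ht1 : t ≤ 1) (hV : 0 ≤ Forms.fV kR h q t) (hw0 : 0 ≤ w) (hw1 : w ≤ 1 + 2 * h) :
    3 / 5 * ((1 + 2 * (h * t)) * (1 + h * t) * Forms.fL kR q w) ≤ eE h q t w := by
  have hV' : Forms.fV kR h q t ≤ 1 - 2 * h := by
    have := mul_nonneg (mul_nonneg (hh.le.trans hq) hh.le) ht
    simp only [Forms.fV, Forms.fd, kR]; push_cast; linarith
  have hL : 1 + h ≤ Forms.fL kR q w := by
    simp only [Forms.fL, Forms.fd, Forms.fr, kR]; push_cast
    nlinarith [mul_nonneg (mul_nonneg (by linarith : 0 ≤ 1 - 2 * q) (by linarith : 0 ≤ 1 - q)) hw0]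
  have hhr : h * (1 - q) ≤ h * (1 - h) := by nlinarith
  have hr : 0 ≤ h * (1 - q) := mul_nonneg hh.le (by linarith)
  simp only [eE]
  generalize Forms.fV kR h q t = V at *
  generalize Forms.fL kR q w = L at *
  have hht : h * t ≤ h := by nlinarith
  have hht0 : 0 ≤ h * t := by positivity
  have m1 : -((1 - w) * (2 * h * (1 + 2 * (h * t)) - V)) ≤
      4 * h ^ 2 * (1 + 2 * h) + (1 - 2 * h) := by
    rcases le_total w 1 with hw | hw
    · nlinarith [mul_nonneg (sub_nonneg.2 hw) (show 0 ≤ 2 * h * (1 + 2 * (h * t)) by positivity),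
        mul_nonneg hV hw0, sq_nonneg h]
    · nlinarith [mul_le_mul (show w - 1 ≤ 2 * h by linarith)
        (show 2 * h * (1 + 2 * (h * t)) ≤ 2 * h * (1 + 2 * h) by nlinarith)
        (by positivity) (by linarith), mul_nonneg hV (sub_nonneg.2 hw)]
  have m2 : 8 * h ^ 2 * (1 - q) ^ 2 * t * (1 + h * t) ≤
      8 * h ^ 2 * (1 - h) ^ 2 * t * (1 + h) := by
    have : (h * (1 - q)) ^ 2 ≤ (h * (1 - h)) ^ 2 := by gcongr
    have := mul_le_mul this (show 1 + h * t ≤ 1 + h by linarith) (by positivity) (sq_nonneg _)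
    nlinarith [mul_le_mul_of_nonneg_left this ht]
  have m3 : -(2 * h * (1 - q) * t * (1 - w) * (2 * h * (1 + 2 * (h * t)) - V)) ≤
      2 * h * (1 - h) * t * (4 * h ^ 2 * (1 + 2 * h) + (1 - 2 * h)) := by
    have h0 : 0 ≤ 4 * h ^ 2 * (1 + 2 * h) + (1 - 2 * h) := by
      have : 0 ≤ 1 - 2 * h := by linarith
      positivity
    have a1 := mul_le_mul_of_nonneg_left m1 (show 0 ≤ 2 * (h * (1 - q)) * t by positivity)
    have a2 := mul_le_mul_of_nonneg_right hhr (show 0 ≤ 2 * t *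
      (4 * h ^ 2 * (1 + 2 * h) + (1 - 2 * h)) by positivity)
    linarith
  have m4 : (1 + h) * (1 + 3 * h * t) ≤ (1 + 2 * (h * t)) * (1 + h * t) * L := by
    have : 1 + 3 * h * t ≤ (1 + 2 * (h * t)) * (1 + h * t) := by nlinarith
    nlinarith [mul_le_mul this hL (by linarith) (by positivity)]
  have := core_small hh.le h3 ht ht1
  nlinarith

/-- The sign of the form between two end points. -/
theorem between {x X : ℝ} (hh : 0 < h) (h3 : h ≤ 1 / 3) (hq : h ≤ q) (hq2 : q < 1 / 2)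
    (ht : 0 < t) (ht1 : t ≤ 1) (hV : 0 < Forms.fV kR h q t) (hw0 : 0 ≤ w) (hw1 : w ≤ 1 + 2 * h)
    (hx : 0 ≤ x) (hxX : x ≤ X) (hx2 : x ≤ Forms.fV kR h q t * (1 - t))
    (hX : (1 + 2 * (h * t)) * Forms.fV kR h q t + 2 * h * X ≤
      5 / 2 * ((1 + 2 * h) * Forms.fV kR h q t))
    (h0 : 0 ≤ Forms.fF kR h q t w 0) (h1 : 0 ≤ Forms.fF kR h q t w X) :
    0 ≤ Forms.fF kR h q t w x := by
  have hd : 0 < Forms.fd kR q := by simp only [Forms.fd, kR]; push_cast; linarith
  rw [fF_split, Q0_affine, gg_quad] at h0 h1 ⊢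
  simp only [mul_zero, add_zero, zero_pow (by norm_num : 2 ≠ 0)] at h0
  refine quad (mul_pos (by positivity) hV) (by positivity) hx hxX h0 h1 ?_
  rw [det_eq]
  have hE := eE_lower hh h3 hq hq2 ht.le ht1 hV.le hw0 hw1
  have hVd : Forms.fV kR h q t = Forms.fd kR q - 2 * (q * (h * t)) := by
    simp only [Forms.fV, kR]; push_cast; ring
  have hd1 : Forms.fd kR q ≤ 1 - 2 * h := by simp only [Forms.fd, kR]; push_cast; linarith
  have hq0 : 0 < q := by linarith
  have hr : 0 < 1 - q := by linarith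
  have hqht : 0 ≤ q * (h * t) := by positivity
  have hL : 1 ≤ Forms.fL kR q w := by
    simp only [Forms.fL, Forms.fd, Forms.fr, kR]; push_cast
    nlinarith [mul_nonneg (mul_nonneg (by linarith : 0 ≤ 1 - 2 * q) hr.le) hw0]
  simp only [g2]
  generalize Forms.fV kR h q t = V at *
  generalize Forms.fL kR q w = L at *
  generalize eE h q t w = E at *
  generalize Forms.fd kR q = d at *
  set o := 1 + h * t with ho
  set O := 1 + 2 * (h * t) with hO
  set o2 := 1 + 2 * h with ho2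
  have po : 1 ≤ o := by rw [ho]; nlinarith only [mul_pos hh ht]
  have pO : 1 ≤ O := by rw [hO]; nlinarith only [mul_pos hh ht]
  have hVle : V ≤ d := by linarith
  have e2 : h * q * t * V ≤ d ^ 2 / 8 := by
    rw [hVd]; nlinarith only [sq_nonneg (d - 4 * (q * (h * t)))]
  have e3 : h ^ 2 * t * V ^ 2 ≤ d ^ 2 * (h ^ 2) := by
    have : t * V ^ 2 ≤ 1 * d ^ 2 := mul_le_mul ht1 (by gcongr) (sq_nonneg _) zero_le_one
    nlinarith only [mul_le_mul_of_nonneg_left this (sq_nonneg h)]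
  have r1 : (1 - q) * o2 ≤ 9 / 8 := by
    rw [ho2]
    nlinarith only [mul_le_mul_of_nonneg_right (show 1 - q ≤ 1 - h by linarith)
      (show 0 ≤ 1 + 2 * h by positivity), sq_nonneg (h - 1 / 4)]
  have r2 : h ^ 2 * d * ((1 - q) * o2) ≤ 1 / 27 * (9 / 8) := by
    refine mul_le_mul ?_ r1 (by positivity) (by norm_num)
    nlinarith only [mul_le_mul_of_nonneg_left hd1 (sq_nonneg h),
      mul_nonneg (sq_nonneg (h - 1 / 3)) (show 0 ≤ 2 * h + 1 / 3 by positivity)]
  -- the reduced inequality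
  have main : h * (1 - q) * o * t * (q * o * L + 2 * h * d * (1 - q) * V) * O * o2 * V ≤
      d ^ 2 * E ^ 2 := by
    have s1 : h * (1 - q) * o * t * (q * o * L) * O * o2 * V ≤
        d ^ 2 * (o ^ 2 * O ^ 2 * L ^ 2) * (9 / 64) := by
      have a := mul_le_mul e2 r1 (by positivity) (by positivity)
      have b := mul_le_mul_of_nonneg_left a (show 0 ≤ o ^ 2 * O * L by positivity)
      have c : o ^ 2 * O * L ≤ o ^ 2 * O ^ 2 * L ^ 2 := by
        have : O * L ≤ (O * L) ^ 2 := le_self_pow₀ (one_le_mul_of_one_le_of_one_le pO hL) two_ne_zero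
        nlinarith only [mul_le_mul_of_nonneg_left this (sq_nonneg o)]
      nlinarith only [b, mul_le_mul_of_nonneg_left c (sq_nonneg d)]
    have s2 : h * (1 - q) * o * t * (2 * h * d * (1 - q) * V) * O * o2 * V ≤
        d ^ 2 * (o ^ 2 * O ^ 2 * L ^ 2) * (1 / 12) := by
      have a := mul_le_mul_of_nonneg_left e3
        (show 0 ≤ 2 * ((1 - q) * (1 - q)) * d * o2 * (o * O) by positivity)
      have b := mul_le_mul_of_nonneg_right r2 (show 0 ≤ d ^ 2 * (o * O) by positivity)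
      have c : o * O ≤ o ^ 2 * O ^ 2 * L ^ 2 := by
        have h1 : 1 ≤ o * O := one_le_mul_of_one_le_of_one_le po pO
        have h2 : 1 ≤ L ^ 2 := one_le_pow₀ hL
        nlinarith only [h1, mul_le_mul h1 h2 zero_le_one (by positivity), mul_le_mul_of_nonneg_left (mul_le_mul h1 h2 zero_le_one (by positivity)) (show 0 ≤ o * O by positivity)]
      have hq1 : 1 - q ≤ 1 := by linarith
      have f := mul_le_mul_of_nonneg_right hq1
        (show 0 ≤ h ^ 2 * d * ((1 - q) * o2) * (d ^ 2 * (o * O)) by positivity)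
      have g := mul_le_mul_of_nonneg_left c (sq_nonneg d)
      nlinarith only [a, b, f, g]
    have hE2 : (3 / 5 * (O * o * L)) ^ 2 ≤ E ^ 2 := by gcongr
    have hE3 := mul_le_mul_of_nonneg_left hE2 (sq_nonneg d)
    have : 0 ≤ d ^ 2 * (o ^ 2 * O ^ 2 * L ^ 2) := by positivity
    nlinarith only [s1, s2, hE3, this]
  have hRx : O * V + 2 * h * x ≤ o2 * V := by
    rw [hO, ho2]; nlinarith only [mul_le_mul_of_nonneg_left hx2 (show 0 ≤ 2 * h by positivity)]
  have hM : q * o * L - d * (1 - q) * V * (1 - w) ≤ q * o * L + 2 * h * d * (1 - q) * V := by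
    nlinarith only [mul_le_mul_of_nonneg_left (show w - 1 ≤ 2 * h by linarith)
      (show 0 ≤ d * (1 - q) * V by positivity)]
  have hX0 : 0 ≤ X := hx.trans hxX
  have hprod : (O * V + 2 * h * x) * (O * V) * (O * V + 2 * h * X) ≤
      o2 * V * (O * V) * (5 / 2 * (o2 * V)) := by gcongr
  have : 0 ≤ q * o * L + 2 * h * d * (1 - q) * V := by positivity
  calc 4 * h * (1 - q) ^ 2 * o * t * (q * o * L - d * (1 - q) * V * (1 - w)) *
        ((O * V + 2 * h * x) * (O * V) * (O * V + 2 * h * X))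
      ≤ 4 * h * (1 - q) ^ 2 * o * t * (q * o * L + 2 * h * d * (1 - q) * V) *
        ((O * V + 2 * h * x) * (O * V) * (O * V + 2 * h * X)) := by
          have : 0 ≤ x := hx
          have : 0 ≤ X := hx.trans hxX
          gcongr
    _ ≤ 4 * h * (1 - q) ^ 2 * o * t * (q * o * L + 2 * h * d * (1 - q) * V) *
        (o2 * V * (O * V) * (5 / 2 * (o2 * V))) := by gcongr
    _ ≤ 10 * ((1 - q) * d ^ 2 * o2) * (-(V * E)) ^ 2 := by
          have := mul_le_mul_of_nonneg_left main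
            (show 0 ≤ 10 * (1 - q) * o2 * V ^ 2 by positivity)
          linarith

end Vale.Agent.P100.Pos.Interp
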