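import Vale.Agent.P100.Pos.Cover
import Vale.Agent.P100.Pos.Interp

/-!
P100: the bound on `kap` on the whole region, given the ten sign tests.
-/

namespace Vale.Agent.P100.Pos.Bound

open Scale Sheet

variable {h q t w Z : ℝ}

theorem fF_zero : Forms.fF kR h q t w 0 = Forms.fV kR h q t ^ 2 * Forms.fA kR h q t w := by
  simp only [Forms.fF, Forms.fA, Forms.faceAB, Forms.o1, Forms.o2, Forms.fr, kR]; push_cast; ring

theorem fF_top : Forms.fF kR h q t w (Forms.fV kR h q t * (1 - t)) =
    Forms.fV kR h q t ^ 2 * Forms.fB kR h q t w := by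
  simp only [Forms.fF, Forms.fB, Forms.faceAB, Forms.o1, Forms.o2, Forms.fr, kR]; push_cast; ring

theorem fV_eq : Forms.fV kR h q t = Forms.fd kR q - 2 * (q * h) * t := by
  simp only [Forms.fV, kR]; push_cast; ring

/-- The upper end `a₁ = E ψ` in the scaled variables. -/
noncomputable def z1 (h q t : ℝ) : ℝ :=
  (1 + 2 * (h * t)) * (t * Forms.fK kR h q - Forms.fd kR q) / (1 + 4 * h)

/-- The conditions of the region in the scaled variables. -/
structure Scaled (h q t w Z : ℝ) : Prop where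
  B : Cover.Base h q
  ht : 0 < t
  ht1 : t ≤ 1
  hV : 2 * (q * h) * t ≤ Forms.fd kR q
  hlo : Forms.fd kR q ≤ t * (Forms.fK kR h q + 6 * h * (1 + 2 * h))
  hw0 : 0 ≤ w
  hw1 : w ≤ 1 + 2 * h
  hZ : 0 ≤ Z
  hZ2 : Z ≤ Forms.fV kR h q t * (1 - t)
  hpos : w < 1 → Forms.fd kR q ≤ t * Forms.fK kR h q ∧ Z ≤ z1 h q t
  hneg : 1 ≤ w → Z ≤ z1 h q t + slack h q t (t / Forms.fd kR q)

theorem slack_nonneg (B : Cover.Base h q) (ht : 0 ≤ t) (ht1 : t ≤ 1)
    (hV : 0 ≤ Forms.fV kR h q t) : 0 ≤ slack h q t (t / Forms.fd kR q) := by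
  have := B.hh
  have := B.d_pos
  have : 0 ≤ 1 - q + 2 * h := by linarith [B.hq2]
  have : 0 ≤ 1 - t := by linarith
  simp only [slack, Cover.o2_eq]; positivity

/-- The bound on the upper end used in the interpolation, left of the split. -/
theorem left_end (B : Cover.Base h q) (ht : 0 ≤ t) (ht1 : t ≤ 1)
    (hV : 0 ≤ Forms.fV kR h q t)
    (hhi : t * Forms.fK kR h q ≤ Forms.fd kR q * Forms.fc kR h q) {X : ℝ}
    (hX : X ≤ max 0 (z1 h q t) + slack h q t (t / Forms.fd kR q)) :
    (1 + 2 * (h * t)) * Forms.fV kR h q t + 2 * h * X ≤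
      5 / 2 * ((1 + 2 * h) * Forms.fV kR h q t) := by
  obtain ⟨hh, h3, hq, hq2⟩ := B
  have B : Cover.Base h q := ⟨hh, h3, hq, hq2⟩
  have hd := B.d_pos
  have hK := B.K_pos
  have hq0 : 0 < q := by linarith
  set v := t / Forms.fd kR q with hv
  have ev : t = Forms.fd kR q * v := by rw [hv]; field_simp
  have hv0 : 0 ≤ v := div_nonneg ht hd.le
  have hvK : v * Forms.fK kR h q ≤ Forms.fc kR h q := by
    rw [hv, div_mul_eq_mul_div, div_le_iff₀ hd]; linarith
  have hqv : 2 * (q * h) * v ≤ 1 / 3 := by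
    have := B.qhc
    refine le_of_mul_le_mul_right ?_ hK
    nlinarith [mul_le_mul_of_nonneg_left hvK (show 0 ≤ 2 * (q * h) by positivity)]
  have hV23 : 2 / 3 * Forms.fd kR q ≤ Forms.fV kR h q t := by
    have e : 2 * (q * h) * t = Forms.fd kR q * (2 * (q * h) * v) := by rw [ev]; ring
    rw [fV_eq]; nlinarith [mul_le_mul_of_nonneg_left hqv hd.le]
  have hvr : v * (1 - q + 2 * h) ≤ 2 := by
    refine le_of_mul_le_mul_right ?_ hK
    have hc2 : Forms.fc kR h q * (1 - q + 2 * h) ≤ 2 * ((1 + 2 * h) * (1 + 2 * h)) := by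
      rw [Cover.fc_eq]
      nlinarith [mul_le_mul (show 1 + 2 * h + q + q * q ≤ 2 * (1 + 2 * h) by nlinarith)
        (show 1 - q + 2 * h ≤ 1 + 2 * h by linarith) (by linarith) (by positivity)]
    have h2 : (1 + 2 * h) * (1 + 2 * h) ≤ Forms.fK kR h q := by
      rw [Cover.fK_eq]; nlinarith
    nlinarith [mul_le_mul_of_nonneg_right hvK (show 0 ≤ 1 - q + 2 * h by linarith)]
  have hS : 2 * h * slack h q t v ≤ 16 / 27 * ((1 + 2 * h) * Forms.fV kR h q t) := by
    simp only [slack, Cover.o2_eq]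
    rw [mul_div_assoc', div_le_iff₀ (by linarith)]
    have a : (1 - t) * (v * (1 - q + 2 * h)) ≤ 1 * 2 :=
      mul_le_mul (by linarith) hvr (mul_nonneg hv0 (by linarith)) zero_le_one
    have b : 27 * h ^ 2 ≤ 1 + 6 * h := by nlinarith
    have p : 0 ≤ (1 + 2 * h) * Forms.fV kR h q t := by positivity
    nlinarith [mul_le_mul_of_nonneg_left a (show 0 ≤ 8 * h ^ 2 * ((1 + 2 * h) * Forms.fV kR h q t)
      by positivity), mul_le_mul_of_nonneg_right b p]
  have hZ1 : 2 * h * max 0 (z1 h q t) ≤ 6 / 7 * ((1 + 2 * h) * Forms.fV kR h q t) := by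
    rw [mul_max_of_nonneg _ _ (by positivity), mul_zero]
    refine max_le (by positivity) ?_
    have e : z1 h q t ≤ Forms.fd kR q * (2 * h + 3 / 4) := by
      rw [z1, div_le_iff₀ (by linarith)]
      have a : t * Forms.fK kR h q - Forms.fd kR q ≤ Forms.fd kR q * (2 * h + 3 / 4) := by
        have : Forms.fc kR h q ≤ 1 + (2 * h + 3 / 4) := by rw [Cover.fc_eq]; nlinarith
        nlinarith [mul_le_mul_of_nonneg_left this hd.le]
      have b : 1 + 2 * (h * t) ≤ 1 + 4 * h := by nlinarith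
      nlinarith [mul_le_mul_of_nonneg_left a (show 0 ≤ 1 + 2 * (h * t) by positivity),
        mul_le_mul_of_nonneg_right b
          (show 0 ≤ Forms.fd kR q * (2 * h + 3 / 4) by positivity)]
    have b : 3 * h * (2 * h + 3 / 4) ≤ 6 / 7 * (1 + 2 * h) := by nlinarith
    nlinarith [mul_le_mul_of_nonneg_left e (show 0 ≤ 2 * h by positivity),
      mul_le_mul_of_nonneg_left hV23 (show 0 ≤ 3 * h * (2 * h + 3 / 4) by positivity),
      mul_le_mul_of_nonneg_right b hV]
  have hO : (1 + 2 * (h * t)) * Forms.fV kR h q t ≤ (1 + 2 * h) * Forms.fV kR h q t :=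
    mul_le_mul_of_nonneg_right (by nlinarith) hV
  nlinarith [mul_le_mul_of_nonneg_left hX (show 0 ≤ 2 * h by positivity)]

/-- The form is nonnegative on the region. -/
theorem form_nonneg (S : Cover.Signs) (r : Scaled h q t w Z) :
    0 ≤ Forms.fF kR h q t w Z := by
  obtain ⟨B, ht, ht1, hV, hlo, hw0, hw1, hZ, hZ2, hpos, hneg⟩ := r
  have hV0 : 0 ≤ Forms.fV kR h q t := by rw [fV_eq]; linarith
  have hAB := Cover.face_AB S B ⟨hw0, hw1⟩ ht1 hV
  -- the face `Z = 0`
  have hA : 0 ≤ Forms.fA kR h q t w := by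
    rcases le_total (Forms.fd kR q) (t * Forms.fK kR h q) with hm | hm
    · exact hAB.1 hm
    rcases lt_or_ge w 1 with hw | hw
    · exact hAB.1 (hpos hw).1
    · exact (Cover.face_low S B hlo hm ⟨hw, hw1⟩).1
  have f0 : 0 ≤ Forms.fF kR h q t w 0 := by rw [fF_zero]; positivity
  rcases hZ.eq_or_lt with rfl | hZp
  · exact f0
  have hVp : 0 < Forms.fV kR h q t := by
    refine hV0.lt_of_ne fun e => ?_
    rw [← e, zero_mul] at hZ2; linarith
  have go : ∀ X : ℝ, Z ≤ X → (1 + 2 * (h * t)) * Forms.fV kR h q t + 2 * h * X ≤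
      5 / 2 * ((1 + 2 * h) * Forms.fV kR h q t) → 0 ≤ Forms.fF kR h q t w X →
      0 ≤ Forms.fF kR h q t w Z := fun X hX hR hf =>
    Interp.between B.hh B.h3 B.hq B.hq2 ht ht1 hVp hw0 hw1 hZ hX hZ2 hR f0 hf
  rcases le_total (Forms.fd kR q * Forms.fc kR h q) (t * Forms.fK kR h q) with hc | hc
  · refine go _ hZ2 ?_ ?_
    · have := B.hh
      nlinarith [mul_nonneg (show 0 ≤ 1 + 2 * h by positivity) hV0]
    · rw [fF_top]
      have := hAB.2 hc
      positivity
  rcases le_or_gt (Forms.fd kR q) (t * Forms.fK kR h q) with hm | hm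
  · rcases lt_or_ge w 1 with hw | hw
    · refine go _ (hpos hw).2 (left_end B ht.le ht1 hV0 hc ?_) ?_
      · exact (le_max_right _ _).trans (le_add_of_nonneg_right (slack_nonneg B ht.le ht1 hV0))
      · exact (Cover.face_C S B hm hc).1 ⟨hw0, hw.le⟩
    · refine go _ (hneg hw) (left_end B ht.le ht1 hV0 hc ?_) ?_
      · gcongr; exact le_max_right _ _
      · exact (Cover.face_C S B hm hc).2 ⟨hw, hw1⟩
  · have hw : 1 ≤ w := le_of_not_gt fun hw => absurd (hpos hw).1 (not_le.2 hm)
    have hz : z1 h q t ≤ 0 := by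
      have := B.hh
      exact div_nonpos_of_nonpos_of_nonneg
        (mul_nonpos_of_nonneg_of_nonpos (by positivity) (by linarith)) (by positivity)
    refine go (slack h q t (t / Forms.fd kR q)) ((hneg hw).trans (by linarith))
      (left_end B ht.le ht1 hV0 hc (le_add_of_nonneg_left (le_max_left _ _))) ?_
    exact (Cover.face_low S B hlo hm.le ⟨hw, hw1⟩).2


/-- The region in the scaled variables. -/
theorem scaled_of_region (hh : 0 < h) (hR : Region ((1 - q) / h) (q / h) (q / h * (1 + 2 * h * t)) (Z / (1 + h * t)) ((1 - w) / h)) : Scaled h q t w Z := by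
  have hq : h ≤ q := by have := hR.hbe; rwa [le_div_iff₀ hh, one_mul] at this
  have hq0 : 0 < q := hh.trans_le hq
  have hq2 : q < 1 / 2 := by
    have := hR.hal; rw [div_lt_div_iff_of_pos_right hh] at this; linarith
  have h3 : h ≤ 1 / 3 := by
    have := hR.hD; rw [← add_div, le_div_iff₀ hh] at this; linarith
  have B : Cover.Base h q := ⟨hh, h3, hq, hq2⟩
  have hd : 0 < 1 - 2 * q := by linarith
  have ht : 0 < t := by
    have hy := hR.hy
    have : (q / h) * 1 < (q / h) * (1 + 2 * h * t) := by linarith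
    have := lt_of_mul_lt_mul_left this (by positivity)
    exact pos_of_mul_pos_right (a := 2 * h) (by linarith) (by positivity)
  have o : Ok h q t := ⟨hh, hq0, by linarith, ht⟩
  have hy0 : 0 < q * (1 + 2 * h * t) := by positivity
  have hne := hh.ne'
  have hz : den (q / h) (q / h * (1 + 2 * h * t)) * (Z / (1 + h * t)) = 2 * q * Z / h := by
    rw [den_eq]; field_simp
  have hal : (((1 - q) / h) - (q / h * (1 + 2 * h * t))) = Forms.fV kR h q t / h := by rw [← dv_eq (h := h) (q := q) (t := t)]; rfl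
  have hV0 : 0 ≤ Forms.fV kR h q t := by
    have := hR.hyal
    have h0 : 0 ≤ Forms.fV kR h q t / h := by linarith
    rwa [le_div_iff₀ hh, zero_mul] at h0
  have ht1 : t ≤ 1 := by
    have := hR.hyh
    rw [dN_eq o, dD_eq] at this
    field_simp at this
    nlinarith
  have hfd : Forms.fd kR q = 1 - 2 * q := Cover.fd_eq
  have hK : Forms.fK kR h q = (1 + 2 * h) * (1 + 2 * h) + 2 * (q * h) := Cover.fK_eq
  have hZ : 0 ≤ Z := by
    have := hR.hz; rwa [le_div_iff₀ (by positivity), zero_mul] at this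
  have elast : (((1 - q) / h) - (q / h * (1 + 2 * h * t))) * ((q / h) * dN ((1 - q) / h) (q / h) / dD ((1 - q) / h) (q / h) - (q / h * (1 + 2 * h * t))) =
      2 * q * (Forms.fV kR h q t * (1 - t)) / h := by
    rw [hal, dN_eq o, dD_eq]; field_simp; ring
  refine ⟨B, ht, ht1, ?_, ?_, ?_, ?_, hZ, ?_, ?_, ?_⟩
  · have := fV_eq (h := h) (q := q) (t := t); linarith
  · have := hR.hlo
    rw [dN_eq o] at this
    field_simp at this
    rw [hfd, hK]
    refine le_of_mul_le_mul_left ?_ (show 0 < 2 * q by positivity)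
    nlinarith
  · have := hR.hU; rw [dD_eq, div_le_div_iff_of_pos_right hh] at this; linarith
  · have := hR.hU0; rw [le_div_iff₀ hh] at this; linarith
  · have := hR.hz2
    rw [hz, elast, div_le_div_iff_of_pos_right hh] at this
    exact le_of_mul_le_mul_left this (by positivity)
  all_goals intro hw
  · have hU : 0 < ((1 - w) / h) := div_pos (by linarith) hh
    have e1 := hR.hlo_of_pos hU
    have e2 := hR.hz1
    rw [if_neg (not_le.2 hU), add_zero, hz, dN_eq o] at e2
    rw [dN_eq o] at e1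
    field_simp at e1 e2
    rw [hfd, hK]
    constructor
    · nlinarith
    · rw [z1, hfd, hK, le_div_iff₀ (by linarith)]
      nlinarith
  · have hU : ((1 - w) / h) ≤ 0 := div_nonpos_of_nonpos_of_nonneg (by linarith) hh.le
    have e2 := hR.hz1
    rw [if_pos hU, hz, elast] at e2
    have hS : 0 ≤ slack h q t (t / Forms.fd kR q) := slack_nonneg B ht.le ht1 hV0
    rw [dN_eq o, den_eq, dl_eq o] at e2
    -- the slack of the region, up to the factor `(1 + h t)/(1 + 2 h t)`
    have key : Z ≤ z1 h q t +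
        slack h q t (t / Forms.fd kR q) * ((1 + h * t) / (1 + 2 * h * t)) := by
      have hc : 0 < 2 * q ^ 2 * (1 + 4 * h) / h ^ 3 := by positivity
      refine le_of_mul_le_mul_left ?_ hc
      refine le_of_eq_of_le ?_ (e2.trans_eq ?_)
      · field_simp; ring
      · rw [mul_add (2 * q ^ 2 * (1 + 4 * h) / h ^ 3)]
        congr 1
        · rw [z1, hfd, hK]; field_simp; ring
        · rw [slack, Cover.o2_eq, hfd]
          have := hd.ne'
          have : 1 - q * 2 ≠ 0 := by linarith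
          have : 1 - q - q ≠ 0 := by linarith
          field_simp; ring
    have hle : (1 + h * t) / (1 + 2 * h * t) ≤ 1 := by
      rw [div_le_one (by positivity)]; nlinarith [mul_pos hh ht]
    nlinarith [mul_le_mul_of_nonneg_left hle hS]

theorem kap_bound_of_signs (S : Cover.Signs) {al be y z U : ℝ} (hR : Region al be y z U) :
    1 / 20 * (4 * gC al be y z U * gP al be y z U * aDe al be y z) ≤ kap al be y z U := by
  have hD : 0 < al + be := by linarith [hR.hD]
  have hbe : 0 < be := by linarith [hR.hbe]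
  obtain ⟨h, eh⟩ : ∃ h, h = 1 / (al + be) := ⟨_, rfl⟩
  have hh : 0 < h := by rw [eh]; positivity
  obtain ⟨q, eq⟩ : ∃ q, q = be * h := ⟨_, rfl⟩
  obtain ⟨t, et⟩ : ∃ t, t = (y - be) / (2 * q) := ⟨_, rfl⟩
  obtain ⟨w, ew⟩ : ∃ w, w = 1 - U * h := ⟨_, rfl⟩
  have hq : 0 < q := by rw [eq]; positivity
  have ha : al = (1 - q) / h := by rw [eq, eh]; field_simp; ring
  have hb : be = q / h := by rw [eq]; field_simp
  have hy : y = q / h * (1 + 2 * h * t) := by
    rw [et, ← mul_div_assoc, hb]; field_simp; ring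
  have hu : U = (1 - w) / h := by rw [ew]; field_simp; ring
  have ht : 0 < t := by rw [et]; exact div_pos (by linarith [hR.hy]) (by positivity)
  obtain ⟨Z, eZ⟩ : ∃ Z, Z = z * (1 + h * t) := ⟨_, rfl⟩
  have hz : z = Z / (1 + h * t) := by rw [eZ]; field_simp
  rw [ha, hb, hy, hu, hz] at hR ⊢
  have r := scaled_of_region hh hR
  have hF := form_nonneg S r
  have hk := Scale.key (w := w) (Z := Z) (⟨hh, hq, by linarith [r.B.hq2], ht⟩ : Ok h q t)
  have hr : 0 < 1 - q := by linarith [r.B.hq2]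
  have : 0 ≤ (1 + h) ^ 2 / (40 * h ^ 4 * (1 - q) ^ 3 * (1 + 2 * h) * (1 + h * t) ^ 4 * t ^ 2) *
      F h q t w Z := mul_nonneg (by positivity) hF
  linarith

end Vale.Agent.P100.Pos.Bound
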