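import Mathlib

/-!
P100, positivity of the calibration: the bound on `kap` in the scaled variables
`h = 1/D`, `q = β/D`, `t = dl/(2 β h)`, `w = 1 - U/D`, written over any type with `+`, `-`, `*`
and integer constants, so that the same text is evaluated both as a real number and as a formal
fraction.
-/

namespace Vale.Agent.P100.Pos.Forms

variable {R : Type} [Add R] [Sub R] [Mul R] (k : ℤ → R) (h q t w Z Rb Qb : R)

def fd : R := k 1 - k 2 * q

def fr : R := k 1 - q

def o1 : R := k 1 + h * t

def o2 : R := k 1 + k 2 * h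

def fV : R := fd k q - k 2 * (q * (h * t))

def fL : R := k 1 + q + k 2 * (fd k q * fr k q) * w

def cp : R := fr k q - fV k h q t * fL k q w

def om : R :=
  t * (h + fV k h q t) - o1 k h t * (fd k q * fd k q) * (k 1 - k 2 * (q * q))

def fG : R := k 1 + (fd k q + k 2 * h) * t - k 2 * (q * (h * (t * t))) + Z

def fH : R := k 2 * (fr k q * o1 k h t) - (k 1 - w) * fG k h q t Z

def fP : R :=
  cp k h q t w * om k h q t + k 2 * (q * (o1 k h t * (Z * fL k q w))) +
    k 2 * (fd k q * fr k q * (fV k h q t * fH k h q t w Z))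

def fw : R :=
  (k 1 + h) * t * cp k h q t w - k 2 * (q * fr k q * (o1 k h t * o1 k h t * t)) +
    fr k q * o1 k h t * om k h q t + k 2 * (fr k q * (o1 k h t * Z))

/-- The form on the two faces where `V` factors out. -/
def faceAB : R :=
  k 19 * (fr k q * (o2 k h * fL k q w - fr k q * Rb)) * (Rb * (o1 k h t * t) * fP k h q t w Z) -
    k 10 * (fL k q w * Rb) * (fw k h q t w Z * fw k h q t w Z) +
    k 20 * (fd k q * fr k q * Rb) * (fw k h q t w Z * Qb) -
    k 10 * (fr k q * (fd k q * fd k q) * o2 k h) * (Qb * Qb)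

/-- The face `σ = 0`. -/
def fA : R :=
  faceAB k h q t w (k 0) (k 1 + k 2 * (h * t))
    (k 2 * (h * (fr k q * (fH k h q t w (k 0) * t))))

/-- The face `a₁ = Γ`. -/
def fB : R :=
  faceAB k h q t w (fV k h q t * (k 1 - t)) (o2 k h)
    (o1 k h t * fL k q w * (k 1 - t) +
      k 2 * (h * (fr k q * (fH k h q t w (fV k h q t * (k 1 - t)) * t))))

/-- The form at a general point. -/
def fF : R :=
  let R0 := (k 1 + k 2 * (h * t)) * fV k h q t + k 2 * (h * Z)
  let Cn := o2 k h * (fV k h q t * fL k q w) - fr k q * R0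
  let Q0 := o1 k h t * (Z * fL k q w) +
    k 2 * (h * (fr k q * (fV k h q t * (fH k h q t w Z * t))))
  k 19 * (fr k q * Cn) * (R0 * (o1 k h t * t) * fP k h q t w Z) -
    k 10 * (fV k h q t * fL k q w * R0) * (fw k h q t w Z * fw k h q t w Z) +
    k 20 * (fd k q * fr k q * R0) * (fw k h q t w Z * Q0) -
    k 10 * (fr k q * (fd k q * fd k q) * o2 k h) * (Q0 * Q0)

/-- `(1+2h)² + 2qh`. -/
def fK : R := o2 k h * o2 k h + k 2 * (q * h)

/-- The split factor `1 + 2h + q + q²`. -/
def fc : R := o2 k h + q + q * q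

end Vale.Agent.P100.Pos.Forms
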