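import Vale.Agent.P100.Pos.Frac
import Vale.Agent.P100.Pos.Forms

/-!
P100: the parametrisations of the faces of the region by the nonnegative orthant. On each sheet
`v₀, v₁` give `(h, q)`, `v₂` gives `t` and `v₃` gives `w`.
-/

namespace Vale.Agent.P100.Pos.Cert

open Kron (Ex Q)

def one' : Ex := .c 1

def Dv (i : ℕ) : Ex := .add one' (.v i)

/-- `3 (1 + v₀)`. -/
def D0 : Ex := .mul (.c 3) (.add one' (.v 0))

def base (d0 d4 : Ex) : List Ex := [d0, Dv 1, Dv 2, Dv 3, d4]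

section
variable {D : List Ex}

def qh : Q D := ⟨.v 0, [1]⟩
def qs : Q D := ⟨.v 1, [0, 1]⟩
def qt : Q D := ⟨.v 2, [0, 0, 1]⟩
def qw : Q D := ⟨.v 3, [0, 0, 0, 1]⟩

/-- Divide by the fourth denominator. -/
def div4 (x : Q D) : Q D := ⟨x.n, Kron.ladde x.e [0, 0, 0, 0, 1]⟩

/-- `q = h + (3/8 - h) s`, with fourth denominator `8`. -/
def qqOne : Q D := div4 (Q.k 8 * qh * (Q.k 1 - qs) + Q.k 3 * qs)

/-- `q = (3 + 4 v₁) / (8 (1 + v₁))`. -/
def qqTwo : Q D := ⟨.add (.c 3) (.mul (.c 4) (.v 1)), [0, 1, 0, 0, 1]⟩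

/-- `q = 1 / (2 (1 + h ε))`. -/
def qqFast : Q D := ⟨.mul D0 (Dv 1), [0, 0, 0, 0, 1]⟩

/-- `q = h + (1/2 - h) s`, with fourth denominator `2`. -/
def qqAll : Q D := div4 (Q.k 2 * qh * (Q.k 1 - qs) + qs)

end

def baseOne : List Ex := base D0 (.c 8)
def baseTwo : List Ex := base (.mul (Dv 0) (.add (.c 3) (.mul (.c 4) (.v 1)))) (.c 8)
def baseFast : List Ex := base D0 (.mul (.c 2) (.add (.mul D0 (Dv 1)) (.mul (.v 0) (.v 1))))
def baseAll : List Ex := base D0 (.c 2)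

def KOne : Q baseOne := Forms.fK Q.k qh qqOne
def KTwo : Q baseTwo := Forms.fK Q.k qh qqTwo
def KFast : Q baseFast := Forms.fK Q.k qh qqFast
def KAll : Q baseAll := Forms.fK Q.k qh qqAll

def tblOne : List Ex := baseOne ++ [KOne.n]
def tblTwo : List Ex := baseTwo ++ [KTwo.n]
def tblFast : List Ex := baseFast ++ [KFast.n]
/-- The extra denominators are `1 + 4h` and `1 + 6h`. -/
def tblAll : List Ex :=
  baseAll ++
    [KAll.n, .add D0 (.mul (.c 4) (.v 0)), .add D0 (.mul (.c 6) (.v 0))]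

def invOne : Q tblOne := ⟨Kron.pden baseOne KOne.e one', [0, 0, 0, 0, 0, 1]⟩
def invTwo : Q tblTwo := ⟨Kron.pden baseTwo KTwo.e one', [0, 0, 0, 0, 0, 1]⟩
def invFast : Q tblFast := ⟨Kron.pden baseFast KFast.e one', [0, 0, 0, 0, 0, 1]⟩
/-- `K + v (6h + 12h²)`, interpolating the two lower ends of `t`. -/
def KLow : Q baseAll :=
  Forms.fK Q.k qh qqAll + qt * (Q.k 6 * qh * (Q.k 1 + Q.k 2 * qh))

def tblLow : List Ex :=
  baseAll ++ [KLow.n, .add D0 (.mul (.c 4) (.v 0)), .add D0 (.mul (.c 6) (.v 0))]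

def invLow : Q tblLow := ⟨Kron.pden baseAll KLow.e one', [0, 0, 0, 0, 0, 1]⟩
def inv6Low : Q tblLow := ⟨D0, [0, 0, 0, 0, 0, 0, 0, 1]⟩
def invAll : Q tblAll := ⟨Kron.pden baseAll KAll.e one', [0, 0, 0, 0, 0, 1]⟩
def inv4 : Q tblAll := ⟨D0, [0, 0, 0, 0, 0, 0, 1]⟩
def inv6 : Q tblAll := ⟨D0, [0, 0, 0, 0, 0, 0, 0, 1]⟩

section
variable {D : List Ex}

/-- The variable `t` between `lo/K` and `1`. -/
def tSlow (h q ik lo : Q D) : Q D :=
  (lo + qt * (Forms.fK Q.k h q - lo)) * ik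

/-- The variable `w` on `[0, 1 + 2h]`. -/
def wFull (h : Q D) : Q D := qw * Forms.o2 Q.k h

end

def tOneA : Q tblOne := tSlow qh qqOne invOne (Forms.fd Q.k qqOne)
def tOneB : Q tblOne :=
  tSlow qh qqOne invOne (Forms.fd Q.k qqOne * Forms.fc Q.k qh qqOne)
def tTwoA : Q tblTwo := tSlow qh qqTwo invTwo (Forms.fd Q.k qqTwo)
def tTwoB : Q tblTwo :=
  tSlow qh qqTwo invTwo (Forms.fd Q.k qqTwo * Forms.fc Q.k qh qqTwo)

def tFastA : Q tblFast :=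
  qs * (Q.k 2 * (qqFast * qh) * (Q.k 1 - qt) + qt * Forms.fK Q.k qh qqFast) * invFast

def tFastB : Q tblFast :=
  qs * (Q.k 2 * (qqFast * qh) * Forms.fc Q.k qh qqFast * (Q.k 1 - qt) +
    qt * Forms.fK Q.k qh qqFast) * invFast

def eAone : Q tblOne := Forms.fA Q.k qh qqOne tOneA (wFull qh)
def eBone : Q tblOne := Forms.fB Q.k qh qqOne tOneB (wFull qh)
def eAtwo : Q tblTwo := Forms.fA Q.k qh qqTwo tTwoA (wFull qh)
def eBtwo : Q tblTwo := Forms.fB Q.k qh qqTwo tTwoB (wFull qh)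
def eAfast : Q tblFast := Forms.fA Q.k qh qqFast tFastA (wFull qh)
def eBfast : Q tblFast := Forms.fB Q.k qh qqFast tFastB (wFull qh)

/-- `t / d` below the split. -/
def vtC : Q tblAll :=
  (Q.k 1 + qt * (Forms.fc Q.k qh qqAll - Q.k 1)) * invAll

def tC : Q tblAll := Forms.fd Q.k qqAll * vtC

/-- The curve `a₁ = E ψ`. -/
def Z1C : Q tblAll :=
  (Q.k 1 + Q.k 2 * (qh * tC)) *
    (Forms.fd Q.k qqAll * (qt * (Forms.fc Q.k qh qqAll - Q.k 1))) * inv4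

/-- The slack of the continuation. -/
def SC : Q tblAll :=
  Forms.fV Q.k qh qqAll tC * (Q.k 1 - tC) *
    (Q.k 4 * (qh * vtC) * (Forms.o2 Q.k qh * (Q.k 1 - qqAll + Q.k 2 * qh))) * inv6

def eC1 : Q tblAll := Forms.fF Q.k qh qqAll tC qw Z1C
def eC2 : Q tblAll := Forms.fF Q.k qh qqAll tC (Q.k 1 + Q.k 2 * (qh * qw)) (Z1C + SC)

/-- The variable `t` below the old lower end. -/
def tLow : Q tblLow := Forms.fd Q.k qqAll * invLow

def SLow : Q tblLow :=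
  Forms.fV Q.k qh qqAll tLow * (Q.k 1 - tLow) *
    (Q.k 4 * (qh * invLow) * (Forms.o2 Q.k qh * (Q.k 1 - qqAll + Q.k 2 * qh))) * inv6Low

def eAlow : Q tblLow := Forms.fA Q.k qh qqAll tLow (Q.k 1 + Q.k 2 * (qh * qw))
def eSlow : Q tblLow := Forms.fF Q.k qh qqAll tLow (Q.k 1 + Q.k 2 * (qh * qw)) SLow

end Vale.Agent.P100.Pos.Cert
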