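import Vale.Agent.P100.Pos.Faces

/-!
P100: the ten sheets cover the faces of the region.
-/

namespace Vale.Agent.P100.Pos.Cover

open Scale Sheet

/-- The ten sign tests. -/
structure Signs : Prop where
  aOne : ∃ n, Kron.test 4 n Cert.eAone.n = true
  bOne : ∃ n, Kron.test 4 n Cert.eBone.n = true
  aTwo : ∃ n, Kron.test 4 n Cert.eAtwo.n = true
  bTwo : ∃ n, Kron.test 4 n Cert.eBtwo.n = true
  aFast : ∃ n, Kron.test 4 n Cert.eAfast.n = true
  bFast : ∃ n, Kron.test 4 n Cert.eBfast.n = true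
  aLow : ∃ n, Kron.test 4 n Cert.eAlow.n = true
  sLow : ∃ n, Kron.test 4 n Cert.eSlow.n = true
  c1 : ∃ n, Kron.test 4 n Cert.eC1.n = true
  c2 : ∃ n, Kron.test 4 n Cert.eC2.n = true

section continuity

attribute [local irreducible] Forms.fA Forms.fB Forms.fF

variable {f₁ f₂ f₃ f₄ f₅ : ℝ → ℝ} {x : ℝ}

theorem contA (h₁ : ContinuousAt f₁ x) (h₂ : ContinuousAt f₂ x) (h₃ : ContinuousAt f₃ x)
    (h₄ : ContinuousAt f₄ x) :
    ContinuousAt (fun l => Forms.fA kR (f₁ l) (f₂ l) (f₃ l) (f₄ l)) x :=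
  ContinuousAt.comp' (g := fun p : ℝ × ℝ × ℝ × ℝ => Forms.fA kR p.1 p.2.1 p.2.2.1 p.2.2.2)
    fA_continuous.continuousAt (h₁.prodMk (h₂.prodMk (h₃.prodMk h₄)))

theorem contB (h₁ : ContinuousAt f₁ x) (h₂ : ContinuousAt f₂ x) (h₃ : ContinuousAt f₃ x)
    (h₄ : ContinuousAt f₄ x) :
    ContinuousAt (fun l => Forms.fB kR (f₁ l) (f₂ l) (f₃ l) (f₄ l)) x :=
  ContinuousAt.comp' (g := fun p : ℝ × ℝ × ℝ × ℝ => Forms.fB kR p.1 p.2.1 p.2.2.1 p.2.2.2)
    fB_continuous.continuousAt (h₁.prodMk (h₂.prodMk (h₃.prodMk h₄)))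

theorem contF (h₁ : ContinuousAt f₁ x) (h₂ : ContinuousAt f₂ x) (h₃ : ContinuousAt f₃ x)
    (h₄ : ContinuousAt f₄ x) (h₅ : ContinuousAt f₅ x) :
    ContinuousAt (fun l => Forms.fF kR (f₁ l) (f₂ l) (f₃ l) (f₄ l) (f₅ l)) x :=
  ContinuousAt.comp'
    (g := fun p : ℝ × ℝ × ℝ × ℝ × ℝ => Forms.fF kR p.1 p.2.1 p.2.2.1 p.2.2.2.1 p.2.2.2.2)
    fF_continuous.continuousAt (h₁.prodMk (h₂.prodMk (h₃.prodMk (h₄.prodMk h₅))))

end continuity

variable {a b c e : ℝ}

theorem one_closed (S : Signs) (ha : a ∈ Set.Icc 0 1) (hb : b ∈ Set.Icc 0 1)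
    (hc : c ∈ Set.Icc 0 1) (he : e ∈ Set.Icc 0 1) :
    0 ≤ Forms.fA kR (a / 3) (qOne a b) (tS (a / 3) (qOne a b) (Forms.fd kR (qOne a b)) c)
        (e * Forms.o2 kR (a / 3)) ∧
    0 ≤ Forms.fB kR (a / 3) (qOne a b)
        (tS (a / 3) (qOne a b)
          (Forms.fd kR (qOne a b) * Forms.fc kR (a / 3) (qOne a b)) c)
        (e * Forms.o2 kR (a / 3)) := by
  obtain ⟨n, h1⟩ := S.aOne
  obtain ⟨m, h2⟩ := S.bOne
  have hK : Forms.fK kR (1 * a / 3) (qOne (1 * a) (1 * b)) ≠ 0 := by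
    refine (fK_pos (by linarith [ha.1]) ?_).ne'
    have : 0 ≤ 1 - b := by linarith [hb.2]
    have := ha.1; have := hb.1
    simp only [qOne, one_mul]; positivity
  constructor
  · refine closed_of_open (fun _ _ _ _ B => (sheet_one B h1 h2).1) ha hb hc he (contA ?_ ?_ ?_ ?_)
    all_goals simp only [qOne, tS, Forms.fd, Forms.fK, Forms.o2, Forms.fc] at hK ⊢
    all_goals fun_prop (disch := exact hK)
  · refine closed_of_open (fun _ _ _ _ B => (sheet_one B h1 h2).2) ha hb hc he (contB ?_ ?_ ?_ ?_)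
    all_goals simp only [qOne, tS, Forms.fd, Forms.fK, Forms.o2, Forms.fc] at hK ⊢
    all_goals fun_prop (disch := exact hK)

theorem two_closed (S : Signs) (ha : a ∈ Set.Icc 0 1) (hb : b ∈ Set.Icc 0 1)
    (hc : c ∈ Set.Icc 0 1) (he : e ∈ Set.Icc 0 1) :
    0 ≤ Forms.fA kR (hTwo a b) (qTwo b) (tS (hTwo a b) (qTwo b) (Forms.fd kR (qTwo b)) c)
        (e * Forms.o2 kR (hTwo a b)) ∧
    0 ≤ Forms.fB kR (hTwo a b) (qTwo b)
        (tS (hTwo a b) (qTwo b) (Forms.fd kR (qTwo b) * Forms.fc kR (hTwo a b) (qTwo b)) c)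
        (e * Forms.o2 kR (hTwo a b)) := by
  obtain ⟨n, h1⟩ := S.aTwo
  obtain ⟨m, h2⟩ := S.bTwo
  have h0 : 0 ≤ 1 - b := by linarith [hb.2]
  have h3 : 3 + 1 * b ≠ 0 := by linarith [hb.1]
  have hK : Forms.fK kR (hTwo (1 * a) (1 * b)) (qTwo (1 * b)) ≠ 0 := by
    have := ha.1; have := hb.1
    refine (fK_pos ?_ ?_).ne' <;> simp only [hTwo, qTwo, one_mul] <;> positivity
  constructor
  · refine closed_of_open (fun _ _ _ _ B => (sheet_two B h1 h2).1) ha hb hc he (contA ?_ ?_ ?_ ?_)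
    all_goals simp only [hTwo, qTwo, tS, Forms.fd, Forms.fK, Forms.o2, Forms.fc] at hK ⊢
    all_goals fun_prop (disch := assumption)
  · refine closed_of_open (fun _ _ _ _ B => (sheet_two B h1 h2).2) ha hb hc he (contB ?_ ?_ ?_ ?_)
    all_goals simp only [hTwo, qTwo, tS, Forms.fd, Forms.fK, Forms.o2, Forms.fc] at hK ⊢
    all_goals fun_prop (disch := assumption)

theorem fast_closed (S : Signs) (ha : a ∈ Set.Icc 0 1) (hb : b ∈ Set.Icc 0 1)
    (hc : c ∈ Set.Icc 0 1) (he : e ∈ Set.Icc 0 1) :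
    0 ≤ Forms.fA kR (a / 3) (qFst a b) (tF (a / 3) (qFst a b) 1 b c)
        (e * Forms.o2 kR (a / 3)) ∧
    0 ≤ Forms.fB kR (a / 3) (qFst a b)
        (tF (a / 3) (qFst a b) (Forms.fc kR (a / 3) (qFst a b)) b c)
        (e * Forms.o2 kR (a / 3)) := by
  obtain ⟨n, h1⟩ := S.aFast
  obtain ⟨m, h2⟩ := S.bFast
  have := ha.1
  have := hb.1
  have h3 : 2 * (1 + 1 * a / 3 * (1 * b)) ≠ 0 := by positivity
  have hK : Forms.fK kR (1 * a / 3) (qFst (1 * a) (1 * b)) ≠ 0 := by
    refine (fK_pos ?_ ?_).ne' <;> simp only [qFst, one_mul] <;> positivity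
  constructor
  · refine closed_of_open (fun _ _ _ _ B => (sheet_fast B h1 h2).1) ha hb hc he
      (contA ?_ ?_ ?_ ?_)
    all_goals simp only [qFst, tF, Forms.fd, Forms.fK, Forms.o2, Forms.fc] at hK ⊢
    all_goals fun_prop (disch := assumption)
  · refine closed_of_open (fun _ _ _ _ B => (sheet_fast B h1 h2).2) ha hb hc he
      (contB ?_ ?_ ?_ ?_)
    all_goals simp only [qFst, tF, Forms.fd, Forms.fK, Forms.o2, Forms.fc] at hK ⊢
    all_goals fun_prop (disch := assumption)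

theorem all_closed (S : Signs) (ha : a ∈ Set.Icc 0 1) (hb : b ∈ Set.Icc 0 1)
    (hc : c ∈ Set.Icc 0 1) (he : e ∈ Set.Icc 0 1) :
    0 ≤ Forms.fF kR (a / 3) (qLow a b) (Forms.fd kR (qLow a b) * vAll (a / 3) (qLow a b) c) e
        (z1All (a / 3) (qLow a b) c) ∧
    0 ≤ Forms.fF kR (a / 3) (qLow a b) (Forms.fd kR (qLow a b) * vAll (a / 3) (qLow a b) c)
        (1 + 2 * (a / 3 * e))
        (z1All (a / 3) (qLow a b) c +
          slack (a / 3) (qLow a b) (Forms.fd kR (qLow a b) * vAll (a / 3) (qLow a b) c)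
            (vAll (a / 3) (qLow a b) c)) := by
  obtain ⟨n, h1⟩ := S.c1
  obtain ⟨m, h2⟩ := S.c2
  have := ha.1
  have : 0 ≤ 1 - b := by linarith [hb.2]
  have := hb.1
  have h4 : 1 + 4 * (1 * a / 3) ≠ 0 := by positivity
  have h6 : 1 + 6 * (1 * a / 3) ≠ 0 := by positivity
  have hK : Forms.fK kR (1 * a / 3) (qLow (1 * a) (1 * b)) ≠ 0 := by
    refine (fK_pos ?_ ?_).ne' <;> simp only [qLow, one_mul] <;> positivity
  constructor
  · refine closed_of_open (fun _ _ _ _ B => (sheet_all B h1 h2).1) ha hb hc he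
      (contF ?_ ?_ ?_ ?_ ?_)
    all_goals simp only [qLow, vAll, z1All, Forms.fd, Forms.fK, Forms.o2, Forms.fc] at hK ⊢
    all_goals fun_prop (disch := assumption)
  · refine closed_of_open (fun _ _ _ _ B => (sheet_all B h1 h2).2) ha hb hc he
      (contF ?_ ?_ ?_ ?_ ?_)
    all_goals
      simp only [qLow, vAll, z1All, slack, Forms.fV, Forms.fd, Forms.fK, Forms.o2,
        Forms.fc] at hK ⊢
    all_goals fun_prop (disch := assumption)

theorem low_closed (S : Signs) (ha : a ∈ Set.Icc 0 1) (hb : b ∈ Set.Icc 0 1)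
    (hc : c ∈ Set.Icc 0 1) (he : e ∈ Set.Icc 0 1) :
    0 ≤ Forms.fA kR (a / 3) (qLow a b) (Forms.fd kR (qLow a b) * vLow (a / 3) (qLow a b) c)
        (1 + 2 * (a / 3 * e)) ∧
    0 ≤ Forms.fF kR (a / 3) (qLow a b) (Forms.fd kR (qLow a b) * vLow (a / 3) (qLow a b) c)
        (1 + 2 * (a / 3 * e))
        (slack (a / 3) (qLow a b) (Forms.fd kR (qLow a b) * vLow (a / 3) (qLow a b) c)
          (vLow (a / 3) (qLow a b) c)) := by
  obtain ⟨n, h1⟩ := S.aLow
  obtain ⟨m, h2⟩ := S.sLow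
  have := ha.1
  have : 0 ≤ 1 - b := by linarith [hb.2]
  have := hb.1
  have := hc.1
  have h6 : 1 + 6 * (1 * a / 3) ≠ 0 := by positivity
  have hK : Forms.fK kR (1 * a / 3) (qLow (1 * a) (1 * b)) +
      1 * c * (6 * (1 * a / 3) * (1 + 2 * (1 * a / 3))) ≠ 0 := by
    have h : 0 < Forms.fK kR (a / 3) (qLow a b) :=
      fK_pos (by linarith) (by simp only [qLow]; positivity)
    simp only [one_mul]; positivity
  constructor
  · refine closed_of_open (fun _ _ _ _ B => (sheet_low B h1 h2).1) ha hb hc he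
      (contA ?_ ?_ ?_ ?_)
    all_goals simp only [qLow, vLow, Forms.fd, Forms.fK, Forms.o2] at hK ⊢
    all_goals fun_prop (disch := assumption)
  · refine closed_of_open (fun _ _ _ _ B => (sheet_low B h1 h2).2) ha hb hc he
      (contF ?_ ?_ ?_ ?_ ?_)
    all_goals simp only [qLow, vLow, slack, Forms.fV, Forms.fd, Forms.fK, Forms.o2] at hK ⊢
    all_goals fun_prop (disch := assumption)

section points

variable {h q t w : ℝ}

/-- The standing conditions on `(h, q)`. -/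
structure Base (h q : ℝ) : Prop where
  hh : 0 < h
  h3 : h ≤ 1 / 3
  hq : h ≤ q
  hq2 : q < 1 / 2

theorem kR_vals : kR 0 = 0 ∧ kR 1 = 1 ∧ kR 2 = 2 := by simp [kR]

theorem fd_eq : Forms.fd kR q = 1 - 2 * q := by simp [Forms.fd, kR]

theorem o2_eq : Forms.o2 kR h = 1 + 2 * h := by simp [Forms.o2, kR]

theorem fK_eq : Forms.fK kR h q = (1 + 2 * h) * (1 + 2 * h) + 2 * (q * h) := by
  simp [Forms.fK, Forms.o2, kR]

theorem fc_eq : Forms.fc kR h q = 1 + 2 * h + q + q * q := by simp [Forms.fc, Forms.o2, kR]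

theorem Base.d_pos (B : Base h q) : 0 < Forms.fd kR q := by
  rw [fd_eq]; linarith [B.hq2]

theorem Base.K_pos (B : Base h q) : 0 < Forms.fK kR h q :=
  fK_pos B.hh.le (B.hh.le.trans B.hq)

theorem Base.one_lt_c (B : Base h q) : 1 < Forms.fc kR h q := by
  rw [fc_eq]; nlinarith [B.hh, B.hq]

theorem Base.dc_lt (B : Base h q) :
    Forms.fd kR q < Forms.fK kR h q ∧ Forms.fd kR q * Forms.fc kR h q < Forms.fK kR h q := by
  have := B.hh
  have := B.hq
  have := B.hq2
  rw [fd_eq, fK_eq, fc_eq]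
  constructor <;> nlinarith [mul_pos B.hh B.hh, mul_nonneg (by linarith : 0 ≤ q) B.hh.le,
    mul_nonneg (by linarith : 0 ≤ q) (sq_nonneg q)]

theorem Base.qhc (B : Base h q) :
    3 * (2 * (q * h) * Forms.fc kR h q) ≤ Forms.fK kR h q := by
  have := B.hh
  have := B.h3
  have := B.hq
  have := B.hq2
  rw [fK_eq, fc_eq]
  have e : q * h * (6 * (1 + 2 * h + q + q * q) - 2) ≤ 1 / 2 * h * (12 * h + 17 / 2) := by
    refine mul_le_mul ?_ ?_ ?_ ?_
    · nlinarith
    · nlinarith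
    · nlinarith
    · positivity
  nlinarith

theorem slow_param {l : ℝ} (hlK : l < Forms.fK kR h q) (hK : 0 < Forms.fK kR h q)
    (htl : l ≤ t * Forms.fK kR h q) (ht1 : t ≤ 1) :
    ∃ c ∈ Set.Icc (0 : ℝ) 1, tS h q l c = t := by
  refine ⟨(t * Forms.fK kR h q - l) / (Forms.fK kR h q - l), ⟨?_, ?_⟩, ?_⟩
  · exact div_nonneg (by linarith) (by linarith)
  · rw [div_le_one (by linarith)]; nlinarith
  · have : Forms.fK kR h q - l ≠ 0 := (sub_pos.2 hlK).ne'
    simp only [tS]; field_simp; ring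

theorem fast_param {l b : ℝ} (hb : 0 < b) (hlK : 2 * (q * h) * l < Forms.fK kR h q)
    (hK : 0 < Forms.fK kR h q) (htl : b * (2 * (q * h) * l) ≤ t * Forms.fK kR h q)
    (ht1 : t ≤ b) :
    ∃ c ∈ Set.Icc (0 : ℝ) 1, tF h q l b c = t := by
  refine ⟨(t * Forms.fK kR h q - b * (2 * (q * h) * l)) /
    (b * (Forms.fK kR h q - 2 * (q * h) * l)), ⟨?_, ?_⟩, ?_⟩
  · exact div_nonneg (by linarith) (mul_nonneg hb.le (by linarith))
  · rw [div_le_one (mul_pos hb (by linarith))]; nlinarith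
  · have hN : Forms.fK kR h q - 2 * (q * h) * l ≠ 0 := (sub_pos.2 hlK).ne'
    set c := (t * Forms.fK kR h q - b * (2 * (q * h) * l)) /
      (b * (Forms.fK kR h q - 2 * (q * h) * l)) with ec
    have e : c * (b * (Forms.fK kR h q - 2 * (q * h) * l)) =
        t * Forms.fK kR h q - b * (2 * (q * h) * l) :=
      div_mul_cancel₀ _ (mul_ne_zero hb.ne' hN)
    simp only [tF]
    rw [div_eq_iff hK.ne']
    linear_combination e

/-- The faces `Z = 0` and `Z = V (1 - t)` right of the lower ends. -/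
theorem face_AB (S : Signs) (B : Base h q) (hw : w ∈ Set.Icc 0 (1 + 2 * h)) (ht1 : t ≤ 1)
    (hV : 2 * (q * h) * t ≤ Forms.fd kR q) :
    (Forms.fd kR q ≤ t * Forms.fK kR h q → 0 ≤ Forms.fA kR h q t w) ∧
    (Forms.fd kR q * Forms.fc kR h q ≤ t * Forms.fK kR h q → 0 ≤ Forms.fB kR h q t w) := by
  obtain ⟨hh, h3, hq, hq2⟩ := B
  have B : Base h q := ⟨hh, h3, hq, hq2⟩
  have hK := B.K_pos
  have hd := B.d_pos
  have he : w / (1 + 2 * h) ∈ Set.Icc (0 : ℝ) 1 :=
    ⟨div_nonneg hw.1 (by linarith), (div_le_one (by linarith)).2 hw.2⟩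
  have hw' : w / (1 + 2 * h) * Forms.o2 kR h = w := by
    rw [o2_eq, div_mul_cancel₀ _ (by linarith : (1 + 2 * h) ≠ 0)]
  have ha : 3 * h ∈ Set.Icc (0 : ℝ) 1 := ⟨by linarith, by linarith⟩
  have e3 : 3 * h / 3 = h := by ring
  rcases le_total q (3 / 8) with hs | hs
  · have hb : (q - h) / (3 / 8 - h) ∈ Set.Icc (0 : ℝ) 1 :=
      ⟨div_nonneg (by linarith) (by linarith), (div_le_one (by linarith)).2 (by linarith)⟩
    have eq : qOne (3 * h) ((q - h) / (3 / 8 - h)) = q := by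
      have : 3 - 8 * h ≠ 0 := by linarith
      have : 3 / 8 - h ≠ 0 := by linarith
      simp only [qOne, e3]; field_simp; ring
    constructor <;> intro hlo
    · obtain ⟨c, hc, et⟩ := slow_param B.dc_lt.1 hK hlo ht1
      have := (one_closed S ha hb hc he).1
      rwa [eq, e3, et, hw'] at this
    · obtain ⟨c, hc, et⟩ := slow_param B.dc_lt.2 hK hlo ht1
      have := (one_closed S ha hb hc he).2
      rwa [eq, e3, et, hw'] at this
  rcases le_total (2 * (q * h)) (Forms.fd kR q) with hf | hf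
  · have hd' : 0 < 1 - 2 * q := by linarith
    have hb : 8 * q - 3 ∈ Set.Icc (0 : ℝ) 1 := ⟨by linarith, by linarith⟩
    have ha' : 2 * (q * h) / (1 - 2 * q) ∈ Set.Icc (0 : ℝ) 1 :=
      ⟨div_nonneg (by positivity) hd'.le, (div_le_one hd').2 (by rwa [fd_eq] at hf)⟩
    have eh : hTwo (2 * (q * h) / (1 - 2 * q)) (8 * q - 3) = h := by
      have : q ≠ 0 := by linarith
      have : 1 - q * 2 ≠ 0 := by linarith
      have : 1 - 2 * q ≠ 0 := hd'.ne'
      have : 3 + (8 * q - 3) ≠ 0 := by linarith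
      simp only [hTwo]; field_simp; ring
    have eq : qTwo (8 * q - 3) = q := by simp only [qTwo]; ring
    constructor <;> intro hlo
    · obtain ⟨c, hc, et⟩ := slow_param B.dc_lt.1 hK hlo ht1
      have := (two_closed S ha' hb hc he).1
      rwa [eq, eh, et, hw'] at this
    · obtain ⟨c, hc, et⟩ := slow_param B.dc_lt.2 hK hlo ht1
      have := (two_closed S ha' hb hc he).2
      rwa [eq, eh, et, hw'] at this
  · have hq0 : 0 < q := by linarith
    have hb : Forms.fd kR q / (2 * (q * h)) ∈ Set.Icc (0 : ℝ) 1 :=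
      ⟨div_nonneg hd.le (by positivity), (div_le_one (by positivity)).2 hf⟩
    have eq : qFst (3 * h) (Forms.fd kR q / (2 * (q * h))) = q := by
      have : h ≠ 0 := hh.ne'
      have e : h * (Forms.fd kR q / (2 * (q * h))) = (1 - 2 * q) / (2 * q) := by
        rw [fd_eq]; field_simp
      simp only [qFst, e3, e]; field_simp; ring
    have eb : Forms.fd kR q / (2 * (q * h)) * (2 * (q * h)) = Forms.fd kR q :=
      div_mul_cancel₀ _ (by positivity)
    have htb : t ≤ Forms.fd kR q / (2 * (q * h)) := by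
      rw [le_div_iff₀ (by positivity)]; linarith
    have hb0 : 0 < Forms.fd kR q / (2 * (q * h)) := div_pos hd (by positivity)
    have hlc := B.qhc
    have hc1 := B.one_lt_c
    constructor <;> intro hlo
    · obtain ⟨c, hc, et⟩ := fast_param (l := 1) hb0 (by nlinarith [mul_pos hq0 hh]) hK
        (by rw [mul_one, eb]; linarith) htb
      have := (fast_closed S ha hb hc he).1
      rwa [eq, e3, et, hw'] at this
    · obtain ⟨c, hc, et⟩ := fast_param (l := Forms.fc kR h q) hb0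
        (by nlinarith [mul_pos hq0 hh]) hK (by rw [← mul_assoc, eb]; linarith) htb
      have := (fast_closed S ha hb hc he).2
      rwa [eq, e3, et, hw'] at this

/-- The part of `q` on the last sheets. -/
theorem Base.qLow_param (B : Base h q) :
    (q - h) / (1 / 2 - h) ∈ Set.Icc (0 : ℝ) 1 ∧
      qLow (3 * h) ((q - h) / (1 / 2 - h)) = q := by
  have := B.hh
  have := B.h3
  have := B.hq
  have := B.hq2
  refine ⟨⟨div_nonneg (by linarith) (by linarith), (div_le_one (by linarith)).2 (by linarith)⟩, ?_⟩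
  have : 1 - 2 * h ≠ 0 := by linarith
  have : 1 - h * 2 ≠ 0 := by linarith
  have : 1 / 2 - h ≠ 0 := by linarith
  simp only [qLow]; field_simp; ring

/-- The curve `a₁ = E ψ` and its continuation, left of the split. -/
theorem face_C (S : Signs) (B : Base h q) (hlo : Forms.fd kR q ≤ t * Forms.fK kR h q)
    (hhi : t * Forms.fK kR h q ≤ Forms.fd kR q * Forms.fc kR h q) :
    (w ∈ Set.Icc 0 1 → 0 ≤ Forms.fF kR h q t w
      ((1 + 2 * (h * t)) * (t * Forms.fK kR h q - Forms.fd kR q) / (1 + 4 * h))) ∧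
    (w ∈ Set.Icc 1 (1 + 2 * h) → 0 ≤ Forms.fF kR h q t w
      ((1 + 2 * (h * t)) * (t * Forms.fK kR h q - Forms.fd kR q) / (1 + 4 * h) +
        slack h q t (t / Forms.fd kR q))) := by
  have hh := B.hh
  have hd := B.d_pos
  have hK := B.K_pos
  have hc1 := B.one_lt_c
  obtain ⟨hb, eq⟩ := B.qLow_param
  have e3 : 3 * h / 3 = h := by ring
  have ha : 3 * h ∈ Set.Icc (0 : ℝ) 1 := ⟨by linarith, by linarith [B.h3]⟩
  set c := (t * Forms.fK kR h q - Forms.fd kR q) /
    (Forms.fd kR q * (Forms.fc kR h q - 1)) with ec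
  have hpos : 0 < Forms.fd kR q * (Forms.fc kR h q - 1) := mul_pos hd (by linarith)
  have hc : c ∈ Set.Icc (0 : ℝ) 1 :=
    ⟨div_nonneg (by linarith) hpos.le, (div_le_one hpos).2 (by linarith)⟩
  have e1 : c * (Forms.fc kR h q - 1) =
      (t * Forms.fK kR h q - Forms.fd kR q) / Forms.fd kR q := by
    have : Forms.fc kR h q - 1 ≠ 0 := by linarith
    rw [ec]; field_simp
  have ev : vAll h q c = t / Forms.fd kR q := by
    simp only [vAll, e1]; field_simp; ring
  have et : Forms.fd kR q * vAll h q c = t := by rw [ev]; field_simp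
  have ez : z1All h q c =
      (1 + 2 * (h * t)) * (t * Forms.fK kR h q - Forms.fd kR q) / (1 + 4 * h) := by
    simp only [z1All, et, e1]; field_simp
  constructor <;> intro hw
  · have := (all_closed S ha hb hc hw).1
    rwa [eq, e3, et, ez] at this
  · have he : (w - 1) / (2 * h) ∈ Set.Icc (0 : ℝ) 1 :=
      ⟨div_nonneg (by linarith [hw.1]) (by linarith),
        (div_le_one (by linarith)).2 (by linarith [hw.2])⟩
    have ew : 1 + 2 * (h * ((w - 1) / (2 * h))) = w := by field_simp; ring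
    have := (all_closed S ha hb hc he).2
    rwa [eq, e3, et, ez, ev, ew] at this

/-- The faces left of the old lower end. -/
theorem face_low (S : Signs) (B : Base h q)
    (hlo : Forms.fd kR q ≤ t * (Forms.fK kR h q + 6 * h * (1 + 2 * h)))
    (hhi : t * Forms.fK kR h q ≤ Forms.fd kR q) (hw : w ∈ Set.Icc 1 (1 + 2 * h)) :
    0 ≤ Forms.fA kR h q t w ∧ 0 ≤ Forms.fF kR h q t w (slack h q t (t / Forms.fd kR q)) := by
  have hh := B.hh
  have hd := B.d_pos
  have hK := B.K_pos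
  obtain ⟨hb, eq⟩ := B.qLow_param
  have e3 : 3 * h / 3 = h := by ring
  have ha : 3 * h ∈ Set.Icc (0 : ℝ) 1 := ⟨by linarith, by linarith [B.h3]⟩
  have h6 : 0 < 6 * h * (1 + 2 * h) := by positivity
  have ht : 0 < t := by
    by_contra hc
    nlinarith
  set c := (Forms.fd kR q - t * Forms.fK kR h q) / (t * (6 * h * (1 + 2 * h))) with ec
  have hc : c ∈ Set.Icc (0 : ℝ) 1 :=
    ⟨div_nonneg (by linarith) (by positivity), (div_le_one (by positivity)).2 (by linarith)⟩
  have ev : vLow h q c = t / Forms.fd kR q := by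
    have e : Forms.fK kR h q + c * (6 * h * (1 + 2 * h)) = Forms.fd kR q / t := by
      rw [ec]; field_simp; ring
    simp only [vLow, e, one_div_div]
  have et : Forms.fd kR q * vLow h q c = t := by rw [ev]; field_simp
  have he : (w - 1) / (2 * h) ∈ Set.Icc (0 : ℝ) 1 :=
    ⟨div_nonneg (by linarith [hw.1]) (by linarith),
      (div_le_one (by linarith)).2 (by linarith [hw.2])⟩
  have ew : 1 + 2 * (h * ((w - 1) / (2 * h))) = w := by field_simp; ring
  have := low_closed S ha hb hc he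
  rwa [eq, e3, et, ev, ew] at this

end points

end Vale.Agent.P100.Pos.Cover
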