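import Vale.Agent.P100.Pos.Sheets

/-!
P100: the ten sheets. For each, the signs of the coefficients give the sign of the form at every
point of the closed unit box.
-/

namespace Vale.Agent.P100.Pos.Sheet

open Kron Scale Cert

variable {a b c e : ℝ} (B : Box a b c e)

theorem isHom_val {D : List Ex} {ρ : ℕ → ℝ} (h : ∀ d ∈ D, 0 < Ex.eval ρ d) :
    IsHom fun x : Q D => x.val ρ where
  k z := by simp [Q.val_k, kR]
  add x y := Q.val_add ρ (fun d hd => (h d hd).ne') x y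
  sub x y := Q.val_sub ρ (fun d hd => (h d hd).ne') x y
  mul x y := Q.val_mul ρ x y

include B

theorem one_add_rho0 : 1 + a / (1 - a) = 1 / (1 - a) := by
  have : (1 - a) ≠ 0 := (sub_pos.2 B.ha1).ne'
  field_simp; ring

omit B

/-- The value of a numerator is positive when the value of the fraction is. -/
theorem num_pos {D : List Ex} {ρ : ℕ → ℝ} (h : ∀ d ∈ D, 0 < Ex.eval ρ d) {X : Q D}
    (hX : 0 < X.val ρ) : 0 < X.n.eval ρ := by
  have hd := dval_pos ρ h X.e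
  have e : X.n.eval ρ = X.val ρ * dval ρ D X.e := by rw [Q.val, div_mul_cancel₀ _ hd.ne']
  rw [e]; positivity

theorem fK_pos {h q : ℝ} (hh : 0 ≤ h) (hq : 0 ≤ q) : 0 < Forms.fK kR h q := by
  simp only [Forms.fK, Forms.o2, kR]; push_cast; positivity

/-- The part of `q` on the first sheet. -/
noncomputable def qOne (a b : ℝ) : ℝ := (8 * (a / 3) * (1 - b) + 3 * b) / 8

/-- The part of `h` on the second sheet. -/
noncomputable def hTwo (a b : ℝ) : ℝ := a * (1 - b) / (3 + b)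

/-- The part of `q` on the second sheet. -/
noncomputable def qTwo (b : ℝ) : ℝ := (3 + b) / 8

/-- The part of `q` on the third sheet. -/
noncomputable def qFst (a b : ℝ) : ℝ := 1 / (2 * (1 + a / 3 * b))

/-- The part of `q` on the last sheets. -/
noncomputable def qLow (a b : ℝ) : ℝ := (2 * (a / 3) * (1 - b) + b) / 2

noncomputable def tS (h q l c : ℝ) : ℝ := (l + c * (Forms.fK kR h q - l)) / Forms.fK kR h q

noncomputable def tF (h q l b c : ℝ) : ℝ :=
  b * (2 * (q * h) * l * (1 - c) + c * Forms.fK kR h q) / Forms.fK kR h q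

noncomputable def vAll (h q c : ℝ) : ℝ := (1 + c * (Forms.fc kR h q - 1)) / Forms.fK kR h q

noncomputable def z1All (h q c : ℝ) : ℝ :=
  (1 + 2 * (h * (Forms.fd kR q * vAll h q c))) *
    (Forms.fd kR q * (c * (Forms.fc kR h q - 1))) / (1 + 4 * h)

noncomputable def vLow (h q c : ℝ) : ℝ :=
  1 / (Forms.fK kR h q + c * (6 * h * (1 + 2 * h)))

noncomputable def slack (h q t vt : ℝ) : ℝ :=
  Forms.fV kR h q t * (1 - t) * (4 * (h * vt) * (Forms.o2 kR h * (1 - q + 2 * h))) / (1 + 6 * h)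

section values
include B

theorem rho_ne : (1 - a) ≠ 0 ∧ (1 - b) ≠ 0 ∧ (1 - c) ≠ 0 ∧ (1 - e) ≠ 0 :=
  ⟨(sub_pos.2 B.ha1).ne', (sub_pos.2 B.hb1).ne', (sub_pos.2 B.hc1).ne', (sub_pos.2 B.he1).ne'⟩

theorem base_pos {d0 d4 : Ex} (h0 : 0 < Ex.eval (rho a b c e) d0)
    (h4 : 0 < Ex.eval (rho a b c e) d4) : ∀ d ∈ base d0 d4, 0 < Ex.eval (rho a b c e) d := by
  have r1 := B.rho_nonneg 1
  have r2 := B.rho_nonneg 2
  have r3 := B.rho_nonneg 3
  intro d hd
  simp only [base, List.mem_cons, List.not_mem_nil, or_false] at hd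
  rcases hd with rfl | rfl | rfl | rfl | rfl
  · exact h0
  all_goals first
    | exact h4
    | (simp only [Dv, one', Ex.eval, Int.cast_one]; positivity)

theorem D0_pos : 0 < Ex.eval (rho a b c e) D0 := by
  have := B.rho_nonneg 0
  simp only [D0, one', Ex.eval]; push_cast; positivity

theorem baseOne_pos : ∀ d ∈ baseOne, 0 < Ex.eval (rho a b c e) d :=
  base_pos B (D0_pos B) (by simp [Ex.eval])

theorem baseAll_pos : ∀ d ∈ baseAll, 0 < Ex.eval (rho a b c e) d :=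
  base_pos B (D0_pos B) (by simp [Ex.eval])

theorem baseTwo_pos : ∀ d ∈ baseTwo, 0 < Ex.eval (rho a b c e) d := by
  refine base_pos B ?_ (by simp [Ex.eval])
  have := B.rho_nonneg 0
  have := B.rho_nonneg 1
  simp only [Dv, one', Ex.eval]; push_cast; positivity

theorem baseFast_pos : ∀ d ∈ baseFast, 0 < Ex.eval (rho a b c e) d := by
  refine base_pos B (D0_pos B) ?_
  have := B.rho_nonneg 0
  have := B.rho_nonneg 1
  simp only [D0, Dv, one', Ex.eval]; push_cast; positivity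

variable {d0 d4 : Ex} {T : List Ex}

theorem val_qh : ((qh : Q (base D0 d4 ++ T))).val (rho a b c e) = a / 3 := by
  obtain ⟨na, nb, nc, ne⟩ := rho_ne B
  simp [Q.val, qh, base, dval, D0, one', Ex.eval, rho]; field_simp; ring

theorem val_qs : ((qs : Q (base d0 d4 ++ T))).val (rho a b c e) = b := by
  obtain ⟨na, nb, nc, ne⟩ := rho_ne B
  simp [Q.val, qs, base, dval, Dv, one', Ex.eval, rho]; field_simp; ring

theorem val_qt : ((qt : Q (base d0 d4 ++ T))).val (rho a b c e) = c := by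
  obtain ⟨na, nb, nc, ne⟩ := rho_ne B
  simp [Q.val, qt, base, dval, Dv, one', Ex.eval, rho]; field_simp; ring

theorem val_qw : ((qw : Q (base d0 d4 ++ T))).val (rho a b c e) = e := by
  obtain ⟨na, nb, nc, ne⟩ := rho_ne B
  simp [Q.val, qw, base, dval, Dv, one', Ex.eval, rho]; field_simp; ring

omit B

theorem val_div4 (ρ : ℕ → ℝ) (X : Q (base d0 d4 ++ T)) :
    (div4 X).val ρ = X.val ρ / d4.eval ρ := by
  simp only [div4, Q.val, dval_add]
  simp [base, dval, div_div]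

theorem val_inv (ρ : ℕ → ℝ) (X : Q (base d0 d4)) :
    (⟨Kron.pden (base d0 d4) X.e one', [0, 0, 0, 0, 0, 1]⟩ :
      Q (base d0 d4 ++ (X.n :: T))).val ρ = 1 / X.val ρ := by
  rw [Q.val, Q.val, eval_pden, one_div_div]
  simp [base, dval, one', Ex.eval]

theorem tbl_pos {ρ : ℕ → ℝ} {X : Q (base d0 d4)} (hB : ∀ d ∈ base d0 d4, 0 < Ex.eval ρ d)
    (hX : 0 < X.val ρ) (hT : ∀ d ∈ T, 0 < Ex.eval ρ d) :
    ∀ d ∈ base d0 d4 ++ (X.n :: T), 0 < Ex.eval ρ d := by
  intro d hd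
  rcases List.mem_append.1 hd with hd | hd
  · exact hB d hd
  · rcases List.mem_cons.1 hd with rfl | hd
    · exact num_pos hB hX
    · exact hT d hd

include B

theorem val_qqOne (hT : ∀ d ∈ base D0 (.c 8) ++ T, 0 < Ex.eval (rho a b c e) d) :
    ((qqOne : Q (base D0 (.c 8) ++ T))).val (rho a b c e) = qOne a b := by
  have H := isHom_val hT
  rw [qqOne, val_div4, H.add, H.mul, H.mul, H.mul, H.sub, H.k, H.k, H.k, val_qh B, val_qs B]
  simp [kR, qOne, Ex.eval]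

theorem val_qqAll (hT : ∀ d ∈ base D0 (.c 2) ++ T, 0 < Ex.eval (rho a b c e) d) :
    ((qqAll : Q (base D0 (.c 2) ++ T))).val (rho a b c e) = qLow a b := by
  have H := isHom_val hT
  rw [qqAll, val_div4, H.add, H.mul, H.mul, H.sub, H.k, H.k, val_qh B, val_qs B]
  simp [kR, qLow, Ex.eval]

theorem val_qh2 :
    ((qh : Q (base (.mul (Dv 0) (.add (.c 3) (.mul (.c 4) (.v 1)))) (.c 8) ++ T))).val
      (rho a b c e) = hTwo a b := by
  obtain ⟨na, nb, nc, ne⟩ := rho_ne B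
  have hb3 : 3 + b ≠ 0 := by have := B.hb; positivity
  simp [Q.val, qh, base, dval, Dv, one', Ex.eval, rho, hTwo]
  field_simp
  ring_nf
  field_simp
  ring_nf

theorem val_qqTwo :
    ((qqTwo : Q (base d0 (.c 8) ++ T))).val (rho a b c e) = qTwo b := by
  obtain ⟨na, nb, nc, ne⟩ := rho_ne B
  simp [Q.val, qqTwo, base, dval, Dv, one', Ex.eval, rho, qTwo]
  field_simp
  ring

theorem val_qqFast :
    ((qqFast : Q (base D0 (.mul (.c 2) (.add (.mul D0 (Dv 1)) (.mul (.v 0) (.v 1)))) ++ T))).val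
      (rho a b c e) = qFst a b := by
  obtain ⟨na, nb, nc, ne⟩ := rho_ne B
  have := B.ha
  have := B.hb
  have hp : (3 + a * b) ≠ 0 := by positivity
  simp [Q.val, qqFast, base, dval, Dv, D0, one', Ex.eval, rho, qFst]
  field_simp
  ring_nf
  field_simp
  ring_nf

theorem extra_pos : ∀ d ∈ [Ex.add D0 (.mul (.c 4) (.v 0)), Ex.add D0 (.mul (.c 6) (.v 0))],
    0 < Ex.eval (rho a b c e) d := by
  have := B.rho_nonneg 0
  intro d hd
  simp only [List.mem_cons, List.not_mem_nil, or_false] at hd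
  rcases hd with rfl | rfl <;> simp only [D0, one', Ex.eval] <;> push_cast <;> positivity

theorem val_inv4 {d4 K : Ex} :
    (⟨D0, [0, 0, 0, 0, 0, 0, 1]⟩ :
      Q (base D0 d4 ++ [K, Ex.add D0 (.mul (.c 4) (.v 0)), Ex.add D0 (.mul (.c 6) (.v 0))])).val
        (rho a b c e) = 1 / (1 + 4 * (a / 3)) := by
  obtain ⟨na, nb, nc, ne⟩ := rho_ne B
  have := B.ha
  have : (3 + 4 * a) ≠ 0 := by positivity
  simp [Q.val, base, dval, D0, one', Ex.eval, rho]
  field_simp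
  ring_nf
  field_simp
  ring_nf

theorem val_inv6 {d4 K : Ex} :
    (⟨D0, [0, 0, 0, 0, 0, 0, 0, 1]⟩ :
      Q (base D0 d4 ++ [K, Ex.add D0 (.mul (.c 4) (.v 0)), Ex.add D0 (.mul (.c 6) (.v 0))])).val
        (rho a b c e) = 1 / (1 + 6 * (a / 3)) := by
  obtain ⟨na, nb, nc, ne⟩ := rho_ne B
  have := B.ha
  have : (1 + 2 * a) ≠ 0 := by positivity
  simp [Q.val, base, dval, D0, one', Ex.eval, rho]
  field_simp
  ring_nf
  field_simp
  ring_nf

theorem qOne_nonneg : 0 ≤ qOne a b := by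
  have := B.ha; have := B.hb; have : 0 ≤ 1 - b := by linarith [B.hb1]
  simp only [qOne]; positivity

theorem qLow_nonneg : 0 ≤ qLow a b := by
  have := B.ha; have := B.hb; have : 0 ≤ 1 - b := by linarith [B.hb1]
  simp only [qLow]; positivity

end values

section sheets

variable {D : List Ex} {ρ : ℕ → ℝ} {qh' qq' qc' qe' qb' : ℝ} {h q ik i4 i6 lo : Q D}

/-- The two sheets with `t` between the lower end and `1`. -/
theorem slow_pair (H : IsHom fun x : Q D => x.val ρ) (vh : h.val ρ = qh') (vq : q.val ρ = qq')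
    (vt : (qt : Q D).val ρ = qc') (vw : (qw : Q D).val ρ = qe')
    (vi : ik.val ρ = 1 / Forms.fK kR qh' qq')
    (pA : 0 ≤ (Forms.fA Q.k h q (tSlow h q ik (Forms.fd Q.k q)) (wFull h)).val ρ)
    (pB : 0 ≤ (Forms.fB Q.k h q (tSlow h q ik (Forms.fd Q.k q * Forms.fc Q.k h q))
      (wFull h)).val ρ) :
    0 ≤ Forms.fA kR qh' qq' (tS qh' qq' (Forms.fd kR qq') qc') (qe' * Forms.o2 kR qh') ∧
    0 ≤ Forms.fB kR qh' qq' (tS qh' qq' (Forms.fd kR qq' * Forms.fc kR qh' qq') qc')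
      (qe' * Forms.o2 kR qh') := by
  have t : ∀ lo : Q D, (tSlow h q ik lo).val ρ = tS qh' qq' (lo.val ρ) qc' := fun lo => by
    simp only [tSlow, H.mul, H.add, H.sub, fK_hom H, vh, vq, vt, vi, tS, mul_one_div]
  have w : (wFull h).val ρ = qe' * Forms.o2 kR qh' := by
    simp only [wFull, H.mul, o2_hom H, vh, vw]
  simp only [fA_hom H, vh, vq, t, w, fd_hom H] at pA
  simp only [fB_hom H, vh, vq, t, w, fd_hom H, fc_hom H, H.mul] at pB
  exact ⟨pA, pB⟩

/-- The two sheets with `t` between the lower end and `d/(2 q h)`. -/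
theorem fast_pair {ik : Q D} (H : IsHom fun x : Q D => x.val ρ)
    (vh : (qh : Q D).val ρ = qh') (vq : (qqFast : Q D).val ρ = qq')
    (vs : (qs : Q D).val ρ = qb')
    (vt : (qt : Q D).val ρ = qc') (vw : (qw : Q D).val ρ = qe')
    (vi : ik.val ρ = 1 / Forms.fK kR qh' qq')
    (pA : 0 ≤ (Forms.fA Q.k qh qqFast
      (qs * (Q.k 2 * (qqFast * qh) * (Q.k 1 - qt) + qt * Forms.fK Q.k qh qqFast) * ik)
      (wFull qh)).val ρ)
    (pB : 0 ≤ (Forms.fB Q.k qh qqFast
      (qs * (Q.k 2 * (qqFast * qh) * Forms.fc Q.k qh qqFast * (Q.k 1 - qt) +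
        qt * Forms.fK Q.k qh qqFast) * ik) (wFull qh)).val ρ) :
    0 ≤ Forms.fA kR qh' qq' (tF qh' qq' 1 qb' qc') (qe' * Forms.o2 kR qh') ∧
    0 ≤ Forms.fB kR qh' qq' (tF qh' qq' (Forms.fc kR qh' qq') qb' qc')
      (qe' * Forms.o2 kR qh') := by
  simp only [fA_hom H, H.k, H.mul, H.add, H.sub, fK_hom H, o2_hom H, wFull, vh, vq, vs, vt, vw,
    vi, mul_one_div] at pA
  simp only [fB_hom H, H.k, H.mul, H.add, H.sub, fK_hom H, fc_hom H, o2_hom H, wFull, vh, vq, vs,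
    vt, vw, vi, mul_one_div] at pB
  simp only [kR, Int.cast_one, Int.cast_ofNat] at pA pB
  simp only [tF, mul_one]
  exact ⟨pA, pB⟩

/-- The two sheets on the curve `a₁ = E ψ`. -/
theorem all_pair {i4 i6 : Q D} (H : IsHom fun x : Q D => x.val ρ)
    (vh : (qh : Q D).val ρ = qh') (vq : (qqAll : Q D).val ρ = qq')
    (vt : (qt : Q D).val ρ = qc') (vw : (qw : Q D).val ρ = qe')
    (vi : ik.val ρ = 1 / Forms.fK kR qh' qq')
    (v4 : i4.val ρ = 1 / (1 + 4 * qh')) (v6 : i6.val ρ = 1 / (1 + 6 * qh'))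
    {vt' tc z1 s : Q D}
    (evt : vt' = (Q.k 1 + qt * (Forms.fc Q.k qh qqAll - Q.k 1)) * ik)
    (etc : tc = Forms.fd Q.k qqAll * vt')
    (ez1 : z1 = (Q.k 1 + Q.k 2 * (qh * tc)) *
      (Forms.fd Q.k qqAll * (qt * (Forms.fc Q.k qh qqAll - Q.k 1))) * i4)
    (es : s = Forms.fV Q.k qh qqAll tc * (Q.k 1 - tc) *
      (Q.k 4 * (qh * vt') * (Forms.o2 Q.k qh * (Q.k 1 - qqAll + Q.k 2 * qh))) * i6)
    (p1 : 0 ≤ (Forms.fF Q.k qh qqAll tc qw z1).val ρ)
    (p2 : 0 ≤ (Forms.fF Q.k qh qqAll tc (Q.k 1 + Q.k 2 * (qh * qw)) (z1 + s)).val ρ) :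
    0 ≤ Forms.fF kR qh' qq' (Forms.fd kR qq' * vAll qh' qq' qc') qe' (z1All qh' qq' qc') ∧
    0 ≤ Forms.fF kR qh' qq' (Forms.fd kR qq' * vAll qh' qq' qc') (1 + 2 * (qh' * qe'))
      (z1All qh' qq' qc' +
        slack qh' qq' (Forms.fd kR qq' * vAll qh' qq' qc') (vAll qh' qq' qc')) := by
  have a : vt'.val ρ = vAll qh' qq' qc' := by
    simp [evt, H.mul, H.add, H.sub, H.k, fc_hom H, vh, vq, vt, vi, vAll, kR, div_eq_mul_inv]
  have b : tc.val ρ = Forms.fd kR qq' * vAll qh' qq' qc' := by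
    simp only [etc, H.mul, fd_hom H, vq, a]
  have c : z1.val ρ = z1All qh' qq' qc' := by
    simp [ez1, H.mul, H.add, H.sub, H.k, fc_hom H, fd_hom H, vh, vq, vt, b, v4, z1All, kR,
      mul_one_div, div_eq_mul_inv]
  have d : s.val ρ = slack qh' qq' (Forms.fd kR qq' * vAll qh' qq' qc') (vAll qh' qq' qc') := by
    simp [es, H.mul, H.add, H.sub, H.k, fV_hom H, o2_hom H, vh, vq, a, b, v6, slack, kR,
      mul_one_div, div_eq_mul_inv]
  simp only [fF_hom H, vh, vq, b, c, vw] at p1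
  simp only [fF_hom H, H.k, H.mul, H.add, vh, vq, b, c, d, vw, kR, Int.cast_one,
    Int.cast_ofNat] at p2
  exact ⟨p1, p2⟩

/-- The interpolated lower end. -/
theorem low_den (H : IsHom fun x : Q D => x.val ρ)
    (vh : (qh : Q D).val ρ = qh') (vq : (qqAll : Q D).val ρ = qq')
    (vt : (qt : Q D).val ρ = qc') :
    (Forms.fK Q.k qh qqAll + qt * (Q.k 6 * qh * (Q.k 1 + Q.k 2 * qh)) : Q D).val ρ =
      Forms.fK kR qh' qq' + qc' * (6 * qh' * (1 + 2 * qh')) := by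
  simp [H.add, H.mul, fK_hom H, H.k, vh, vq, vt, kR]

/-- The two sheets below the old lower end. -/
theorem low_pair {i6 : Q D} (H : IsHom fun x : Q D => x.val ρ)
    (vh : (qh : Q D).val ρ = qh') (vq : (qqAll : Q D).val ρ = qq')
    (vw : (qw : Q D).val ρ = qe')
    (vi : ik.val ρ = vLow qh' qq' qc') (v6 : i6.val ρ = 1 / (1 + 6 * qh'))
    {tl s : Q D} (etl : tl = Forms.fd Q.k qqAll * ik)
    (es : s = Forms.fV Q.k qh qqAll tl * (Q.k 1 - tl) *
      (Q.k 4 * (qh * ik) * (Forms.o2 Q.k qh * (Q.k 1 - qqAll + Q.k 2 * qh))) * i6)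
    (p1 : 0 ≤ (Forms.fA Q.k qh qqAll tl (Q.k 1 + Q.k 2 * (qh * qw))).val ρ)
    (p2 : 0 ≤ (Forms.fF Q.k qh qqAll tl (Q.k 1 + Q.k 2 * (qh * qw)) s).val ρ) :
    0 ≤ Forms.fA kR qh' qq' (Forms.fd kR qq' * vLow qh' qq' qc') (1 + 2 * (qh' * qe')) ∧
    0 ≤ Forms.fF kR qh' qq' (Forms.fd kR qq' * vLow qh' qq' qc') (1 + 2 * (qh' * qe'))
      (slack qh' qq' (Forms.fd kR qq' * vLow qh' qq' qc') (vLow qh' qq' qc')) := by
  have b : tl.val ρ = Forms.fd kR qq' * vLow qh' qq' qc' := by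
    simp only [etl, H.mul, fd_hom H, vq, vi]
  have d : s.val ρ = slack qh' qq' (Forms.fd kR qq' * vLow qh' qq' qc') (vLow qh' qq' qc') := by
    simp [es, H.mul, H.add, H.sub, H.k, fV_hom H, o2_hom H, vh, vq, vi, b, v6, slack, kR,
      mul_one_div, div_eq_mul_inv]
  simp only [fA_hom H, H.k, H.mul, H.add, vh, vq, b, vw, kR, Int.cast_one,
    Int.cast_ofNat] at p1
  simp only [fF_hom H, H.k, H.mul, H.add, vh, vq, b, d, vw, kR, Int.cast_one,
    Int.cast_ofNat] at p2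
  exact ⟨p1, p2⟩

end sheets

section instances

variable {n₁ n₂ : ℕ}
include B

theorem sheet_one (h1 : Kron.test 4 n₁ eAone.n = true) (h2 : Kron.test 4 n₂ eBone.n = true) :
    0 ≤ Forms.fA kR (a / 3) (qOne a b) (tS (a / 3) (qOne a b) (Forms.fd kR (qOne a b)) c)
        (e * Forms.o2 kR (a / 3)) ∧
    0 ≤ Forms.fB kR (a / 3) (qOne a b)
        (tS (a / 3) (qOne a b)
          (Forms.fd kR (qOne a b) * Forms.fc kR (a / 3) (qOne a b)) c)
        (e * Forms.o2 kR (a / 3)) := by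
  have hB : ∀ d ∈ base D0 (.c 8) ++ [], 0 < Ex.eval (rho a b c e) d := baseOne_pos B
  have hKv : KOne.val (rho a b c e) = Forms.fK kR (a / 3) (qOne a b) := by
    show (Forms.fK Q.k qh qqOne : Q (base D0 (.c 8) ++ [])).val _ = _
    rw [fK_hom (isHom_val hB), val_qh B, val_qqOne B hB]
  have hK : 0 < KOne.val (rho a b c e) :=
    hKv ▸ fK_pos (by linarith [B.ha]) (qOne_nonneg B)
  have hT : ∀ d ∈ tblOne, 0 < Ex.eval (rho a b c e) d :=
    tbl_pos (baseOne_pos B) hK (by simp)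
  have vi : invOne.val (rho a b c e) = 1 / Forms.fK kR (a / 3) (qOne a b) :=
    hKv ▸ val_inv (T := []) _ KOne
  exact slow_pair (isHom_val hT) (h := qh) (q := qqOne) (ik := invOne)
    (val_qh B) (val_qqOne B hT) (val_qt B) (val_qw B) vi
    (Q.nonneg _ h1 B.rho_nonneg hT) (Q.nonneg _ h2 B.rho_nonneg hT)

theorem sheet_two (h1 : Kron.test 4 n₁ eAtwo.n = true) (h2 : Kron.test 4 n₂ eBtwo.n = true) :
    0 ≤ Forms.fA kR (hTwo a b) (qTwo b) (tS (hTwo a b) (qTwo b) (Forms.fd kR (qTwo b)) c)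
        (e * Forms.o2 kR (hTwo a b)) ∧
    0 ≤ Forms.fB kR (hTwo a b) (qTwo b)
        (tS (hTwo a b) (qTwo b) (Forms.fd kR (qTwo b) * Forms.fc kR (hTwo a b) (qTwo b)) c)
        (e * Forms.o2 kR (hTwo a b)) := by
  have hB : ∀ d ∈ base (.mul (Dv 0) (.add (.c 3) (.mul (.c 4) (.v 1)))) (.c 8) ++ [],
      0 < Ex.eval (rho a b c e) d := baseTwo_pos B
  have hKv : KTwo.val (rho a b c e) = Forms.fK kR (hTwo a b) (qTwo b) := by
    show (Forms.fK Q.k qh qqTwo :
      Q (base (.mul (Dv 0) (.add (.c 3) (.mul (.c 4) (.v 1)))) (.c 8) ++ [])).val _ = _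
    rw [fK_hom (isHom_val hB), val_qh2 B, val_qqTwo B]
  have hK : 0 < KTwo.val (rho a b c e) := by
    have := B.ha; have := B.hb; have : 0 ≤ 1 - b := by linarith [B.hb1]
    rw [hKv]
    exact fK_pos (by simp only [hTwo]; positivity) (by simp only [qTwo]; positivity)
  have hT : ∀ d ∈ tblTwo, 0 < Ex.eval (rho a b c e) d :=
    tbl_pos (baseTwo_pos B) hK (by simp)
  have vi : invTwo.val (rho a b c e) = 1 / Forms.fK kR (hTwo a b) (qTwo b) :=
    hKv ▸ val_inv (T := []) _ KTwo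
  exact slow_pair (isHom_val hT) (h := qh) (q := qqTwo) (ik := invTwo)
    (val_qh2 B) (val_qqTwo B) (val_qt B) (val_qw B) vi
    (Q.nonneg _ h1 B.rho_nonneg hT) (Q.nonneg _ h2 B.rho_nonneg hT)

theorem sheet_fast (h1 : Kron.test 4 n₁ eAfast.n = true) (h2 : Kron.test 4 n₂ eBfast.n = true) :
    0 ≤ Forms.fA kR (a / 3) (qFst a b) (tF (a / 3) (qFst a b) 1 b c)
        (e * Forms.o2 kR (a / 3)) ∧
    0 ≤ Forms.fB kR (a / 3) (qFst a b)
        (tF (a / 3) (qFst a b) (Forms.fc kR (a / 3) (qFst a b)) b c)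
        (e * Forms.o2 kR (a / 3)) := by
  have hB : ∀ d ∈ base D0 (.mul (.c 2) (.add (.mul D0 (Dv 1)) (.mul (.v 0) (.v 1)))) ++ [],
      0 < Ex.eval (rho a b c e) d := baseFast_pos B
  have hKv : KFast.val (rho a b c e) = Forms.fK kR (a / 3) (qFst a b) := by
    show (Forms.fK Q.k qh qqFast :
      Q (base D0 (.mul (.c 2) (.add (.mul D0 (Dv 1)) (.mul (.v 0) (.v 1)))) ++ [])).val _ = _
    rw [fK_hom (isHom_val hB), val_qh B, val_qqFast B]
  have hK : 0 < KFast.val (rho a b c e) := by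
    have := B.ha; have := B.hb
    rw [hKv]
    exact fK_pos (by linarith) (by simp only [qFst]; positivity)
  have hT : ∀ d ∈ tblFast, 0 < Ex.eval (rho a b c e) d :=
    tbl_pos (baseFast_pos B) hK (by simp)
  have vi : invFast.val (rho a b c e) = 1 / Forms.fK kR (a / 3) (qFst a b) :=
    hKv ▸ val_inv (T := []) _ KFast
  exact fast_pair (isHom_val hT) (ik := invFast)
    (val_qh B) (val_qqFast B) (val_qs B) (val_qt B) (val_qw B) vi
    (Q.nonneg _ h1 B.rho_nonneg hT) (Q.nonneg _ h2 B.rho_nonneg hT)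

theorem sheet_all (h1 : Kron.test 4 n₁ eC1.n = true) (h2 : Kron.test 4 n₂ eC2.n = true) :
    0 ≤ Forms.fF kR (a / 3) (qLow a b) (Forms.fd kR (qLow a b) * vAll (a / 3) (qLow a b) c) e
        (z1All (a / 3) (qLow a b) c) ∧
    0 ≤ Forms.fF kR (a / 3) (qLow a b) (Forms.fd kR (qLow a b) * vAll (a / 3) (qLow a b) c)
        (1 + 2 * (a / 3 * e))
        (z1All (a / 3) (qLow a b) c +
          slack (a / 3) (qLow a b) (Forms.fd kR (qLow a b) * vAll (a / 3) (qLow a b) c)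
            (vAll (a / 3) (qLow a b) c)) := by
  have hB : ∀ d ∈ base D0 (.c 2) ++ [], 0 < Ex.eval (rho a b c e) d := baseAll_pos B
  have hKv : KAll.val (rho a b c e) = Forms.fK kR (a / 3) (qLow a b) := by
    show (Forms.fK Q.k qh qqAll : Q (base D0 (.c 2) ++ [])).val _ = _
    rw [fK_hom (isHom_val hB), val_qh B, val_qqAll B hB]
  have hK : 0 < KAll.val (rho a b c e) :=
    hKv ▸ fK_pos (by linarith [B.ha]) (qLow_nonneg B)
  have hT : ∀ d ∈ tblAll, 0 < Ex.eval (rho a b c e) d :=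
    tbl_pos (baseAll_pos B) hK (extra_pos B)
  have vi : invAll.val (rho a b c e) = 1 / Forms.fK kR (a / 3) (qLow a b) :=
    hKv ▸ val_inv _ KAll
  exact all_pair (isHom_val hT) (ik := invAll) (i4 := inv4) (i6 := inv6)
    (val_qh B) (val_qqAll B hT) (val_qt B) (val_qw B) vi (val_inv4 B) (val_inv6 B)
    (vt' := vtC) (tc := tC) (z1 := Z1C) (s := SC) rfl rfl rfl rfl
    (Q.nonneg _ h1 B.rho_nonneg hT) (Q.nonneg _ h2 B.rho_nonneg hT)

theorem sheet_low (h1 : Kron.test 4 n₁ eAlow.n = true) (h2 : Kron.test 4 n₂ eSlow.n = true) :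
    0 ≤ Forms.fA kR (a / 3) (qLow a b) (Forms.fd kR (qLow a b) * vLow (a / 3) (qLow a b) c)
        (1 + 2 * (a / 3 * e)) ∧
    0 ≤ Forms.fF kR (a / 3) (qLow a b) (Forms.fd kR (qLow a b) * vLow (a / 3) (qLow a b) c)
        (1 + 2 * (a / 3 * e))
        (slack (a / 3) (qLow a b) (Forms.fd kR (qLow a b) * vLow (a / 3) (qLow a b) c)
          (vLow (a / 3) (qLow a b) c)) := by
  have hB : ∀ d ∈ base D0 (.c 2) ++ [], 0 < Ex.eval (rho a b c e) d := baseAll_pos B
  have hKv : KLow.val (rho a b c e) = Forms.fK kR (a / 3) (qLow a b) +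
      c * (6 * (a / 3) * (1 + 2 * (a / 3))) := by
    exact low_den (isHom_val hB) (val_qh B) (val_qqAll B hB) (val_qt B)
  have hK : 0 < KLow.val (rho a b c e) := by
    have h := fK_pos (h := a / 3) (q := qLow a b) (by linarith [B.ha]) (qLow_nonneg B)
    have := B.ha; have := B.hc
    rw [hKv]; positivity
  have hT : ∀ d ∈ tblLow, 0 < Ex.eval (rho a b c e) d :=
    tbl_pos (baseAll_pos B) hK (extra_pos B)
  have vi : invLow.val (rho a b c e) = vLow (a / 3) (qLow a b) c := by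
    rw [vLow, ← hKv]; exact val_inv _ KLow
  exact low_pair (isHom_val hT) (ik := invLow) (i6 := inv6Low)
    (val_qh B) (val_qqAll B hT) (val_qw B) vi (val_inv6 B)
    (tl := tLow) (s := SLow) rfl rfl
    (Q.nonneg _ h1 B.rho_nonneg hT) (Q.nonneg _ h2 B.rho_nonneg hT)

end instances

end Vale.Agent.P100.Pos.Sheet
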