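import Vale.Agent.P100.Pos.Kron

/-!
Formal fractions over `Ex` with a fixed table of denominators, so that the sign of a rational
expression in several nonnegative variables reduces to the signs of the coefficients of one
numerator.
-/

namespace Vale.Agent.P100.Pos.Kron

/-- Powers of an expression. -/
def Ex.pow (a : Ex) : ℕ → Ex
  | 0 => .c 1
  | 1 => a
  | k + 2 => .mul (Ex.pow a (k + 1)) a

theorem Ex.eval_pow {R : Type*} [CommRing R] (ρ : ℕ → R) (a : Ex) :
    ∀ k, (a.pow k).eval ρ = a.eval ρ ^ k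
  | 0 => by simp [Ex.pow, Ex.eval]
  | 1 => by simp [Ex.pow]
  | k + 2 => by simp [Ex.pow, Ex.eval, Ex.eval_pow ρ a (k + 1), pow_succ]

/-- The exponents of the table of denominators. -/
def ladde : List ℕ → List ℕ → List ℕ := ladd (· + ·)

def lmax : List ℕ → List ℕ → List ℕ := ladd max

/-- The exponents missing from `a` to reach `b`. -/
def lsub : List ℕ → List ℕ → List ℕ
  | [], b => b
  | _, [] => []
  | a :: l, b :: m => (b - a) :: lsub l m

/-- The product of the powers of the denominators. -/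
def pden : List Ex → List ℕ → Ex → Ex
  | _, [], x => x
  | [], _ :: _, x => x
  | _ :: D, 0 :: e, x => pden D e x
  | a :: D, (k + 1) :: e, x => .mul (pden D e x) (a.pow (k + 1))

/-- A formal fraction. -/
structure Q (D : List Ex) where
  n : Ex
  e : List ℕ

variable {D : List Ex}

def Q.k (z : ℤ) : Q D := ⟨.c z, []⟩

instance : Add (Q D) :=
  ⟨fun a b => ⟨.add (pden D (lsub a.e (lmax a.e b.e)) a.n)
    (pden D (lsub b.e (lmax a.e b.e)) b.n), lmax a.e b.e⟩⟩

instance : Sub (Q D) :=
  ⟨fun a b => ⟨.sub (pden D (lsub a.e (lmax a.e b.e)) a.n)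
    (pden D (lsub b.e (lmax a.e b.e)) b.n), lmax a.e b.e⟩⟩

instance : Mul (Q D) := ⟨fun a b => ⟨.mul a.n b.n, ladde a.e b.e⟩⟩

variable {F : Type*} [Field F] (ρ : ℕ → F)

/-- The value of a product of powers. -/
def dval : List Ex → List ℕ → F
  | _, [] => 1
  | [], _ :: _ => 1
  | a :: D, k :: e => a.eval ρ ^ k * dval D e

theorem eval_pden : ∀ (D : List Ex) (e : List ℕ) (x : Ex),
    (pden D e x).eval ρ = x.eval ρ * dval ρ D e
  | _, [], x => by simp [pden, dval]
  | [], _ :: _, x => by simp [pden, dval]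
  | a :: D, 0 :: e, x => by simp [pden, dval, eval_pden D e x]
  | a :: D, (k + 1) :: e, x => by
      simp [pden, dval, Ex.eval, Ex.eval_pow, eval_pden D e x]
      ring

theorem dval_add : ∀ (D : List Ex) (a b : List ℕ),
    dval ρ D (ladde a b) = dval ρ D a * dval ρ D b
  | D, [], b => by simp [ladde, ladd, dval]
  | D, x :: a, [] => by simp [ladde, ladd, dval]
  | [], x :: a, y :: b => by simp [ladde, ladd, dval]
  | d :: D, x :: a, y :: b => by
      have := dval_add D a b
      simp only [ladde] at this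
      simp only [ladde, ladd, dval, this, pow_add]
      ring

theorem dval_lsub_left : ∀ (D : List Ex) (a b : List ℕ),
    dval ρ D (lsub a (lmax a b)) * dval ρ D a = dval ρ D (lmax a b)
  | D, [], b => by simp [lsub, lmax, ladd, dval]
  | [], x :: a, [] => by simp [lmax, ladd, lsub, dval]
  | [], x :: a, y :: b => by simp [lmax, ladd, lsub, dval]
  | d :: D, x :: a, [] => by
      have := dval_lsub_left D a []
      have h : lmax a [] = a := by cases a <;> simp [lmax, ladd]
      rw [h] at this
      simp only [lmax, ladd, lsub, dval, Nat.sub_self, pow_zero, one_mul]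
      linear_combination d.eval ρ ^ x * this
  | d :: D, x :: a, y :: b => by
      have := dval_lsub_left D a b
      simp only [lmax] at this
      simp only [lmax, ladd, lsub, dval]
      have h : d.eval ρ ^ (max x y) = d.eval ρ ^ (max x y - x) * d.eval ρ ^ x := by
        rw [← pow_add, Nat.sub_add_cancel (le_max_left x y)]
      linear_combination (d.eval ρ ^ (max x y - x) * d.eval ρ ^ x) * this -
        dval ρ D (ladd max a b) * h

theorem lmax_comm : ∀ a b : List ℕ, lmax a b = lmax b a
  | [], [] => rfl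
  | [], _ :: _ => rfl
  | _ :: _, [] => rfl
  | x :: a, y :: b => by
      have := lmax_comm a b
      simp only [lmax] at this
      simp [lmax, ladd, this, max_comm]

/-- The value of a fraction. -/
def Q.val (a : Q D) : F := a.n.eval ρ / dval ρ D a.e

theorem dval_ne (h : ∀ d ∈ D, Ex.eval ρ d ≠ 0) : ∀ e, dval ρ D e ≠ 0 := by
  induction D with
  | nil => intro e; cases e <;> simp [dval]
  | cons d D ih =>
    intro e
    cases e with
    | nil => simp [dval]
    | cons k e =>
      exact mul_ne_zero (pow_ne_zero _ (h d (List.mem_cons_self ..)))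
        (ih (fun x hx => h x (List.mem_cons_of_mem _ hx)) e)

theorem Q.val_k (z : ℤ) : (Q.k z : Q D).val ρ = (z : F) := by simp [Q.val, Q.k, dval, Ex.eval]

theorem Q.val_mul (a b : Q D) : (a * b).val ρ = a.val ρ * b.val ρ := by
  show (Ex.mul a.n b.n).eval ρ / dval ρ D (ladde a.e b.e) = _
  rw [dval_add, Ex.eval, Q.val, Q.val, div_mul_div_comm]

theorem Q.pad (h : ∀ d ∈ D, Ex.eval ρ d ≠ 0) (x : Ex) (a b : List ℕ) :
    (pden D (lsub a (lmax a b)) x).eval ρ / dval ρ D (lmax a b) = x.eval ρ / dval ρ D a := by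
  rw [eval_pden, ← dval_lsub_left ρ D a b, mul_comm (x.eval ρ)]
  exact mul_div_mul_left _ _ (dval_ne ρ h _)

theorem Q.val_add (h : ∀ d ∈ D, Ex.eval ρ d ≠ 0) (a b : Q D) :
    (a + b).val ρ = a.val ρ + b.val ρ := by
  show (Ex.add _ _).eval ρ / dval ρ D (lmax a.e b.e) = _
  rw [Ex.eval, add_div, Q.pad ρ h]
  conv_lhs => rw [lmax_comm a.e b.e, Q.pad ρ h]
  rfl

theorem Q.val_sub (h : ∀ d ∈ D, Ex.eval ρ d ≠ 0) (a b : Q D) :
    (a - b).val ρ = a.val ρ - b.val ρ := by
  show (Ex.sub _ _).eval ρ / dval ρ D (lmax a.e b.e) = _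
  rw [Ex.eval, sub_div, Q.pad ρ h]
  conv_lhs => rw [lmax_comm a.e b.e, Q.pad ρ h]
  rfl

theorem dval_pos [LinearOrder F] [IsStrictOrderedRing F] (h : ∀ d ∈ D, 0 < Ex.eval ρ d) :
    ∀ e, 0 < dval ρ D e := by
  induction D with
  | nil => intro e; cases e <;> simp [dval]
  | cons d D ih =>
    intro e
    cases e with
    | nil => simp [dval]
    | cons k e =>
      exact mul_pos (pow_pos (h d (List.mem_cons_self ..)) _)
        (ih (fun x hx => h x (List.mem_cons_of_mem _ hx)) e)

/-- The sign test for a fraction. -/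
theorem Q.nonneg [LinearOrder F] [IsStrictOrderedRing F] {n b : ℕ} {a : Q D}
    (ht : test n b a.n = true) (hρ : ∀ i, 0 ≤ ρ i) (h : ∀ d ∈ D, 0 < Ex.eval ρ d) :
    0 ≤ a.val ρ :=
  div_nonneg (nonneg_of_test ht ρ hρ) (dval_pos ρ h a.e).le

end Vale.Agent.P100.Pos.Kron
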