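import Mathlib

/-!
A checker for nonnegativity of polynomials on the nonnegative orthant by the signs of all
coefficients. The polynomial is given as an expression; it is evaluated at a Kronecker point
(large powers of two) and the digits of that single integer are the coefficients.
-/

namespace Vale.Agent.P100.Pos.Kron

/-- Polynomial expressions. -/
inductive Ex where
  | c : ℤ → Ex
  | v : ℕ → Ex
  | add : Ex → Ex → Ex
  | sub : Ex → Ex → Ex
  | mul : Ex → Ex → Ex

instance : Add Ex := ⟨Ex.add⟩
instance : Sub Ex := ⟨Ex.sub⟩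
instance : Mul Ex := ⟨Ex.mul⟩

namespace Ex

variable {R : Type*} [CommRing R]

/-- The value of an expression. -/
def eval (ρ : ℕ → R) : Ex → R
  | c z => (z : R)
  | v i => ρ i
  | add a b => a.eval ρ + b.eval ρ
  | sub a b => a.eval ρ - b.eval ρ
  | mul a b => a.eval ρ * b.eval ρ

/-- The value at an integer point, by binary operations only. -/
def evalZ (ρ : ℕ → ℤ) : Ex → ℤ
  | c z => z
  | v i => ρ i
  | add a b => a.evalZ ρ + b.evalZ ρ
  | sub a b => a.evalZ ρ - b.evalZ ρ
  | mul a b => a.evalZ ρ * b.evalZ ρ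

theorem evalZ_eq (ρ : ℕ → ℤ) : ∀ e : Ex, e.evalZ ρ = e.eval ρ
  | c z => by simp [evalZ, eval]
  | v i => by simp [evalZ, eval]
  | add a b => by simp [evalZ, eval, evalZ_eq ρ a, evalZ_eq ρ b]
  | sub a b => by simp [evalZ, eval, evalZ_eq ρ a, evalZ_eq ρ b]
  | mul a b => by simp [evalZ, eval, evalZ_eq ρ a, evalZ_eq ρ b]

/-- A bound for the sum of the absolute values of the coefficients. -/
def norm : Ex → ℕ
  | c z => z.natAbs
  | v _ => 1
  | add a b => a.norm + b.norm
  | sub a b => a.norm + b.norm
  | mul a b => a.norm * b.norm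

/-- A bound for the degree in the variable `i`. -/
def deg (i : ℕ) : Ex → ℕ
  | c _ => 0
  | v j => if j = i then 1 else 0
  | add a b => max (a.deg i) (b.deg i)
  | sub a b => max (a.deg i) (b.deg i)
  | mul a b => a.deg i + b.deg i

/-- All variables have index below `n`. -/
def inRange (n : ℕ) : Ex → Bool
  | c _ => true
  | v j => decide (j < n)
  | add a b => a.inRange n && b.inRange n
  | sub a b => a.inRange n && b.inRange n
  | mul a b => a.inRange n && b.inRange n

end Ex

/-- Dense nested polynomials in `n` variables, the last one outermost. -/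
@[reducible] def NP : ℕ → Type
  | 0 => ℤ
  | n + 1 => List (NP n)

/-- Pointwise sum of lists, with the longer tail kept. -/
def ladd {α : Type} (f : α → α → α) : List α → List α → List α
  | [], l => l
  | a :: l, [] => a :: l
  | a :: l, b :: m => f a b :: ladd f l m

/-- The product of lists as polynomials. -/
def lmul {α : Type} (z : α) (f g : α → α → α) : List α → List α → List α
  | [], _ => []
  | a :: l, m => ladd f (m.map (g a)) (z :: lmul z f g l m)

def zero : (n : ℕ) → NP n
  | 0 => (0 : ℤ)
  | _ + 1 => []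

def cst : (n : ℕ) → ℤ → NP n
  | 0, z => z
  | n + 1, z => [cst n z]

def var : (n : ℕ) → ℕ → NP n
  | 0, _ => (0 : ℤ)
  | n + 1, i => if i = n then [zero n, cst n 1] else [var n i]

def add : (n : ℕ) → NP n → NP n → NP n
  | 0, a, b => ((a : ℤ) + b : ℤ)
  | n + 1, a, b => ladd (add n) a b

def neg : (n : ℕ) → NP n → NP n
  | 0, a => (-(a : ℤ) : ℤ)
  | n + 1, a => List.map (neg n) a

def mul : (n : ℕ) → NP n → NP n → NP n
  | 0, a, b => ((a : ℤ) * b : ℤ)
  | n + 1, a, b => lmul (zero n) (add n) (mul n) a b

section eval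

variable {R : Type*} [CommRing R]

/-- The value of a list as a polynomial in `x`. -/
def lev {α : Type} (e : α → R) (x : R) : List α → R
  | [] => 0
  | a :: l => e a + x * lev e x l

theorem lev_ladd {α : Type} (e : α → R) (x : R) (f : α → α → α)
    (hf : ∀ a b, e (f a b) = e a + e b) :
    ∀ l m, lev e x (ladd f l m) = lev e x l + lev e x m
  | [], m => by simp [ladd, lev]
  | a :: l, [] => by simp [ladd, lev]
  | a :: l, b :: m => by
      simp only [ladd, lev, hf, lev_ladd e x f hf l m]
      ring

theorem lev_map {α : Type} (e : α → R) (x : R) (g : α → α) (k : R)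
    (hg : ∀ a, e (g a) = k * e a) : ∀ l, lev e x (l.map g) = k * lev e x l
  | [] => by simp [lev]
  | a :: l => by
      simp only [List.map_cons, lev, hg, lev_map e x g k hg l]
      ring

theorem lev_lmul {α : Type} (e : α → R) (x : R) (z : α) (f g : α → α → α) (hz : e z = 0)
    (hf : ∀ a b, e (f a b) = e a + e b) (hg : ∀ a b, e (g a b) = e a * e b) :
    ∀ l m, lev e x (lmul z f g l m) = lev e x l * lev e x m
  | [], m => by simp [lmul, lev]
  | a :: l, m => by
      simp only [lmul, lev, lev_ladd e x f hf, lev_map e x (g a) (e a) (hg a),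
        lev_lmul e x z f g hz hf hg l m, hz]
      ring

/-- The value of a dense polynomial. -/
def ev (ρ : ℕ → R) : (n : ℕ) → NP n → R
  | 0, a => ((a : ℤ) : R)
  | n + 1, a => lev (ev ρ n) (ρ n) a

variable (ρ : ℕ → R)

theorem ev_zero : ∀ n, ev ρ n (zero n) = 0
  | 0 => by simp [ev, zero]
  | n + 1 => by simp [ev, zero, lev]

theorem ev_cst (z : ℤ) : ∀ n, ev ρ n (cst n z) = (z : R)
  | 0 => by simp [ev, cst]
  | n + 1 => by simp [ev, cst, lev, ev_cst z n]

theorem ev_var (i : ℕ) : ∀ n, i < n → ev ρ n (var n i) = ρ i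
  | 0, h => absurd h (Nat.not_lt_zero i)
  | n + 1, h => by
      by_cases hi : i = n
      · simp [ev, var, hi, lev, ev_zero, ev_cst]
      · simp [ev, var, hi, lev, ev_var i n (by omega)]

theorem ev_add : ∀ n a b, ev ρ n (add n a b) = ev ρ n a + ev ρ n b
  | 0, a, b => by simp [ev, add]
  | n + 1, a, b => lev_ladd _ _ _ (ev_add n) a b

theorem ev_neg : ∀ n a, ev ρ n (neg n a) = -ev ρ n a
  | 0, a => by simp [ev, neg]
  | n + 1, a => by
      simp only [ev, neg]
      rw [lev_map _ _ _ (-1) (fun b => by rw [ev_neg n b, neg_one_mul]), neg_one_mul]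

theorem ev_mul : ∀ n a b, ev ρ n (mul n a b) = ev ρ n a * ev ρ n b
  | 0, a, b => by simp [ev, mul]
  | n + 1, a, b => lev_lmul _ _ _ _ _ (ev_zero ρ n) (ev_add ρ n) (ev_mul n) a b

/-- The dense form of an expression. -/
def dense (n : ℕ) : Ex → NP n
  | .c z => cst n z
  | .v i => var n i
  | .add a b => add n (dense n a) (dense n b)
  | .sub a b => add n (dense n a) (neg n (dense n b))
  | .mul a b => mul n (dense n a) (dense n b)

theorem ev_dense (n : ℕ) : ∀ e : Ex, e.inRange n = true → ev ρ n (dense n e) = e.eval ρ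
  | .c z, _ => ev_cst ρ z n
  | .v i, h => ev_var ρ i n (by simpa [Ex.inRange] using h)
  | .add a b, h => by
      simp only [Ex.inRange, Bool.and_eq_true] at h
      simp [dense, Ex.eval, ev_add, ev_dense n a h.1, ev_dense n b h.2]
  | .sub a b, h => by
      simp only [Ex.inRange, Bool.and_eq_true] at h
      simp [dense, Ex.eval, ev_add, ev_neg, ev_dense n a h.1, ev_dense n b h.2, sub_eq_add_neg]
  | .mul a b, h => by
      simp only [Ex.inRange, Bool.and_eq_true] at h
      simp [dense, Ex.eval, ev_mul, ev_dense n a h.1, ev_dense n b h.2]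

end eval

/-- The sum of the absolute values of the coefficients. -/
def nrm : (n : ℕ) → NP n → ℕ
  | 0, a => Int.natAbs a
  | n + 1, a => (List.map (nrm n) a).sum

theorem sum_ladd {α : Type} (N : α → ℕ) (f : α → α → α) (hf : ∀ a b, N (f a b) ≤ N a + N b) :
    ∀ l m, ((ladd f l m).map N).sum ≤ (l.map N).sum + (m.map N).sum
  | [], m => by simp [ladd]
  | a :: l, [] => by simp [ladd]
  | a :: l, b :: m => by
      have := hf a b
      have := sum_ladd N f hf l m
      simp only [ladd, List.map_cons, List.sum_cons]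
      omega

theorem sum_lmul {α : Type} (N : α → ℕ) (z : α) (f g : α → α → α) (hz : N z = 0)
    (hf : ∀ a b, N (f a b) ≤ N a + N b) (hg : ∀ a b, N (g a b) ≤ N a * N b) :
    ∀ l m, ((lmul z f g l m).map N).sum ≤ (l.map N).sum * (m.map N).sum
  | [], m => by simp [lmul]
  | a :: l, m => by
      have h1 := sum_ladd N f hf (m.map (g a)) (z :: lmul z f g l m)
      have h2 : ((m.map (g a)).map N).sum ≤ N a * (m.map N).sum := by
        clear h1
        induction m with
        | nil => simp
        | cons b m ih =>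
          have := hg a b
          simp only [List.map_cons, List.sum_cons, mul_add]
          omega
      have h3 := sum_lmul N z f g hz hf hg l m
      simp only [lmul, List.map_cons, List.sum_cons, add_mul, hz] at h1 ⊢
      omega

theorem nrm_zero : ∀ n, nrm n (zero n) = 0
  | 0 => by simp [nrm, zero]
  | n + 1 => by simp [nrm, zero]

theorem nrm_cst (z : ℤ) : ∀ n, nrm n (cst n z) = z.natAbs
  | 0 => rfl
  | n + 1 => by simp [nrm, cst, nrm_cst z n]

theorem nrm_var (i : ℕ) : ∀ n, nrm n (var n i) ≤ 1
  | 0 => by simp [nrm, var]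
  | n + 1 => by
      by_cases hi : i = n
      · simp [nrm, var, hi, nrm_zero, nrm_cst]
      · simp [nrm, var, hi, nrm_var i n]

theorem nrm_add : ∀ n a b, nrm n (add n a b) ≤ nrm n a + nrm n b
  | 0, a, b => Int.natAbs_add_le a b
  | n + 1, a, b => sum_ladd _ _ (nrm_add n) a b

theorem nrm_neg : ∀ n a, nrm n (neg n a) = nrm n a
  | 0, a => Int.natAbs_neg a
  | n + 1, a => by
      simp only [nrm, neg, List.map_map]
      congr 1
      exact List.map_congr_left fun b _ => nrm_neg n b

theorem nrm_mul : ∀ n a b, nrm n (mul n a b) ≤ nrm n a * nrm n b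
  | 0, a, b => le_of_eq (Int.natAbs_mul a b)
  | n + 1, a, b => sum_lmul _ _ _ _ (nrm_zero n) (nrm_add n) (nrm_mul n) a b

theorem nrm_dense (n : ℕ) : ∀ e : Ex, nrm n (dense n e) ≤ e.norm
  | .c z => le_of_eq (nrm_cst z n)
  | .v i => nrm_var i n
  | .add a b => (nrm_add n _ _).trans (Nat.add_le_add (nrm_dense n a) (nrm_dense n b))
  | .sub a b => (nrm_add n _ _).trans <| by
      rw [nrm_neg]
      exact Nat.add_le_add (nrm_dense n a) (nrm_dense n b)
  | .mul a b => (nrm_mul n _ _).trans (Nat.mul_le_mul (nrm_dense n a) (nrm_dense n b))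

/-- The lengths at every level are bounded by the degrees. -/
def Bnd (d : ℕ → ℕ) : (n : ℕ) → NP n → Prop
  | 0, _ => True
  | n + 1, a => List.length a ≤ d n + 1 ∧ ∀ p ∈ (a : List (NP n)), Bnd d n p

theorem Bnd.mono {d d' : ℕ → ℕ} (h : ∀ i, d i ≤ d' i) : ∀ {n} {a : NP n}, Bnd d n a → Bnd d' n a
  | 0, _, _ => trivial
  | n + 1, _, ha => ⟨ha.1.trans (by have := h n; omega), fun p hp => Bnd.mono h (ha.2 p hp)⟩

theorem ladd_spec {α : Type} (P : α → Prop) (f : α → α → α) (hf : ∀ a b, P a → P b → P (f a b)) :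
    ∀ l m, (∀ a ∈ l, P a) → (∀ a ∈ m, P a) →
      (ladd f l m).length = max l.length m.length ∧ ∀ a ∈ ladd f l m, P a
  | [], m, _, hm => ⟨by simp [ladd], hm⟩
  | a :: l, [], hl, _ => ⟨by simp [ladd], hl⟩
  | a :: l, b :: m, hl, hm => by
      have ⟨h1, h2⟩ := ladd_spec P f hf l m (fun x hx => hl x (List.mem_cons_of_mem _ hx))
        (fun x hx => hm x (List.mem_cons_of_mem _ hx))
      refine ⟨by simp [ladd, h1], fun x hx => ?_⟩
      rcases List.mem_cons.1 hx with rfl | hx
      · exact hf a b (hl a (List.mem_cons_self ..)) (hm b (List.mem_cons_self ..))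
      · exact h2 x hx

theorem Bnd.zero (d : ℕ → ℕ) : ∀ n, Bnd d n (Kron.zero n)
  | 0 => trivial
  | n + 1 => ⟨by simp [Kron.zero], fun p hp => by simp [Kron.zero] at hp⟩

theorem Bnd.cst (d : ℕ → ℕ) (z : ℤ) : ∀ n, Bnd d n (Kron.cst n z)
  | 0 => trivial
  | n + 1 => ⟨by simp [Kron.cst], fun p hp => by
      simp [Kron.cst] at hp; subst hp; exact Bnd.cst d z n⟩

theorem Bnd.var (d : ℕ → ℕ) (i : ℕ) (hd : 1 ≤ d i) : ∀ n, Bnd d n (Kron.var n i)
  | 0 => trivial
  | n + 1 => by
      by_cases hi : i = n
      · subst hi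
        refine ⟨by simp [Kron.var]; omega, fun p hp => ?_⟩
        simp [Kron.var] at hp
        rcases hp with rfl | rfl
        · exact Bnd.zero d i
        · exact Bnd.cst d 1 i
      · refine ⟨by simp [Kron.var, hi], fun p hp => ?_⟩
        simp [Kron.var, hi] at hp
        subst hp
        exact Bnd.var d i hd n

theorem Bnd.add (d : ℕ → ℕ) : ∀ n a b, Bnd d n a → Bnd d n b → Bnd d n (Kron.add n a b)
  | 0, _, _, _, _ => trivial
  | n + 1, a, b, ha, hb => by
      have ⟨h1, h2⟩ := ladd_spec _ _ (Bnd.add d n) a b ha.2 hb.2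
      exact ⟨h1 ▸ max_le ha.1 hb.1, h2⟩

theorem Bnd.neg (d : ℕ → ℕ) : ∀ n a, Bnd d n a → Bnd d n (Kron.neg n a)
  | 0, _, _ => trivial
  | n + 1, a, ha => ⟨by simpa [Kron.neg] using ha.1, fun p hp => by
      obtain ⟨q, hq, rfl⟩ := List.mem_map.1 hp
      exact Bnd.neg d n q (ha.2 q hq)⟩

theorem Bnd.mul (d d' : ℕ → ℕ) : ∀ n a b, Bnd d n a → Bnd d' n b →
    Bnd (fun i => d i + d' i) n (Kron.mul n a b)
  | 0, _, _, _, _ => trivial
  | n + 1, a, b, ha, hb => by
      have key : ∀ l : List (NP n), (∀ p ∈ l, Bnd d n p) →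
          (l ≠ [] → (lmul (Kron.zero n) (Kron.add n) (Kron.mul n) l b).length ≤
            l.length + (d' n + 1) - 1) ∧
          (l = [] → lmul (Kron.zero n) (Kron.add n) (Kron.mul n) l b = []) ∧
          ∀ p ∈ lmul (Kron.zero n) (Kron.add n) (Kron.mul n) l b,
            Bnd (fun i => d i + d' i) n p := by
        intro l
        induction l with
        | nil => intro _; simp [lmul]
        | cons x l ih =>
          intro hl
          have ⟨i1, i2, i3⟩ := ih fun p hp => hl p (List.mem_cons_of_mem _ hp)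
          have hx : ∀ p ∈ b.map (Kron.mul n x), Bnd (fun i => d i + d' i) n p := fun p hp => by
            obtain ⟨y, hy, rfl⟩ := List.mem_map.1 hp
            exact Bnd.mul d d' n x y (hl x (List.mem_cons_self ..)) (hb.2 y hy)
          have hz : ∀ p ∈ Kron.zero n :: lmul (Kron.zero n) (Kron.add n) (Kron.mul n) l b,
              Bnd (fun i => d i + d' i) n p := fun p hp => by
            rcases List.mem_cons.1 hp with rfl | hp
            · exact Bnd.zero _ n
            · exact i3 p hp
          have ⟨j1, j2⟩ := ladd_spec _ _ (Bnd.add (fun i => d i + d' i) n) _ _ hx hz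
          refine ⟨fun _ => ?_, fun h => absurd h (List.cons_ne_nil _ _), j2⟩
          have hb1 := hb.1
          simp only [lmul, j1, List.length_map, List.length_cons]
          by_cases hl0 : l = []
          · rw [i2 hl0]; simp [hl0]; omega
          · have := i1 hl0; omega
      have ⟨k1, k2, k3⟩ := key a ha.2
      refine ⟨?_, k3⟩
      by_cases ha0 : (a : List (NP n)) = []
      · have := k2 ha0
        simp only [Kron.mul]
        rw [this]; simp
      · have := k1 ha0
        have := ha.1
        simp only [Kron.mul]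
        omega

theorem Bnd.dense (n : ℕ) : ∀ e : Ex, Bnd (fun i => e.deg i) n (Kron.dense n e)
  | .c z => Bnd.cst _ z n
  | .v i => Bnd.var _ i (by simp [Ex.deg]) n
  | .add a b => Bnd.add _ n _ _ ((Bnd.dense n a).mono fun i => le_max_left _ _)
      ((Bnd.dense n b).mono fun i => le_max_right _ _)
  | .sub a b => Bnd.add _ n _ _ ((Bnd.dense n a).mono fun i => le_max_left _ _)
      (Bnd.neg _ n _ ((Bnd.dense n b).mono fun i => le_max_right _ _))
  | .mul a b => Bnd.mul _ _ n _ _ (Bnd.dense n a) (Bnd.dense n b)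

/-- Number of coefficient slots of the first `i` variables. -/
def slots (d : ℕ → ℕ) : ℕ → ℕ
  | 0 => 1
  | i + 1 => slots d i * (d i + 1)

/-- The Kronecker point. -/
def point (d : ℕ → ℕ) (b i : ℕ) : ℤ := (2 : ℤ) ^ (b * slots d i)

theorem abs_lev_le {α : Type} (e : α → ℤ) (N : α → ℕ) (x C : ℤ) (hx : 1 ≤ x) (hC : 0 ≤ C) :
    ∀ (k : ℕ) (l : List α), l.length ≤ k + 1 → (∀ a ∈ l, |e a| ≤ N a * C) →
      |lev e x l| ≤ ((l.map N).sum : ℕ) * (C * x ^ k)
  | _, [], _, _ => by simp [lev]
  | 0, a :: l, hk, h => by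
      have hl : l = [] := List.length_eq_zero_iff.1 (by simp only [List.length_cons] at hk; omega)
      subst hl
      simpa [lev] using h a (List.mem_cons_self ..)
  | k + 1, a :: l, hk, h => by
      have ih := abs_lev_le e N x C hx hC k l (by simp at hk; omega)
        fun b hb => h b (List.mem_cons_of_mem _ hb)
      have ha := h a (List.mem_cons_self ..)
      have h1 : (1 : ℤ) ≤ x ^ (k + 1) := one_le_pow₀ hx
      have hx0 : 0 ≤ x := by omega
      calc |lev e x (a :: l)| ≤ |e a| + |x * lev e x l| := abs_add_le _ _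
        _ ≤ (N a : ℤ) * C + x * (((l.map N).sum : ℕ) * (C * x ^ k)) := by
            rw [abs_mul, abs_of_nonneg hx0]
            exact add_le_add ha (mul_le_mul_of_nonneg_left ih hx0)
        _ ≤ (N a : ℤ) * C * x ^ (k + 1) + x * (((l.map N).sum : ℕ) * (C * x ^ k)) :=
            add_le_add (le_mul_of_one_le_right (by positivity) h1) le_rfl
        _ = (((a :: l).map N).sum : ℕ) * (C * x ^ (k + 1)) := by
            simp only [List.map_cons, List.sum_cons, Nat.cast_add, pow_succ]
            ring

theorem abs_ev_le (d : ℕ → ℕ) (b : ℕ) : ∀ n (a : NP n), Bnd d n a →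
    |ev (point d b) n a| ≤ nrm n a * (2 : ℤ) ^ (b * (slots d n - 1))
  | 0, a, _ => by simp [ev, nrm, slots]
  | n + 1, a, ha => by
      have hpos : 1 ≤ slots d n := by
        clear a ha
        induction n with
        | zero => simp [slots]
        | succ k ih => exact Nat.one_le_iff_ne_zero.2 (by simp [slots]; omega)
      have h := abs_lev_le (ev (point d b) n) (nrm n) (point d b n)
        ((2 : ℤ) ^ (b * (slots d n - 1))) (one_le_pow₀ (by norm_num)) (by positivity) (d n) a ha.1
        fun p hp => abs_ev_le d b n p (ha.2 p hp)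
      refine h.trans_eq ?_
      simp only [nrm, point, slots, ← pow_mul, ← pow_add]
      congr 2
      obtain ⟨m, hm⟩ := Nat.exists_eq_add_of_le hpos
      rw [hm]
      simp only [Nat.add_sub_cancel_left]
      have : (1 + m) * (d n + 1) - 1 = m + (1 + m) * d n := by
        rw [Nat.mul_add, Nat.mul_one]; omega
      rw [this]
      ring

/-- All digits are nonnegative coefficients. -/
def chk (d : ℕ → ℕ) (b : ℕ) : ℕ → ℤ → Bool
  | 0, v => decide (0 ≤ v)
  | n + 1, v => go (chk d b n) (point d b n) (d n + 1) v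
where
  go (f : ℤ → Bool) (X : ℤ) : ℕ → ℤ → Bool
    | 0, _ => true
    | k + 1, v => decide (2 * (v % X) < X) && f (v % X) && go f X k (v / X)

theorem go_spec {α : Type} (f : ℤ → Bool) (e : α → ℤ) (G : α → Prop) (X : ℤ) :
    ∀ (k : ℕ) (l : List α), l.length ≤ k → (∀ a ∈ l, 2 * |e a| < X) →
      (∀ a ∈ l, f (e a) = true → G a) → chk.go f X k (lev e X l) = true → ∀ a ∈ l, G a
  | _, [], _, _, _, _, a, ha => absurd ha List.not_mem_nil
  | 0, _ :: _, hk, _, _, _, _, _ => absurd hk (by simp)
  | k + 1, a :: l, hk, hb, hG, hc, x, hx => by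
      simp only [chk.go, Bool.and_eq_true, decide_eq_true_eq, lev] at hc
      obtain ⟨⟨h1', h2⟩, h3⟩ := hc
      have h1 := of_decide_eq_true h1'
      clear h1'
      have ha := abs_lt.1 (show |2 * e a| < X by
        rw [abs_mul, abs_two]; exact hb a (List.mem_cons_self ..))
      have hr : (e a + X * lev e X l) % X = e a % X := Int.add_mul_emod_self_left ..
      rw [hr] at h1 h2
      have h0 : 0 ≤ e a := by
        by_contra hn
        have : e a % X = e a + X := by
          rw [← Int.add_emod_right]
          exact Int.emod_eq_of_lt (by omega) (by omega)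
        omega
      have he : e a % X = e a := Int.emod_eq_of_lt h0 (by omega)
      rw [he] at h2
      have hd : (e a + X * lev e X l) / X = lev e X l := by
        rw [Int.add_mul_ediv_left _ _ (by omega : X ≠ 0), Int.ediv_eq_zero_of_lt h0 (by omega),
          zero_add]
      rw [hd] at h3
      rcases List.mem_cons.1 hx with rfl | hx
      · exact hG _ (List.mem_cons_self ..) h2
      · exact go_spec f e G X k l (by simp at hk; omega)
          (fun y hy => hb y (List.mem_cons_of_mem _ hy))
          (fun y hy => hG y (List.mem_cons_of_mem _ hy)) h3 x hx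

/-- All coefficients are nonnegative. -/
def Nonneg : (n : ℕ) → NP n → Prop
  | 0, a => (0 : ℤ) ≤ a
  | n + 1, a => ∀ p ∈ (a : List (NP n)), Nonneg n p

theorem nrm_le_of_mem {n : ℕ} {a : NP (n + 1)} {p : NP n} (hp : p ∈ (a : List (NP n))) :
    nrm n p ≤ nrm (n + 1) a :=
  List.single_le_sum (fun _ _ => Nat.zero_le _) _ (List.mem_map_of_mem hp)

theorem chk_spec (d : ℕ → ℕ) (b : ℕ) : ∀ n (a : NP n), Bnd d n a →
    2 * nrm n a < 2 ^ b → chk d b n (ev (point d b) n a) = true → Nonneg n a
  | 0, a, _, _, h => by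
      show (0 : ℤ) ≤ a
      have h' : decide ((0 : ℤ) ≤ a) = true := h
      exact of_decide_eq_true h'
  | n + 1, a, ha, hN, h => by
      refine go_spec (chk d b n) (ev (point d b) n) (Nonneg n) _ (d n + 1) a ha.1 (fun p hp => ?_)
        (fun p hp hc => chk_spec d b n p (ha.2 p hp) ?_ hc) h
      · have h1 := abs_ev_le d b n p (ha.2 p hp)
        have h2 : 2 * nrm n p < 2 ^ b := by have := nrm_le_of_mem hp; omega
        have h3 : (2 : ℤ) * (nrm n p : ℤ) < (2 : ℤ) ^ b := by exact_mod_cast h2
        have hs : slots d n = (slots d n - 1) + 1 := by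
          have : slots d n ≠ 0 := by
            clear hp h1 h2 h3 hN h ha a p
            induction n with
            | zero => simp [slots]
            | succ k ih => simp [slots, ih]
          omega
        calc 2 * |ev (point d b) n p| ≤ 2 * ((nrm n p : ℤ) * 2 ^ (b * (slots d n - 1))) := by
              linarith
          _ = (2 * (nrm n p : ℤ)) * 2 ^ (b * (slots d n - 1)) := by ring
          _ < 2 ^ b * 2 ^ (b * (slots d n - 1)) := mul_lt_mul_of_pos_right h3 (by positivity)
          _ = point d b n := by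
              rw [point, ← pow_add]
              congr 1
              nth_rw 2 [hs]
              ring
      · have := nrm_le_of_mem hp
        omega

theorem ev_nonneg {R : Type*} [CommRing R] [PartialOrder R] [IsOrderedRing R] (ρ : ℕ → R)
    (hρ : ∀ i, 0 ≤ ρ i) : ∀ n (a : NP n), Nonneg n a → 0 ≤ ev ρ n a
  | 0, a, h => by simpa [ev] using Int.cast_nonneg (R := R) h
  | n + 1, a, h => by
      simp only [ev]
      have key : ∀ l : List (NP n), (∀ p ∈ l, Nonneg n p) → 0 ≤ lev (ev ρ n) (ρ n) l := by
        intro l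
        induction l with
        | nil => simp [lev]
        | cons p l ih =>
          intro hl
          exact add_nonneg (ev_nonneg ρ hρ n p (hl p (List.mem_cons_self ..)))
            (mul_nonneg (hρ n) (ih fun x hx => hl x (List.mem_cons_of_mem _ hx)))
      exact key a h

/-- The degree bounds of an expression in four variables, tabulated. -/
def degs (e : Ex) : ℕ → ℕ := fun i =>
  if i = 0 then e.deg 0 else if i = 1 then e.deg 1 else if i = 2 then e.deg 2 else e.deg i

theorem degs_eq (e : Ex) : degs e = fun i => e.deg i := by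
  funext i
  unfold degs
  split_ifs <;> simp_all

/-- The test: `n` variables, `b` bits per coefficient. -/
def test (n b : ℕ) (e : Ex) : Bool :=
  e.inRange n && decide (2 * e.norm < 2 ^ b) &&
    chk (degs e) b n (e.evalZ (point (degs e) b))

/-- An expression that passes the test is nonnegative at nonnegative arguments. -/
theorem nonneg_of_test {R : Type*} [CommRing R] [PartialOrder R] [IsOrderedRing R] {n b : ℕ}
    {e : Ex} (h : test n b e = true) (ρ : ℕ → R) (hρ : ∀ i, 0 ≤ ρ i) : 0 ≤ e.eval ρ := by
  simp only [test, Bool.and_eq_true, decide_eq_true_eq, degs_eq] at h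
  obtain ⟨⟨hr, hN⟩, hc⟩ := h
  rw [← ev_dense ρ n e hr]
  refine ev_nonneg ρ hρ n _ (chk_spec _ b n _ (Bnd.dense n e) ?_ ?_)
  · have := nrm_dense n e
    omega
  · rwa [ev_dense _ n e hr, ← Ex.evalZ_eq]

end Vale.Agent.P100.Pos.Kron
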