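import Vale.Agent.P100.Pos.Defs
import Vale.Agent.P100.Pos.Forms

/-!
P100: the bound on `kap` in the scaled variables. With `β = q/h`, `α = (1-q)/h`,
`y = β (1 + 2 h t)`, `z = Z / (1 + h t)`, `U = (1 - w)/h` the difference
`kap - (1/20) (4 gC gP aDe)` is a positive multiple of `Forms.fF`.
-/

namespace Vale.Agent.P100.Pos.Scale

variable {h q t w Z : ℝ}

/-- Real constants. -/
def kR (n : ℤ) : ℝ := n

/-- The form at real arguments. -/
noncomputable def F (h q t w Z : ℝ) : ℝ := Forms.fF kR h q t w Z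

structure Ok (h q t : ℝ) : Prop where
  hh : 0 < h
  hq : 0 < q
  hq1 : q < 1
  ht : 0 < t

theorem Ok.o1_pos (o : Ok h q t) : 0 < 1 + h * t := by have := o.hh; have := o.ht; positivity

theorem Ok.o2_pos (o : Ok h q t) : 0 < 1 + 2 * h := by have := o.hh; positivity


theorem dD_eq : dD ((1 - q) / h) (q / h) = 1 / h := by simp only [dD]; ring

theorem dN_eq (o : Ok h q t) : dN ((1 - q) / h) (q / h) = (1 + 2 * h) / h := by
  have := o.hh.ne'
  simp only [dN]; field_simp; ring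

theorem dM_eq (o : Ok h q t) : dM ((1 - q) / h) (q / h) = (1 + h) / h := by
  have := o.hh.ne'
  simp only [dM]; field_simp; ring

theorem den_eq : den (q / h) (q / h * (1 + 2 * h * t)) = 2 * q * (1 + h * t) / h := by simp only [den]; ring

theorem dl_eq (o : Ok h q t) : dl (q / h) (q / h * (1 + 2 * h * t)) = 2 * q * t := by
  have := o.hh.ne'
  simp only [dl]; field_simp; ring

theorem dv_eq : dv ((1 - q) / h) (q / h * (1 + 2 * h * t)) = Forms.fV kR h q t / h := by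
  simp only [dv, Forms.fV, Forms.fd, kR]; push_cast; ring

theorem gL_eq (o : Ok h q t) : gL ((1 - q) / h) (q / h) ((1 - w) / h) = Forms.fL kR q w / (1 - q) := by
  have := o.hh.ne'
  have : (1 - q) ≠ 0 := (sub_pos.2 o.hq1).ne'
  simp only [gL, l1, dD_eq, Forms.fL, Forms.fd, Forms.fr, kR]; push_cast
  field_simp; ring

theorem c5_eq (o : Ok h q t) : c5 ((1 - q) / h) (q / h) (q / h * (1 + 2 * h * t)) ((1 - w) / h) =
    (1 + h) * Forms.cp kR h q t w / (4 * q * (1 - q) * (1 + h * t) ^ 2) := by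
  have := o.hh.ne'
  have := o.hq.ne'
  have := o.o1_pos.ne'
  have : (1 - q) ≠ 0 := (sub_pos.2 o.hq1).ne'
  simp only [c5, dM_eq o, dD_eq, den_eq, dv_eq, gL_eq o, Forms.cp, Forms.fr, kR]; push_cast
  field_simp; ring

theorem gj0_eq (o : Ok h q t) : gj0 ((1 - q) / h) (q / h) (q / h * (1 + 2 * h * t)) =
    1 - Forms.om kR h q t / (2 * q * t * (1 + h * t)) := by
  have := o.hh.ne'
  have := o.hq.ne'
  have := o.ht.ne'
  have := o.o1_pos.ne'
  simp only [gj0, gd, dN_eq o, dD_eq, den_eq, dl_eq o, dv_eq, Forms.om, Forms.fd, Forms.fV,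
    Forms.o1, kR]; push_cast
  field_simp; ring

theorem gw_eq (o : Ok h q t) : gw ((1 - q) / h) (q / h) (q / h * (1 + 2 * h * t)) (Z / (1 + h * t)) ((1 - w) / h) =
    Forms.fw kR h q t w Z / (2 * q * (1 - q) * (1 + h * t) ^ 2 * t) := by
  have := o.hh.ne'
  have := o.hq.ne'
  have := o.ht.ne'
  have := o.o1_pos.ne'
  have : (1 - q) ≠ 0 := (sub_pos.2 o.hq1).ne'
  simp only [gw, c5_eq o, gj0_eq o, dl_eq o, Forms.fw, Forms.o1, Forms.fr, kR]; push_cast
  field_simp; ring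

theorem aDe_eq (o : Ok h q t) : aDe ((1 - q) / h) (q / h) (q / h * (1 + 2 * h * t)) (Z / (1 + h * t)) =
    q / h ^ 2 * ((1 + 2 * (h * t)) * Forms.fV kR h q t + 2 * (h * Z)) := by
  have := o.hh.ne'
  have := o.o1_pos.ne'
  simp only [aDe, den_eq, dv_eq]
  field_simp; ring

theorem gC_eq (o : Ok h q t) : gC ((1 - q) / h) (q / h) (q / h * (1 + 2 * h * t)) (Z / (1 + h * t)) ((1 - w) / h) =
    (1 + h) * q / (h ^ 2 * (1 + 2 * h) * (1 - q)) *
      ((1 + 2 * h) * (Forms.fV kR h q t * Forms.fL kR q w) -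
        (1 - q) * ((1 + 2 * (h * t)) * Forms.fV kR h q t + 2 * (h * Z))) := by
  have := o.hh.ne'
  have : (1 - q) ≠ 0 := (sub_pos.2 o.hq1).ne'
  simp only [gC, gE, dM_eq o, dD_eq, dN_eq o, dv_eq, gL_eq o, aDe_eq o]
  generalize Forms.fV kR h q t = V
  generalize Forms.fL kR q w = L
  have h2 := o.o2_pos.ne'
  generalize hO : 1 + 2 * h = O at h2 ⊢
  field_simp

theorem ga_eq (o : Ok h q t) : ga ((1 - q) / h) (q / h) (q / h * (1 + 2 * h * t)) (Z / (1 + h * t)) - 1 =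
    h * Forms.fG kR h q t Z / ((1 - q) * (1 + h * t)) := by
  have := o.hh.ne'
  have := o.hq.ne'
  have := o.o1_pos.ne'
  have : (1 - q) ≠ 0 := (sub_pos.2 o.hq1).ne'
  simp only [ga, gG, dN_eq o, den_eq, dv_eq, Forms.fG, Forms.fd, Forms.fV, kR]; push_cast
  field_simp; ring

theorem gE1_eq (o : Ok h q t) : (1 - q) * gE1 ((1 - q) / h) (q / h) (q / h * (1 + 2 * h * t)) (Z / (1 + h * t)) ((1 - w) / h) =
    -(q * (1 + h)) *
      (2 * q * Z * Forms.fL kR q w / (1 - q) +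
        2 * (1 - 2 * q) * Forms.fV kR h q t * Forms.fH kR h q t w Z / (1 + h * t)) / h := by
  have := o.hh.ne'
  have := o.hq.ne'
  have := o.o1_pos.ne'
  have : (1 - q) ≠ 0 := (sub_pos.2 o.hq1).ne'
  simp only [gE1, dU, l1, dM_eq o, dD_eq, den_eq, dv_eq, gL_eq o, ga_eq o, Forms.fH, Forms.o1,
    Forms.fr, kR]; push_cast
  field_simp; ring

theorem gP_eq (o : Ok h q t) : gP ((1 - q) / h) (q / h) (q / h * (1 + 2 * h * t)) (Z / (1 + h * t)) ((1 - w) / h) =
    (1 + h) * Forms.fP kR h q t w Z / (8 * q ^ 2 * (1 + h * t) ^ 3 * t * (1 - q)) := by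
  have := o.hh.ne'
  have := o.hq.ne'
  have := o.ht.ne'
  have := o.o1_pos.ne'
  have hr : (1 - q) ≠ 0 := (sub_pos.2 o.hq1).ne'
  have e : ((1 - q) / h) * gE1 ((1 - q) / h) (q / h) (q / h * (1 + 2 * h * t)) (Z / (1 + h * t)) ((1 - w) / h) = (1 - q) * gE1 ((1 - q) / h) (q / h) (q / h * (1 + 2 * h * t)) (Z / (1 + h * t)) ((1 - w) / h) / h := by ring
  simp only [gP, e, gE1_eq o, c5_eq o, gj0_eq o, den_eq, dl_eq o, Forms.fP, Forms.o1, Forms.fd,
    Forms.fr, kR]; push_cast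
  field_simp; ring

/-- The bracket of the cross term. -/
noncomputable def Q0 (h q t w Z : ℝ) : ℝ :=
  (1 + h * t) * (Z * Forms.fL kR q w) +
    2 * (h * ((1 - q) * (Forms.fV kR h q t * (Forms.fH kR h q t w Z * t))))

theorem gS_eq (o : Ok h q t) : ((1 - q) / h) * gS ((1 - q) / h) (q / h) (q / h * (1 + 2 * h * t)) (Z / (1 + h * t)) ((1 - w) / h) =
    -((1 + h) * q * Q0 h q t w Z * (1 - 2 * q)) / (h ^ 3 * (1 - q) * (1 + h * t) * t) := by
  have := o.hh.ne'
  have := o.hq.ne'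
  have := o.ht.ne'
  have := o.o1_pos.ne'
  have hr : (1 - q) ≠ 0 := (sub_pos.2 o.hq1).ne'
  have e : ((1 - q) / h) * gS ((1 - q) / h) (q / h) (q / h * (1 + 2 * h * t)) (Z / (1 + h * t)) ((1 - w) / h) = (1 - q) * gE1 ((1 - q) / h) (q / h) (q / h * (1 + 2 * h * t)) (Z / (1 + h * t)) ((1 - w) / h) / h -
      gE ((1 - q) / h) (q / h) (q / h * (1 + 2 * h * t)) ((1 - w) / h) * (Z / (1 + h * t)) * den (q / h) (q / h * (1 + 2 * h * t)) / dl (q / h) (q / h * (1 + 2 * h * t)) := by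
    simp only [gS]; field_simp
  simp only [e, Q0, gE1_eq o, gE, dM_eq o, dD_eq, dv_eq, gL_eq o, den_eq, dl_eq o, Forms.fV,
    Forms.fd, kR]; push_cast
  field_simp; ring

theorem kap_regroup (al be y z U : ℝ) : kap al be y z U =
    (-(dM al be) * gE al be y U * gw al be y z U ^ 2 / dN al be +
        4 * gC al be y z U * gP al be y z U -
        2 * dM al be * gw al be y z U * (al * gS al be y z U) / (dN al be * den be y)) *
        aDe al be y z -
      (al * gS al be y z U / den be y) ^ 2 := by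
  simp only [kap]; ring

theorem key (o : Ok h q t) :
    kap ((1 - q) / h) (q / h) (q / h * (1 + 2 * h * t)) (Z / (1 + h * t)) ((1 - w) / h) - 1 / 20 * (4 * gC ((1 - q) / h) (q / h) (q / h * (1 + 2 * h * t)) (Z / (1 + h * t)) ((1 - w) / h) * gP ((1 - q) / h) (q / h) (q / h * (1 + 2 * h * t)) (Z / (1 + h * t)) ((1 - w) / h) * aDe ((1 - q) / h) (q / h) (q / h * (1 + 2 * h * t)) (Z / (1 + h * t))) =
      (1 + h) ^ 2 /
        (40 * h ^ 4 * (1 - q) ^ 3 * (1 + 2 * h) * (1 + h * t) ^ 4 * t ^ 2) * F h q t w Z := by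
  have := o.hh.ne'
  have := o.hq.ne'
  have := o.ht.ne'
  have hr : (1 - q) ≠ 0 := (sub_pos.2 o.hq1).ne'
  have h1 := o.o1_pos.ne'
  have h2 := o.o2_pos.ne'
  rw [kap_regroup, gS_eq o, gC_eq o, gP_eq o, gw_eq o, aDe_eq o]
  have hE : gE ((1 - q) / h) (q / h) (q / h * (1 + 2 * h * t)) ((1 - w) / h) = (1 + h) * q * (Forms.fV kR h q t * Forms.fL kR q w) /
      (h ^ 2 * (1 - q)) := by
    simp only [gE, dM_eq o, dD_eq, dv_eq, gL_eq o]; field_simp
  rw [hE, dM_eq o, dN_eq o, den_eq]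
  simp only [F, Forms.fF, Q0, Forms.o1, Forms.o2, Forms.fd, Forms.fr, kR]
  push_cast
  generalize Forms.fV (fun n : ℤ => (n : ℝ)) h q t = V
  generalize Forms.fL (fun n : ℤ => (n : ℝ)) q w = L
  generalize Forms.fw (fun n : ℤ => (n : ℝ)) h q t w Z = W
  generalize Forms.fP (fun n : ℤ => (n : ℝ)) h q t w Z = P
  generalize Forms.fH (fun n : ℤ => (n : ℝ)) h q t w Z = H
  generalize hO1 : 1 + h * t = O1 at h1 ⊢
  generalize hO2 : 1 + 2 * h = O2 at h2 ⊢
  field_simp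
  subst hO1 hO2
  ring

end Vale.Agent.P100.Pos.Scale
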