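import Vale.Agent.P100.Pos.CertDefs
import Vale.Agent.P100.Pos.Scale

/-!
P100: real readings of the formal fractions of the sheets, and the passage from the nonnegative
orthant to the closed unit box.
-/

namespace Vale.Agent.P100.Pos.Sheet

open Kron Scale
open Filter Topology

/-- A map that respects the operations used by the forms. -/
structure IsHom {D : List Ex} (φ : Q D → ℝ) : Prop where
  k : ∀ z : ℤ, φ (Q.k z) = kR z
  add : ∀ a b, φ (a + b) = φ a + φ b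
  sub : ∀ a b, φ (a - b) = φ a - φ b
  mul : ∀ a b, φ (a * b) = φ a * φ b

variable {D : List Ex} {φ : Q D → ℝ} (H : IsHom φ) (h q t w Z : Q D)
include H

theorem fd_hom : φ (Forms.fd Q.k q) = Forms.fd kR (φ q) := by
  simp only [Forms.fd, H.k, H.sub, H.mul]

theorem fr_hom : φ (Forms.fr Q.k q) = Forms.fr kR (φ q) := by
  simp only [Forms.fr, H.k, H.sub]

theorem o1_hom : φ (Forms.o1 Q.k h t) = Forms.o1 kR (φ h) (φ t) := by
  simp only [Forms.o1, H.k, H.add, H.mul]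

theorem o2_hom : φ (Forms.o2 Q.k h) = Forms.o2 kR (φ h) := by
  simp only [Forms.o2, H.k, H.add, H.mul]

theorem fV_hom : φ (Forms.fV Q.k h q t) = Forms.fV kR (φ h) (φ q) (φ t) := by
  simp only [Forms.fV, fd_hom H, H.k, H.sub, H.mul]

theorem fK_hom : φ (Forms.fK Q.k h q) = Forms.fK kR (φ h) (φ q) := by
  simp only [Forms.fK, o2_hom H, H.k, H.add, H.mul]

theorem fc_hom : φ (Forms.fc Q.k h q) = Forms.fc kR (φ h) (φ q) := by
  simp only [Forms.fc, o2_hom H, H.add, H.mul]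

theorem fL_hom : φ (Forms.fL Q.k q w) = Forms.fL kR (φ q) (φ w) := by
  simp only [Forms.fL, fd_hom H, fr_hom H, H.k, H.add, H.mul]

theorem cp_hom : φ (Forms.cp Q.k h q t w) = Forms.cp kR (φ h) (φ q) (φ t) (φ w) := by
  simp only [Forms.cp, fr_hom H, fV_hom H, fL_hom H, H.sub, H.mul]

theorem om_hom : φ (Forms.om Q.k h q t) = Forms.om kR (φ h) (φ q) (φ t) := by
  simp only [Forms.om, fV_hom H, fd_hom H, o1_hom H, H.k, H.add, H.sub, H.mul]

theorem fG_hom : φ (Forms.fG Q.k h q t Z) = Forms.fG kR (φ h) (φ q) (φ t) (φ Z) := by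
  simp only [Forms.fG, fd_hom H, H.k, H.add, H.sub, H.mul]

theorem fH_hom : φ (Forms.fH Q.k h q t w Z) = Forms.fH kR (φ h) (φ q) (φ t) (φ w) (φ Z) := by
  simp only [Forms.fH, fr_hom H, o1_hom H, fG_hom H, H.k, H.sub, H.mul]

theorem fP_hom : φ (Forms.fP Q.k h q t w Z) = Forms.fP kR (φ h) (φ q) (φ t) (φ w) (φ Z) := by
  simp only [Forms.fP, cp_hom H, om_hom H, o1_hom H, fL_hom H, fd_hom H, fr_hom H, fV_hom H,
    fH_hom H, H.k, H.add, H.mul]

theorem fw_hom : φ (Forms.fw Q.k h q t w Z) = Forms.fw kR (φ h) (φ q) (φ t) (φ w) (φ Z) := by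
  simp only [Forms.fw, cp_hom H, om_hom H, o1_hom H, fr_hom H, H.k, H.add, H.sub, H.mul]

theorem fA_hom : φ (Forms.fA Q.k h q t w) = Forms.fA kR (φ h) (φ q) (φ t) (φ w) := by
  simp only [Forms.fA, Forms.faceAB, o1_hom H, o2_hom H, fL_hom H, fd_hom H, fr_hom H, fP_hom H,
    fw_hom H, fH_hom H, H.k, H.add, H.sub, H.mul]

theorem fB_hom : φ (Forms.fB Q.k h q t w) = Forms.fB kR (φ h) (φ q) (φ t) (φ w) := by
  simp only [Forms.fB, Forms.faceAB, o1_hom H, o2_hom H, fL_hom H, fd_hom H, fr_hom H, fP_hom H,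
    fV_hom H, fw_hom H, fH_hom H, H.k, H.add, H.sub, H.mul]

theorem fF_hom : φ (Forms.fF Q.k h q t w Z) = Forms.fF kR (φ h) (φ q) (φ t) (φ w) (φ Z) := by
  simp only [Forms.fF, o1_hom H, o2_hom H, fL_hom H, fd_hom H, fr_hom H, fP_hom H, fV_hom H,
    fw_hom H, fH_hom H, H.k, H.add, H.sub, H.mul]

omit H

/-- The point of the orthant over a point of the half-open box. -/
noncomputable def rho (a b c e : ℝ) : ℕ → ℝ
  | 0 => a / (1 - a)
  | 1 => b / (1 - b)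
  | 2 => c / (1 - c)
  | 3 => e / (1 - e)
  | _ => 0

structure Box (a b c e : ℝ) : Prop where
  ha : 0 ≤ a
  hb : 0 ≤ b
  hc : 0 ≤ c
  he : 0 ≤ e
  ha1 : a < 1
  hb1 : b < 1
  hc1 : c < 1
  he1 : e < 1

theorem Box.rho_nonneg {a b c e : ℝ} (B : Box a b c e) : ∀ i, 0 ≤ rho a b c e i
  | 0 => div_nonneg B.ha (by linarith [B.ha1])
  | 1 => div_nonneg B.hb (by linarith [B.hb1])
  | 2 => div_nonneg B.hc (by linarith [B.hc1])
  | 3 => div_nonneg B.he (by linarith [B.he1])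
  | _ + 4 => le_rfl

/-- From the half-open box to the closed one along a ray. -/
theorem closed_of_open {g : ℝ → ℝ → ℝ → ℝ → ℝ}
    (hg : ∀ a b c e, Box a b c e → 0 ≤ g a b c e) {a b c e : ℝ}
    (ha : a ∈ Set.Icc 0 1) (hb : b ∈ Set.Icc 0 1) (hc : c ∈ Set.Icc 0 1) (he : e ∈ Set.Icc 0 1)
    (hcont : ContinuousAt (fun l : ℝ => g (l * a) (l * b) (l * c) (l * e)) 1) :
    0 ≤ g a b c e := by
  have h : Tendsto (fun l : ℝ => g (l * a) (l * b) (l * c) (l * e)) (𝓝[<] 1)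
      (𝓝 (g (1 * a) (1 * b) (1 * c) (1 * e))) := hcont.tendsto.mono_left nhdsWithin_le_nhds
  simp only [one_mul] at h
  refine ge_of_tendsto h ?_
  filter_upwards [Ioo_mem_nhdsLT (show (0 : ℝ) < 1 by norm_num)] with l hl
  have k : ∀ x ∈ Set.Icc (0 : ℝ) 1, 0 ≤ l * x ∧ l * x < 1 := fun x hx =>
    ⟨mul_nonneg hl.1.le hx.1, by nlinarith [hl.1, hl.2, hx.1, hx.2]⟩
  exact hg _ _ _ _ ⟨(k a ha).1, (k b hb).1, (k c hc).1, (k e he).1, (k a ha).2, (k b hb).2,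
    (k c hc).2, (k e he).2⟩

theorem fA_continuous :
    Continuous fun p : ℝ × ℝ × ℝ × ℝ => Forms.fA kR p.1 p.2.1 p.2.2.1 p.2.2.2 := by
  simp only [Forms.fA, Forms.faceAB, Forms.fP, Forms.fw, Forms.fH, Forms.fG, Forms.cp, Forms.om,
    Forms.fL, Forms.fV, Forms.fd, Forms.fr, Forms.o1, Forms.o2]
  fun_prop

theorem fB_continuous :
    Continuous fun p : ℝ × ℝ × ℝ × ℝ => Forms.fB kR p.1 p.2.1 p.2.2.1 p.2.2.2 := by
  simp only [Forms.fB, Forms.faceAB, Forms.fP, Forms.fw, Forms.fH, Forms.fG, Forms.cp, Forms.om,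
    Forms.fL, Forms.fV, Forms.fd, Forms.fr, Forms.o1, Forms.o2]
  fun_prop

theorem fF_continuous :
    Continuous fun p : ℝ × ℝ × ℝ × ℝ × ℝ =>
      Forms.fF kR p.1 p.2.1 p.2.2.1 p.2.2.2.1 p.2.2.2.2 := by
  simp only [Forms.fF, Forms.fP, Forms.fw, Forms.fH, Forms.fG, Forms.cp, Forms.om,
    Forms.fL, Forms.fV, Forms.fd, Forms.fr, Forms.o1, Forms.o2]
  fun_prop

end Vale.Agent.P100.Pos.Sheet
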